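import Vale.Agent.P231.H766.Uec1

/-!
# P231, equivariant contraction of short loops (B): circle actions, interpolation, one stage
-/

open Set Filter Topology
open scoped ContDiff ENNReal

namespace Vale.Agent.P231.H766

open Vale.Agent.P231.Fm

/-- a smooth circle action, of period one -/
structure CAct {B : Type*} (DB : Dif B) where
  φ : B → ℝ → B
  smooth : (DB.prod (Dif.lin ℝ)).Map DB (fun p => φ p.1 p.2)
  zero : ∀ b, φ b 0 = b
  add : ∀ b s t, φ (φ b s) t = φ b (s + t)
  per : ∀ b, φ b 1 = b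

/-- smooth interpolation between points at distance less than `D` -/
structure Geo {M : Type*} [MetricSpace M] (DM : Dif M) (D : ℝ) where
  G : M → M → ℝ → M
  cont : ∀ {E : Type} [NormedAddCommGroup E] [NormedSpace ℝ E] [FiniteDimensional ℝ E]
    {u : E → M} {x : E}, DM.At u x → ContinuousAt u x
  smooth : ∀ {E : Type} [NormedAddCommGroup E] [NormedSpace ℝ E] [FiniteDimensional ℝ E]
    {a b : E → M} {s : E → ℝ} {x : E}, DM.At a x → DM.At b x → Sm s x →
      dist (a x) (b x) < D → DM.At (fun y => G (a y) (b y) (s y)) x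
  zero : ∀ a b, dist a b < D → G a b 0 = a
  one : ∀ a b, dist a b < D → G a b 1 = b
  lip : ∀ a b, dist a b < D → ∀ s ∈ Icc (0 : ℝ) 1, ∀ t ∈ Icc (0 : ℝ) 1,
    dist (G a b s) (G a b t) ≤ |s - t| * dist a b

namespace CAct

variable {B : Type*} {DB : Dif B} (A : CAct DB)

theorem per_nat (b : B) (n : ℕ) : A.φ b n = b := by
  induction n with
  | zero => simpa using A.zero b
  | succ n ih =>
    rw [Nat.cast_succ, ← A.add, ih, A.per]

theorem per_int (b : B) (n : ℤ) : A.φ b n = b := by
  obtain ⟨m, rfl | rfl⟩ := n.eq_nat_or_neg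
  · simpa using A.per_nat b m
  · have h := A.add b (-(m : ℝ)) m
    rw [neg_add_cancel, A.zero, A.per_nat] at h
    simpa using h

theorem add_int (b : B) (t : ℝ) (n : ℤ) : A.φ b (t + n) = A.φ b t := by
  rw [← A.add, A.per_int]

theorem at_phi {E : Type} [NormedAddCommGroup E] [NormedSpace ℝ E] [FiniteDimensional ℝ E]
    {u : E → B} {τ : E → ℝ} {x : E} (hu : DB.At u x) (hτ : Sm τ x) :
    DB.At (fun y => A.φ (u y) (τ y)) x :=
  A.smooth (u := fun y => (u y, τ y)) ⟨hu, hτ⟩

end CAct

/-! ### one stage on loops -/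

variable {M : Type*} [MetricSpace M] {DM : Dif M} {D : ℝ} (g : Geo DM D)

/-- the loop `c`, with the piece over `[0, s]` replaced by the minimal geodesic -/
noncomputable def Nl (c : ℝ → M) (s x : ℝ) : M :=
  if Int.fract x ≤ 1 / 2 then g.G (c 0) (c s) (stp (2 * Int.fract x))
  else c (s + (1 - s) * stp (2 * Int.fract x - 1))

theorem Nl_per (c : ℝ → M) (s x : ℝ) : Nl g c s (x + 1) = Nl g c s x := by
  rw [Nl, Nl, Int.fract_add_one]

theorem Nl_add_int (c : ℝ → M) (s x : ℝ) (n : ℤ) : Nl g c s (x + n) = Nl g c s x := by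
  rw [Nl, Nl, Int.fract_add_intCast]

theorem G_self {a : M} (hD : 0 < D) {s : ℝ} (hs : s ∈ Icc (0 : ℝ) 1) : g.G a a s = a := by
  have h0 : dist a a < D := by rwa [dist_self]
  have h1 := g.lip a a h0 s hs 0 ⟨le_rfl, zero_le_one⟩
  rw [g.zero a a h0, dist_self, mul_zero] at h1
  exact dist_le_zero.1 h1

theorem stp_mem (x : ℝ) : stp x ∈ Icc (0 : ℝ) 1 := ⟨stp_nonneg x, stp_le_one x⟩

/-- the stage at `s = 1` -/
theorem Nl_one (hD : 0 < D) {c : ℝ → M} (hc : ∀ t, c (t + 1) = c t) (x : ℝ) :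
    Nl g c 1 x = c 0 := by
  have h1 : c 1 = c 0 := by simpa using hc 0
  rw [Nl]
  split_ifs with h
  · rw [h1, G_self g hD (stp_mem _)]
  · rw [sub_self, zero_mul, add_zero, h1]

/-- the stage at `s = 0` -/
theorem Nl_zero (hD : 0 < D) {c : ℝ → M} (x : ℝ) :
    Nl g c 0 x = c (stp (2 * Int.fract x - 1)) := by
  rw [Nl]
  split_ifs with h
  · rw [G_self g hD (stp_mem _), stp_of_le (by linarith)]
  · rw [zero_add, sub_zero, one_mul]

/-- the stage on a constant loop -/
theorem Nl_const (hD : 0 < D) (p : M) (s x : ℝ) : Nl g (fun _ => p) s x = p := by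
  rw [Nl]
  split_ifs with h
  · exact G_self g hD (stp_mem _)
  · rfl

theorem var_G {a b : M} (h : dist a b < D) :
    eVariationOn (fun x => g.G a b (stp (2 * x))) (Icc (0 : ℝ) (1 / 2)) ≤ edist a b := by
  have h1 : LipschitzOnWith (Real.toNNReal (dist a b)) (fun s => g.G a b s) (Icc (0 : ℝ) 1) := by
    refine LipschitzOnWith.of_dist_le_mul fun s hs t ht => ?_
    rw [Real.coe_toNNReal _ dist_nonneg, mul_comm, Real.dist_eq]
    exact g.lip a b h s hs t ht
  have h2 := h1.comp_eVariationOn_le (g := fun x : ℝ => stp (2 * x)) (s := Icc (0 : ℝ) (1 / 2))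
    (fun x _ => stp_mem _)
  refine h2.trans ?_
  have h3 : MonotoneOn (fun x : ℝ => stp (2 * x)) (Icc (0 : ℝ) (1 / 2)) := fun x _ y _ h =>
    stp_mono (by linarith)
  have h4 := (h3.eVariationOn_eq (a := 0) (b := 1 / 2) ⟨le_rfl, by norm_num⟩
    ⟨by norm_num, le_rfl⟩).le
  have h5 : stp (2 * (1 / 2)) - stp (2 * 0) = 1 := by
    rw [stp_of_ge (by norm_num), stp_of_le (by norm_num), sub_zero]
  simp only [h5, inter_self, ENNReal.ofReal_one] at h4
  calc _ ≤ (Real.toNNReal (dist a b) : ℝ≥0∞) * 1 := mul_le_mul_right h4 _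
    _ = edist a b := by rw [mul_one, edist_dist]; rfl

/-- the stage does not increase the variation -/
theorem var_Nl {c : ℝ → M} (hc : ∀ t, c (t + 1) = c t) {s : ℝ} (h0 : 0 ≤ s) (h1 : s ≤ 1)
    (hd : dist (c 0) (c s) < D) :
    eVariationOn (Nl g c s) (Icc 0 1) ≤ eVariationOn c (Icc 0 1) := by
  have hc1 : c 1 = c 0 := by simpa using hc 0
  rw [var_split (Nl g c s) (s := 1 / 2) (by norm_num) (by norm_num), var_split c h0 h1]
  refine add_le_add ?_ ?_
  · have e : EqOn (Nl g c s) (fun x => g.G (c 0) (c s) (stp (2 * x))) (Icc 0 (1 / 2)) := by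
      intro x hx
      have hf : Int.fract x = x := Int.fract_eq_self.2 ⟨hx.1, by linarith [hx.2]⟩
      rw [Nl, hf, if_pos hx.2]
    rw [eVariationOn.eq_of_eqOn e]
    exact (var_G g hd).trans (eVariationOn.edist_le c ⟨le_rfl, h0⟩ ⟨h0, le_rfl⟩)
  · have e : EqOn (Nl g c s) (fun x => c (s + (1 - s) * stp (2 * x - 1))) (Icc (1 / 2) 1) := by
      intro x hx
      change Nl g c s x = c (s + (1 - s) * stp (2 * x - 1))
      rcases eq_or_lt_of_le hx.2 with h2 | h2
      · subst h2
        rw [Nl, Int.fract_one, if_pos (by norm_num), stp_of_le (by norm_num), g.zero _ _ hd,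
          stp_of_ge (by norm_num), mul_one, add_sub_cancel, hc1]
      · have hf : Int.fract x = x := Int.fract_eq_self.2 ⟨by linarith [hx.1], h2⟩
        rcases eq_or_lt_of_le hx.1 with h3 | h3
        · rw [Nl, hf, ← h3, if_pos le_rfl, stp_of_ge (by norm_num), stp_of_le (by norm_num),
            g.one _ _ hd, mul_zero, add_zero]
        · rw [Nl, hf, if_neg (not_le.2 h3)]
    rw [eVariationOn.eq_of_eqOn e]
    refine eVariationOn.comp_le_of_monotoneOn c (fun x => s + (1 - s) * stp (2 * x - 1))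
      (fun x _ y _ h => ?_) fun x _ => ?_
    · have := stp_mono (show 2 * x - 1 ≤ 2 * y - 1 by linarith)
      have h2 : 0 ≤ 1 - s := by linarith
      have := mul_le_mul_of_nonneg_left this h2
      simp only
      linarith
    · have h2 : 0 ≤ 1 - s := by linarith
      have h3 := mul_nonneg h2 (stp_nonneg (2 * x - 1))
      have h4 := mul_le_mul_of_nonneg_left (stp_le_one (2 * x - 1)) h2
      exact ⟨by linarith, by linarith⟩

/-! ### one stage on families -/

variable {B : Type*} {DB : Dif B} (A : CAct DB)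

/-- the stage formula; `τ` is the time of `b` on its orbit -/
noncomputable def St (C : B → M) (b : B) (τ s : ℝ) : M :=
  Nl g (fun x => C (A.φ b (x - τ))) s τ

omit [MetricSpace M] in
theorem loop_per (C : B → M) (b : B) (τ t : ℝ) :
    C (A.φ b ((t + 1) - τ)) = C (A.φ b (t - τ)) := by
  have : t + 1 - τ = (t - τ) + ((1 : ℤ) : ℝ) := by push_cast; ring
  rw [this, A.add_int]

theorem St_add_int (C : B → M) (b : B) (τ s : ℝ) (n : ℤ) :
    St g A C b (τ + n) s = St g A C b τ s := by
  have h : (fun x => C (A.φ b (x - (τ + n)))) = fun x => C (A.φ b (x - τ)) := by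
    funext x
    have : x - (τ + n) = (x - τ) + ((-n : ℤ) : ℝ) := by push_cast; ring
    rw [this, A.add_int]
  rw [St, St, h, Nl_add_int]

theorem St_phi (C : B → M) (b : B) (τ s t : ℝ) :
    St g A C (A.φ b t) (τ + t) s = Nl g (fun x => C (A.φ b (x - τ))) s (τ + t) := by
  have h : (fun x => C (A.φ (A.φ b t) (x - (τ + t)))) = fun x => C (A.φ b (x - τ)) := by
    funext x
    rw [A.add]
    congr 2
    ring
  rw [St, h]

/-- the stage is smooth -/
theorem St_smooth {C : B → M} (hC : DB.Map DM C) {E : Type} [NormedAddCommGroup E]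
    [NormedSpace ℝ E] [FiniteDimensional ℝ E] {u : E → B} {τ s : E → ℝ} {x : E}
    (hu : DB.At u x) (hτ : Sm τ x) (hs : Sm s x)
    (hd : dist (C (A.φ (u x) (0 - τ x))) (C (A.φ (u x) (s x - τ x))) < D) :
    DM.At (fun y => St g A C (u y) (τ y) (s y)) x := by
  have hc0 : Sm (fun _ : E => (0 : ℝ)) x := Sm.of_contDiff contDiff_const x
  have sub {f h : E → ℝ} (hf : Sm f x) (hh : Sm h x) : Sm (fun y => f y - h y) x := by
    filter_upwards [hf, hh] with y h1 h2 using h1.sub h2
  have hA : DM.At (fun y => C (A.φ (u y) (0 - τ y))) x := hC (A.at_phi hu (sub hc0 hτ))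
  have hB : DM.At (fun y => C (A.φ (u y) (s y - τ y))) x := hC (A.at_phi hu (sub hs hτ))
  have hdist : ∀ᶠ y in 𝓝 x, dist (C (A.φ (u y) (0 - τ y))) (C (A.φ (u y) (s y - τ y))) < D :=
    ((g.cont hA).dist (g.cont hB)).eventually_lt_const hd
  obtain ⟨n, hn⟩ : ∃ n : ℤ, n = ⌊τ x⌋ := ⟨_, rfl⟩
  have hf : Sm (fun y => τ y - n) x := sub hτ (Sm.of_contDiff contDiff_const x)
  have hfc : ContinuousAt (fun y => τ y - n) x := hf.continuousAt
  have h0 : 0 ≤ τ x - n := by
    rw [hn]; exact sub_nonneg.2 (Int.floor_le _)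
  have h1 : τ x - n < 1 := by
    rw [hn, sub_lt_iff_lt_add']; exact Int.lt_floor_add_one _
  have hfr {y : E} (h : 0 ≤ τ y - n) (h' : τ y - n < 1) : Int.fract (τ y) = τ y - n := by
    rw [Int.fract_eq_iff]
    exact ⟨h, h', ⟨n, by ring⟩⟩
  have aff {f : E → ℝ} (hf : Sm f x) (p q : ℝ) : Sm (fun y => p * f y + q) x := by
    filter_upwards [hf] with y h1
    exact (contDiffAt_const.mul h1).add contDiffAt_const
  have hstp {f : E → ℝ} (hf : Sm f x) : Sm (fun y => stp (f y)) x :=
    (Sm.of_contDiff stp_contDiff _).comp hf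
  rcases eq_or_lt_of_le h0 with h2 | h2
  · -- near an integer
    refine DM.congr hA ?_
    have e1 : ∀ᶠ y in 𝓝 x, τ y - n < 1 / 12 :=
      hfc.eventually_lt_const (show τ x - n < 1 / 12 by rw [← h2]; norm_num)
    have e2 : ∀ᶠ y in 𝓝 x, -(1 / 12) < τ y - n :=
      hfc.eventually_const_lt (show -(1 / 12) < τ x - n by rw [← h2]; norm_num)
    filter_upwards [e1, e2, hdist] with y h3 h4 h5
    rcases le_or_gt 0 (τ y - n) with h6 | h6
    · have hfy := hfr h6 (by linarith)
      rw [St, Nl, hfy, if_pos (by linarith), stp_of_le (by linarith), g.zero _ _ h5]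
    · have hfy : Int.fract (τ y) = τ y - n + 1 := by
        rw [Int.fract_eq_iff]
        exact ⟨by linarith, by linarith, ⟨n - 1, by push_cast; ring⟩⟩
      rw [St, Nl, hfy, if_neg (by linarith), stp_of_ge (by linarith), mul_one,
        add_sub_cancel]
      have := loop_per A C (u y) (τ y) 0
      rw [zero_add] at this
      exact this.symm
  rcases lt_trichotomy (τ x - n) (1 / 2) with h3 | h3 | h3
  · -- the geodesic part
    have e1 : ∀ᶠ y in 𝓝 x, τ y - n < 1 / 2 := hfc.eventually_lt_const h3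
    have e2 : ∀ᶠ y in 𝓝 x, 0 < τ y - n := hfc.eventually_const_lt h2
    have hG : DM.At (fun y => g.G (C (A.φ (u y) (0 - τ y))) (C (A.φ (u y) (s y - τ y)))
        (stp (2 * (τ y - n) + 0))) x := g.smooth hA hB (hstp (aff hf 2 0)) hd
    refine DM.congr hG ?_
    filter_upwards [e1, e2] with y h4 h5
    rw [St, Nl, hfr h5.le (by linarith), if_pos h4.le, add_zero]
  · -- near the joint
    refine DM.congr hB ?_
    have e1 : ∀ᶠ y in 𝓝 x, τ y - n < 7 / 12 :=
      hfc.eventually_lt_const (show τ x - n < 7 / 12 by rw [h3]; norm_num)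
    have e2 : ∀ᶠ y in 𝓝 x, 5 / 12 < τ y - n :=
      hfc.eventually_const_lt (show 5 / 12 < τ x - n by rw [h3]; norm_num)
    filter_upwards [e1, e2, hdist] with y h4 h5 h6
    have hfy := hfr (y := y) (by linarith) (by linarith)
    rw [St, Nl, hfy]
    split_ifs with h7
    · rw [stp_of_ge (by linarith), g.one _ _ h6]
    · rw [stp_of_le (by linarith), mul_zero, add_zero]
  · -- the rest of the loop
    have e1 : ∀ᶠ y in 𝓝 x, τ y - n < 1 := hfc.eventually_lt_const h1
    have e2 : ∀ᶠ y in 𝓝 x, 1 / 2 < τ y - n := hfc.eventually_const_lt h3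
    have hm : Sm (fun y => s y + (1 - s y) * stp (2 * (τ y - n) + -1) - τ y) x := by
      filter_upwards [hs, hτ, hstp (aff hf 2 (-1))] with y h4 h5 h6
      exact (h4.add ((contDiffAt_const.sub h4).mul h6)).sub h5
    refine DM.congr (hC (A.at_phi hu hm)) ?_
    filter_upwards [e1, e2] with y h4 h5
    change C (A.φ (u y) _) = _
    rw [St, Nl, hfr (by linarith) h4, if_neg (not_le.2 h5)]
    rfl

end Vale.Agent.P231.H766
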