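import Vale.Agent.P231.H766.PushOf
import Vale.Agent.P231.H997.SV2

/-!
# P231, block C: the energy of the loops of a push-off from the local second variation
-/

set_option maxSynthPendingDepth 3
set_option linter.unusedSectionVars false
set_option linter.unusedVariables false

open Bundle Manifold Set Filter Module MeasureTheory
open scoped ContDiff Manifold Topology ENNReal

namespace Vale.Agent.P231.H766

noncomputable section

open Vale.Agent.P234 Vale.Agent.P231 Vale.Agent.P231.Fm Vale.Agent.P231.W Vale.Agent.P231.WC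
open Vale.Agent.P231.WF

/-! ### differentiation under the integral sign -/

/-- derivative of a slice of a smooth function of two variables -/
theorem contDiff_d1 {g : ℝ × ℝ → ℝ} (hg : ContDiff ℝ ∞ g) :
    ContDiff ℝ ∞ (fun p : ℝ × ℝ => deriv (fun s => g (s, p.2)) p.1) := by
  have h1 : (fun p : ℝ × ℝ => deriv (fun s => g (s, p.2)) p.1) =
      fun p : ℝ × ℝ => fderiv ℝ g p (1, 0) := by
    funext p
    have h2 : HasFDerivAt g (fderiv ℝ g (p.1, p.2)) (p.1, p.2) :=
      (hg.differentiable (by simp)).differentiableAt.hasFDerivAt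
    have h3 : HasDerivAt (fun s : ℝ => ((s, p.2) : ℝ × ℝ)) ((1 : ℝ), (0 : ℝ)) p.1 :=
      (hasDerivAt_id _).prodMk (hasDerivAt_const _ _)
    exact (h2.comp_hasDerivAt p.1 h3).deriv
  rw [h1]
  exact (hg.fderiv_right (m := ∞) (by simp)).clm_apply contDiff_const

theorem deriv_int {g : ℝ × ℝ → ℝ} (hg : ContDiff ℝ ∞ g) (a b : ℝ) :
    deriv (fun s => ∫ t in a..b, g (s, t)) = fun x => ∫ t in a..b, deriv (fun s => g (s, t)) x := by
  funext x
  exact (H997.hasDerivAt_int isOpen_univ ((hg.of_le (by simp)).contDiffOn) a b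
    (mem_univ x)).deriv

attribute [local instance] topUT

variable {E : Type*} [NormedAddCommGroup E] [NormedSpace ℝ E]
  {M : Type*} [MetricSpace M] [ChartedSpace E M]
  [RiemannianBundle (fun x : M => TangentSpace 𝓘(ℝ, E) x)]
  {e : ∀ x : M, TangentSpace 𝓘(ℝ, E) x → M}
  [FiniteDimensional ℝ E] [IsManifold 𝓘(ℝ, E) ∞ M]
  [IsContMDiffRiemannianBundle 𝓘(ℝ, E) ∞ E (fun x : M => TangentSpace 𝓘(ℝ, E) x)]
  [CompactSpace M] [ConnectedSpace M] [IsRiemannianManifold 𝓘(ℝ, E) M]

/-- the boundary term of the second variation -/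
def bq (F : Facts e) (Y : UT E M → E) (v : UT E M) : ℝ :=
  deriv (fun ε : ℝ => ip (Cm e Y ε v) (vlc F (Cm e Y ε) v)
    (WC.vl (fun ε' : ℝ => Cm e Y ε' v) ε)) 0

/-- smooth functions along a geodesic -/
theorem contDiff_phi (F : Facts e) {f : UT E M → ℝ} (hf : (dUT E M).Map (Dif.lin ℝ) f)
    (v : UT E M) : ContDiff ℝ ∞ (fun t : ℝ => f (phi F (v, t))) := by
  refine contDiff_iff_contDiffAt.2 fun t => ?_
  have h0 : (dUT E M).At (fun r : ℝ => phi F (v, r)) t :=
    map_phi F (u := fun r : ℝ => (v, r)) ⟨At_const_UT v t, Sm.of_contDiff contDiff_id t⟩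
  have h1 : Sm (fun t : ℝ => f (phi F (v, t))) t := hf h0
  exact h1.contDiffAt

theorem map_bq (F : Facts e) {Y : UT E M → E} (hY : IsFld Y) :
    (dUT E M).Map (Dif.lin ℝ) (bq F Y) := by
  have h1 : ((dUT E M).prod (Dif.lin ℝ)).Map (dM E M) (fun p => Cm e Y p.2 p.1) :=
    WC.map_Cm F hY
  have h2 : ((dUT E M).prod (Dif.lin ℝ)).Map (dTM E M) (fun p : UT E M × ℝ =>
      tb (Cm e Y p.2 p.1) (WC.vl (fun ε' : ℝ => Cm e Y ε' p.1) p.2)) :=
    H997.MV_dv (E := E) (H := fun p : UT E M × ℝ => Cm e Y p.2 p.1) h1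
  have h3 : ((dUT E M).prod (Dif.lin ℝ)).Map (Dif.lin ℝ) (fun p : UT E M × ℝ =>
      ip (Cm e Y p.2 p.1) (vlc F (Cm e Y p.2) p.1) (WC.vl (fun ε' : ℝ => Cm e Y ε' p.1) p.2)) :=
    WC.map_ip (WC.map_vlc F hY) h2
  have h4 : ((dUT E M).prod (Dif.lin ℝ)).Map (Dif.lin ℝ) (fun p : UT E M × ℝ =>
      deriv (fun r => ip (Cm e Y r p.1) (vlc F (Cm e Y r) p.1)
        (WC.vl (fun ε' : ℝ => Cm e Y ε' p.1) r)) p.2) := map_deriv h3
  intro E' _ _ _ u x hu
  exact h4 (u := fun y => (u y, (0 : ℝ))) ⟨hu, Sm.of_contDiff contDiff_const x⟩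

/-- **the sum over the period** -/
theorem en_of_local (F : Facts e) {D : ℝ} (hD : 0 < D) (hB : InjGE e D)
    (hdiam : ∀ p q : M, dist p q ≤ D) {Y : UT E M → E} (hY : IsFld Y) {f : UT E M → ℝ}
    (hf : ∀ v, 0 < f v) (hfm : (dUT E M).Map (Dif.lin ℝ) f)
    (h1 : ∀ v, deriv (fun ε => sp F Y ε v) 0 = 0)
    (h2 : ∀ v, (1 / 2 : ℝ) * deriv (deriv (fun ε => sp F Y ε v)) 0 =
      deriv (fun t : ℝ => bq F Y (phi F (v, t))) 0 - 2 * f v) :
    (∀ v, deriv (fun ε => en F D Y ε v) 0 = 0) ∧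
      ∀ v, deriv (deriv (fun ε => en F D Y ε v)) 0 < 0 := by
  have hsp : ∀ v, ContDiff ℝ ∞ (fun p : ℝ × ℝ => sp F Y p.1 (phi F (v, p.2))) := by
    intro v
    refine contDiff_iff_contDiffAt.2 fun p => ?_
    have k1 : (dUT E M).At (fun p : ℝ × ℝ => phi F (v, p.2)) p :=
      map_phi F (u := fun p : ℝ × ℝ => (v, p.2)) ⟨At_const_UT v p, Sm.of_contDiff contDiff_snd p⟩
    have k2 : Sm (fun p : ℝ × ℝ => sp F Y p.1 (phi F (v, p.2))) p :=
      WC.map_sp F hY (u := fun p : ℝ × ℝ => (phi F (v, p.2), p.1))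
        ⟨k1, Sm.of_contDiff contDiff_fst p⟩
    exact k2.contDiffAt
  have hd1 : ∀ v, deriv (fun ε => en F D Y ε v) = fun ε =>
      ∫ t in (0 : ℝ)..(2 * D), deriv (fun s => sp F Y s (phi F (v, t))) ε := fun v =>
    deriv_int (hsp v) 0 (2 * D)
  have hd2 : ∀ v, deriv (deriv (fun ε => en F D Y ε v)) 0 =
      ∫ t in (0 : ℝ)..(2 * D), deriv (deriv (fun s => sp F Y s (phi F (v, t)))) 0 := by
    intro v
    rw [hd1 v]
    exact congrFun (deriv_int (contDiff_d1 (hsp v)) 0 (2 * D)) 0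
  refine ⟨fun v => ?_, fun v => ?_⟩
  · rw [hd1 v]
    simp only [h1, intervalIntegral.integral_zero]
  · rw [hd2 v]
    have hb := contDiff_phi F (map_bq F hY) v
    have hfc := contDiff_phi F hfm v
    have k1 : ∀ t : ℝ, deriv (deriv (fun s => sp F Y s (phi F (v, t)))) 0 =
        2 * deriv (fun s : ℝ => bq F Y (phi F (v, s))) t - 4 * f (phi F (v, t)) := by
      intro t
      have k2 := h2 (phi F (v, t))
      have k3 : (fun s : ℝ => bq F Y (phi F (phi F (v, t), s))) =
          fun s : ℝ => (fun s : ℝ => bq F Y (phi F (v, s))) (t + s) := by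
        funext s
        exact congrArg (bq F Y) (phi_add F v t s)
      rw [k3, deriv_comp_const_add (fun s : ℝ => bq F Y (phi F (v, s))) t 0, add_zero] at k2
      linarith
    simp only [k1]
    have i1 : IntervalIntegrable (fun t => deriv (fun s : ℝ => bq F Y (phi F (v, s))) t) volume
        0 (2 * D) := (hb.continuous_deriv (by simp)).intervalIntegrable _ _
    have i2 : IntervalIntegrable (fun t => f (phi F (v, t))) volume 0 (2 * D) :=
      hfc.continuous.intervalIntegrable _ _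
    rw [intervalIntegral.integral_sub (i1.const_mul 2) (i2.const_mul 4),
      intervalIntegral.integral_const_mul, intervalIntegral.integral_const_mul]
    have k4 : ∫ t in (0 : ℝ)..(2 * D), deriv (fun s : ℝ => bq F Y (phi F (v, s))) t = 0 := by
      rw [intervalIntegral.integral_deriv_eq_sub
        (fun t _ => (hb.differentiable (by simp)).differentiableAt) i1]
      rw [W.phi_per F hD hB hdiam, phi_zero, sub_self]
    have k5 : 0 < ∫ t in (0 : ℝ)..(2 * D), f (phi F (v, t)) :=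
      intervalIntegral.intervalIntegral_pos_of_pos_on i2 (fun t _ => hf _) (by linarith)
    rw [k4]
    linarith

end

end Vale.Agent.P231.H766
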