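import Vale.Agent.P231.H766.SL2
import Vale.Agent.P231.H766.Sum
import Vale.Agent.P231.WC.Vel

/-!
# P231, stages 2 and 3: small push-offs over the space of pairs are uniformly shorter
-/

set_option maxSynthPendingDepth 3
set_option linter.unusedSectionVars false
set_option linter.unusedVariables false

open Bundle Manifold Set Filter Module MeasureTheory
open scoped ContDiff Manifold Topology ENNReal

namespace Vale.Agent.P231.H766

noncomputable section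

open Vale.Agent.P234 Vale.Agent.P231 Vale.Agent.P231.Fm Vale.Agent.P231.W Vale.Agent.P231.WR
  Vale.Agent.P231.WF

/-- a smooth function on the cylinder over a space covered by finitely many compact pieces, which
is critical and strictly concave at `0`, is uniformly smaller near `0` -/
theorem PC.unif_lt_abs {X : Type*} {DX : Dif X} (hX : PC DX)
    (hc : ∀ x, DX.At (fun _ : ℝ => x) 0) {f : X × ℝ → ℝ}
    (hf : (DX.prod (Dif.lin ℝ)).Map (Dif.lin ℝ) f)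
    (h1 : ∀ v, deriv (fun ε => f (v, ε)) 0 = 0)
    (h2 : ∀ v, deriv (deriv (fun ε => f (v, ε))) 0 < 0) :
    ∃ ε₀ : ℝ, 0 < ε₀ ∧ ∀ ε, ε ≠ 0 → |ε| ≤ ε₀ → ∀ v, f (v, ε) < f (v, 0) := by
  have hg1 : (DX.prod (Dif.lin ℝ)).Map (Dif.lin ℝ)
      (fun p => deriv (fun r => f (p.1, r)) p.2) := map_deriv hf
  have hg : (DX.prod (Dif.lin ℝ)).Map (Dif.lin ℝ)
      (fun p => deriv (fun r => deriv (fun r' => f (p.1, r')) r) p.2) := map_deriv hg1
  have key : ∀ᶠ ε in 𝓝 (0 : ℝ), ∀ v : X, ∀ z ∈ (univ : Set Unit),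
      deriv (fun r => deriv (fun r' => f (v, r')) r) ε < 0 := by
    refine hX.eventually (P := fun ε v _ => deriv (fun r => deriv (fun r' => f (v, r')) r) ε < 0)
      isCompact_univ fun E _ _ _ c z hcz y _ => ?_
    have h0 : DX.At (fun q : ℝ × E => c q.2) (0, z) :=
      DX.comp (u := c) (g := Prod.snd) (x := ((0 : ℝ), z)) hcz (Sm.of_contDiff contDiff_snd _)
    have h3 : Sm (fun q : ℝ × E =>
        deriv (fun r => deriv (fun r' => f (c q.2, r')) r) q.1) (0, z) :=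
      hg (u := fun q : ℝ × E => (c q.2, q.1)) ⟨h0, Sm.of_contDiff contDiff_fst _⟩
    have h4 : Continuous (fun p : ℝ × (E × Unit) => ((p.1, p.2.1) : ℝ × E)) := by fun_prop
    have h5 : Tendsto (fun p : ℝ × (E × Unit) => ((p.1, p.2.1) : ℝ × E)) (𝓝 (0, (z, y)))
        (𝓝 (0, z)) := h4.tendsto _
    exact h5.eventually (h3.continuousAt.eventually_lt_const (h2 (c z)))
  obtain ⟨δ, hδ, hδ'⟩ := Metric.eventually_nhds_iff.1 key
  refine ⟨δ / 2, by positivity, fun ε hε hε' v => ?_⟩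
  refine lt_of_concave (f := fun ε => f (v, ε)) (δ := δ) (contDiff_slice hf (hc v)) (h1 v)
    (fun r hr => ?_) hε (lt_of_le_of_lt hε' (by linarith))
  exact hδ' (by rw [Real.dist_eq, sub_zero]; exact hr) v () (mem_univ _)

variable {E : Type*} [NormedAddCommGroup E] [NormedSpace ℝ E]
  {M : Type*} [MetricSpace M] [ChartedSpace E M]
  [RiemannianBundle (fun x : M => TangentSpace 𝓘(ℝ, E) x)]
  {e : ∀ x : M, TangentSpace 𝓘(ℝ, E) x → M}
  [FiniteDimensional ℝ E] [IsManifold 𝓘(ℝ, E) ∞ M]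
  [IsContMDiffRiemannianBundle 𝓘(ℝ, E) ∞ E (fun x : M => TangentSpace 𝓘(ℝ, E) x)]
  [CompactSpace M] [ConnectedSpace M] [IsRiemannianManifold 𝓘(ℝ, E) M]

variable {D : ℝ}

/-- the push-off of a pair -/
def poP (e : ∀ x : M, TangentSpace 𝓘(ℝ, E) x → M) (Y : Pr e D → E) (ε : ℝ) (b : Pr e D) : M :=
  e (foot b.v) (ε • Y b : E)

/-- (twice) the energy of the loops of the push-off -/
def enB (e : ∀ x : M, TangentSpace 𝓘(ℝ, E) x → M) (Lam : Pr e D × ℝ → Pr e D) (Y : Pr e D → E)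
    (b : Pr e D) (ε : ℝ) : ℝ :=
  ∫ t in (0 : ℝ)..(2 * D), nm (poP e Y ε (Lam (b, t)))
    (WC.vl (fun t => poP e Y ε (Lam (b, t))) t : E) ^ 2

theorem map_poP (F : Facts e) {Y : Pr e D → E} (hY : IsFldP Y) :
    ((dPr e D).prod (Dif.lin ℝ)).Map (dM E M) (fun p => poP e Y p.2 p.1) := by
  intro E' _ _ _ u x h
  have h1 := hY h.1
  have h2 : Sm (fun s => (u s).2) x := h.2
  change ∀ᶠ s in 𝓝 x, H775.SmV (fun s => foot (u s).1.v) (fun s => (Y (u s).1 : E)) s at h1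
  change ∀ᶠ s in 𝓝 x, ContMDiffAt _ _ _ _ _
  filter_upwards [h1, h2] with s hs1 hs2
  exact (hs1.smul hs2).exp F.isExp

theorem poP_zero (F : Facts e) (Y : Pr e D → E) (b : Pr e D) : poP e Y 0 b = foot b.v := by
  unfold poP
  have h : ((0 : ℝ) • Y b : E) = 0 := zero_smul _ _
  exact (congrArg (e (foot b.v)) h).trans (F.isExp.map_zero _)

theorem map_loopP (F : Facts e) {Lam : Pr e D × ℝ → Pr e D}
    (h : IsFlow (dPr e D) (2 * D) Lam) {Y : Pr e D → E} (hY : IsFldP Y) :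
    (((dPr e D).prod (Dif.lin ℝ)).prod (Dif.lin ℝ)).Map (dM E M)
      (fun q : (Pr e D × ℝ) × ℝ => poP e Y q.1.2 (Lam (q.1.1, q.2))) := by
  intro E' _ _ _ u x hu
  have k1 : (dPr e D).At (fun s : E' => Lam ((u s).1.1, (u s).2)) x :=
    h.map (u := fun s : E' => ((u s).1.1, (u s).2)) ⟨hu.1.1, hu.2⟩
  exact map_poP F hY (u := fun s : E' => (Lam ((u s).1.1, (u s).2), (u s).1.2)) ⟨k1, hu.1.2⟩

theorem map_enB (F : Facts e) {Lam : Pr e D × ℝ → Pr e D}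
    (h : IsFlow (dPr e D) (2 * D) Lam) {Y : Pr e D → E} (hY : IsFldP Y) :
    ((dPr e D).prod (Dif.lin ℝ)).Map (Dif.lin ℝ) (fun p => enB e Lam Y p.1 p.2) := by
  have h1 : (((dPr e D).prod (Dif.lin ℝ)).prod (Dif.lin ℝ)).Map (dTM E M)
      (fun q : (Pr e D × ℝ) × ℝ => tb (poP e Y q.1.2 (Lam (q.1.1, q.2)))
        (WC.vl (fun t => poP e Y q.1.2 (Lam (q.1.1, t))) q.2 : E)) :=
    H997.MV_dv (E := E) (H := fun q : (Pr e D × ℝ) × ℝ => poP e Y q.1.2 (Lam (q.1.1, q.2)))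
      (map_loopP F h hY)
  have h2 : (((dPr e D).prod (Dif.lin ℝ)).prod (Dif.lin ℝ)).Map (Dif.lin ℝ)
      (fun q : (Pr e D × ℝ) × ℝ => nm (poP e Y q.1.2 (Lam (q.1.1, q.2)))
        (WC.vl (fun t => poP e Y q.1.2 (Lam (q.1.1, t))) q.2 : E) ^ 2) := WC.map_nm_sq h1
  have h3 : ((dPr e D).prod (Dif.lin ℝ)).Map (Dif.lin ℝ) (fun p : Pr e D × ℝ =>
      ∫ t in (0 : ℝ)..(2 * D), (fun q : (Pr e D × ℝ) × ℝ =>
        nm (poP e Y q.1.2 (Lam (q.1.1, q.2)))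
          (WC.vl (fun t => poP e Y q.1.2 (Lam (q.1.1, t))) q.2 : E) ^ 2) (p, t)) :=
    map_integral h2 (2 * D)
  intro E' _ _ _ u x hu
  exact h3 hu

/-- the loops of the push-off are smooth -/
theorem contMDiff_loopP (F : Facts e) {Lam : Pr e D × ℝ → Pr e D}
    (h : IsFlow (dPr e D) (2 * D) Lam) {Y : Pr e D → E} (hY : IsFldP Y) (b : Pr e D) (ε : ℝ) :
    ContMDiff 𝓘(ℝ, ℝ) 𝓘(ℝ, E) ∞ (fun t : ℝ => poP e Y ε (Lam (b, t))) := by
  intro t
  have h0 : (((dPr e D).prod (Dif.lin ℝ)).prod (Dif.lin ℝ)).At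
      (fun t : ℝ => ((b, ε), t)) t :=
    ⟨⟨const_at_Pr b t, Sm.of_contDiff contDiff_const _⟩, Sm.of_contDiff contDiff_id _⟩
  have h1 : (dM E M).At (fun t : ℝ => poP e Y ε (Lam (b, t))) t := map_loopP F h hY h0
  exact Filter.Eventually.self_of_nhds h1

theorem enB_zero (F : Facts e) {Lam : Pr e D × ℝ → Pr e D}
    (hv : ∀ b t, (Lam (b, t)).v = phi F (b.v, t)) (Y : Pr e D → E) (b : Pr e D) :
    enB e Lam Y b 0 = 2 * D := by
  have h1 : (fun t : ℝ => poP e Y 0 (Lam (b, t))) = gam e (foot b.v) (vec' b.v) := by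
    funext t
    rw [poP_zero F, hv]
    rfl
  have h2 : ∀ t : ℝ, nm (poP e Y 0 (Lam (b, t)))
      (WC.vl (fun t => poP e Y 0 (Lam (b, t))) t : E) ^ 2 = 1 := by
    intro t
    have h3 : (WC.vl (fun t => poP e Y 0 (Lam (b, t))) t : E) = vel e (foot b.v) (vec' b.v) t := by
      rw [h1]
      exact mfderiv_gam F.isExp (foot b.v) (vec' b.v) t
    have h4 : poP e Y 0 (Lam (b, t)) = gam e (foot b.v) (vec' b.v) t := congrFun h1 t
    have h5 : nm (gam e (foot b.v) (vec' b.v) t) (vel e (foot b.v) (vec' b.v) t) = 1 :=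
      (nm_vel F _ _ _).trans (nm_vec' b.v)
    rw [h3, h4, h5, one_pow]
  unfold enB
  simp only [h2, intervalIntegral.integral_const, sub_zero, smul_eq_mul, mul_one]

/-- **C4 over the space of pairs.** -/
theorem unif_lt_Pr (F : Facts e) (hD : 0 < D) (hB : InjGE e D)
    (hdiam : ∀ p q : M, dist p q ≤ D) {l : ℕ}
    (hP : ∀ x y : M, dist x y = D → finrank ℝ (H775.Pl e D x y) = l + 1)
    {Lam : Pr e D × ℝ → Pr e D} (h : IsFlow (dPr e D) (2 * D) Lam)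
    (hv : ∀ b t, (Lam (b, t)).v = phi F (b.v, t)) {Y : Pr e D → E} (hY : IsFldP Y)
    (h1 : ∀ b, deriv (fun ε => enB e Lam Y b ε) 0 = 0)
    (h2 : ∀ b, deriv (deriv (fun ε => enB e Lam Y b ε)) 0 < 0) :
    ∃ ε₀ : ℝ, 0 < ε₀ ∧ ∀ ε, ε ≠ 0 → |ε| ≤ ε₀ → ∀ b : Pr e D,
      eVariationOn (fun t => poP e Y ε (Lam (b, t))) (Icc 0 (2 * D)) <
        ENNReal.ofReal (2 * D) := by
  obtain ⟨ε₀, hε₀, h3⟩ := (pc_Pr F hD hB hdiam hP).unif_lt_abs (fun b => const_at_Pr b 0)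
    (f := fun p : Pr e D × ℝ => enB e Lam Y p.1 p.2) (map_enB F h hY) h1 h2
  refine ⟨ε₀, hε₀, fun ε hε hε' b => ?_⟩
  have h4 := h3 ε hε hε' b
  simp only at h4
  rw [enB_zero F hv] at h4
  refine variation_lt (contMDiff_loopP F h hY b ε) hD ?_
  exact h4

/-- the interface from the second variation -/
theorem exists_pushL (F : Facts e) (hD : 0 < D) (hB : InjGE e D)
    (hdiam : ∀ p q : M, dist p q ≤ D) {l : ℕ}
    (hP : ∀ x y : M, dist x y = D → finrank ℝ (H775.Pl e D x y) = l + 1)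
    {Lam : Pr e D × ℝ → Pr e D} (h : IsFlow (dPr e D) (2 * D) Lam)
    (hv : ∀ b t, (Lam (b, t)).v = phi F (b.v, t))
    (hneg : ∀ b t, Lam (ngP F hD hB hdiam b, t) = ngP F hD hB hdiam (Lam (b, t)))
    (hhalf : ∀ b, Lam (b, D) = ngP F hD hB hdiam (Th F hD hB hdiam b))
    {Y : Pr e D → E} (hY : IsFldP Y) (hodd : ∀ b, Y (ngP F hD hB hdiam b) = -Y b)
    (hsgn : ∀ b, 0 < ip (foot b.v) (Y b) (vec' b.w) +
      ip (foot (Lam (b, D)).v) (Y (Lam (b, D))) (vec' (Lam (b, D)).w))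
    (h1 : ∀ b, deriv (fun ε => enB e Lam Y b ε) 0 = 0)
    (h2 : ∀ b, deriv (deriv (fun ε => enB e Lam Y b ε)) 0 < 0) :
    ∃ ε₀ : ℝ, PushL F hD hB hdiam Lam Y ε₀ := by
  obtain ⟨ε₀, hε₀, h3⟩ := unif_lt_Pr F hD hB hdiam hP h hv hY h1 h2
  exact ⟨ε₀, h, hv, hneg, hhalf, hY, hodd, hsgn, hε₀, fun ε hε b =>
    h3 ε hε.1.ne' (by rw [abs_of_pos hε.1]; exact hε.2) b⟩

end

end Vale.Agent.P231.H766
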