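import Vale.Agent.P231.WD.Eval
import Vale.Agent.P231.H766.Uec2
import Vale.Agent.P231.WD.Cone

/-!
# P231, block D4: cones over loops; the integral over a contraction (abstract part)
-/

set_option linter.unusedSectionVars false
set_option linter.unusedVariables false

open MeasureTheory Set Module Filter Topology
open scoped ContDiff

namespace Vale.Agent.P231.H766

open Vale.Agent.P231.Fm Vale.Agent.P231.W Vale.Agent.P231.WD

variable {M : Type*} [MetricSpace M] {DM : Dif M} {D : ℝ}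

/-- moving the apex over a fixed loop -/
theorem cone_move (g : Geo DM D) {F : Form DM} (hF : F.d = 0) {c : ℝ → M} {z : ℝ → M}
    {a b s0 s1 : ℝ} (hab : a ≤ b) (hs : s0 ≤ s1) (hc : ∀ t, DM.At c t) (hz : ∀ s, DM.At z s)
    (hd : ∀ t ∈ Icc a b, ∀ s ∈ Icc s0 s1, dist (z s) (c t) < D) (hper : c b = c a) :
    cone g F (z s1) c a b = cone g F (z s0) c a b := by
  have key := cone_family g hF (Z := z) (C := fun p => c p.1) (a := a) (b := b) (c := s0)
    (d := s1) (fun t ht s hs' => ⟨hz s, at_fst (hc t), by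
      rw [uIcc_of_le hab] at ht
      rw [uIcc_of_le hs] at hs'
      exact hd t ht s hs'⟩) (fun s => hper.symm)
  have h0 : I2 F (fun p : ℝ × ℝ => c p.1) a b s0 s1 = 0 :=
    I2_eq_zero F fun t ht s hs' => ev2_fst F (hc t)
  rw [h0] at key
  exact (sub_eq_zero.1 key.symm)

/-- the total integral of an annulus that is contracted by loops `c (·, s)`, `s ∈ [m, 1]`, staying
at distance less than `D` from `c (0, s)`, while the part `s ∈ [0, m]` is close to `z` -/
theorem I2_contract (g : Geo DM D) {F : Form DM} (hF : F.d = 0) (hD : 0 < D) {c : ℝ × ℝ → M}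
    (hc : ∀ p, DM.At c p) {T m : ℝ} (hT : 0 ≤ T) (hm0 : 0 ≤ m) (hm1 : m ≤ 1)
    (hper : ∀ s, c (T, s) = c (0, s)) {z : M} (hz : DM.At (fun _ : ℝ => z) 0)
    (hzd : ∀ t ∈ Icc 0 T, ∀ s ∈ Icc 0 m, dist z (c (t, s)) < D)
    (hcon : ∀ t ∈ Icc 0 T, ∀ s ∈ Icc m 1, dist (c (0, s)) (c (t, s)) < D)
    (h1 : ∀ t, c (t, 1) = c (0, 1))
    (hmove : cone g F z (fun t => c (t, m)) 0 T = cone g F (c (0, m)) (fun t => c (t, m)) 0 T) :
    I2 F c 0 T 0 1 = -cone g F z (fun t => c (t, 0)) 0 T := by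
  have hz' : ∀ s : ℝ, DM.At (fun _ : ℝ => z) s := fun s => Dif.At_const hz s
  have u1 : uIcc 0 T = Icc 0 T := uIcc_of_le hT
  have u2 : uIcc 0 m = Icc 0 m := uIcc_of_le hm0
  have u3 : uIcc m 1 = Icc m 1 := uIcc_of_le hm1
  have hc0 : ∀ s : ℝ, DM.At (fun s : ℝ => c (0, s)) s := fun s =>
    DM.comp (u := c) (g := fun s : ℝ => ((0 : ℝ), s)) (x := s) (hc _)
      (Sm.of_contDiff (by fun_prop) _)
  have e1 := cone_family g hF (Z := fun _ => z) (C := c) (a := 0) (b := T) (c := 0) (d := m)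
    (fun t ht s hs => ⟨hz' s, hc _, hzd t (u1 ▸ ht) s (u2 ▸ hs)⟩) (fun s => (hper s).symm)
  have e2 := cone_family g hF (Z := fun s => c (0, s)) (C := c) (a := 0) (b := T) (c := m)
    (d := 1) (fun t ht s hs => ⟨hc0 s, hc _, hcon t (u1 ▸ ht) s (u3 ▸ hs)⟩)
    (fun s => (hper s).symm)
  have e3 : cone g F (c (0, 1)) (fun t => c (t, 1)) 0 T = 0 := by
    have e5 : (fun t => c (t, 1)) = fun _ => c (0, 1) := funext h1
    have e6 : Pt DM (c (0, 1)) := Pt.of_at (hc (0, 1))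
    rw [e5]
    exact cone_const g F 0 T e6 e6 (by rw [dist_self]; exact hD)
  have e4 := I2_add_snd F (Q := c) (a := 0) (b := T) (c := 0) (d := 1) (m := m)
    (fun t _ s _ => hc _) (by rw [uIcc_of_le zero_le_one]; exact ⟨hm0, hm1⟩)
  rw [← e4, e1, e2, e3, hmove]
  ring

/-- in a loop of variation less than `2 D` all distances from the base point are less than `D` -/
theorem dist_lt_of_var {c : ℝ → M} {T : ℝ} (hc : c T = c 0)
    (h : eVariationOn c (Icc 0 T) < 2 * ENNReal.ofReal D) {t : ℝ} (ht : t ∈ Icc 0 T) :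
    dist (c 0) (c t) < D := by
  have h0 : (0 : ℝ) ∈ Icc 0 t := ⟨le_rfl, ht.1⟩
  have e1 : edist (c 0) (c t) ≤ eVariationOn c (Icc 0 t) :=
    eVariationOn.edist_le c ⟨le_rfl, ht.1⟩ ⟨ht.1, le_rfl⟩
  have e2 : edist (c 0) (c t) ≤ eVariationOn c (Icc t T) := by
    have := eVariationOn.edist_le c (s := Icc t T) (x := T) (y := t) ⟨ht.2, le_rfl⟩ ⟨le_rfl, ht.2⟩
    rwa [hc] at this
  have e3 : eVariationOn c (Icc 0 t) + eVariationOn c (Icc t T) = eVariationOn c (Icc 0 T) := by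
    have := eVariationOn.Icc_add_Icc c (s := univ) ht.1 ht.2 (mem_univ _)
    simpa using this
  have h3 : edist (c 0) (c t) < ENNReal.ofReal D := by
    by_contra h2
    push Not at h2
    have : 2 * ENNReal.ofReal D ≤ eVariationOn c (Icc 0 T) := by
      rw [← e3, two_mul]
      exact add_le_add (h2.trans e1) (h2.trans e2)
    exact absurd h (not_lt.2 this)
  rw [edist_dist] at h3
  exact (ENNReal.ofReal_lt_ofReal_iff_of_nonneg dist_nonneg).1 h3

/-! ### the contraction over a flow -/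

section Flow

variable {B : Type*} {DB : Dif B} {T : ℝ}

/-- the push-off for `s ≤ 1/2`, followed by the contraction -/
noncomputable def gg (P : B × ℝ → M) (ε : ℝ) (H : B → ℝ → M) (p : B × ℝ) : M :=
  if p.2 < 1 / 2 then P (p.1, ε * stp (2 * p.2)) else H p.1 (2 * p.2 - 1)

variable {P : B × ℝ → M} {ε : ℝ} {H : B → ℝ → M}

theorem gg_lt {b : B} {s : ℝ} (hs : s < 1 / 2) : gg P ε H (b, s) = P (b, ε * stp (2 * s)) :=
  if_pos hs

theorem gg_gt (h0 : ∀ b u, u ≤ 0 → H b u = P (b, ε)) {b : B} {s : ℝ} (hs : 1 / 3 < s) :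
    gg P ε H (b, s) = H b (2 * s - 1) := by
  unfold gg
  split_ifs with h
  · rw [stp_of_ge (by simp only; linarith), mul_one, h0 _ _ (by simp only at h; linarith)]
  · rfl

theorem gg_zero (b : B) : gg P ε H (b, 0) = P (b, 0) := by
  rw [gg_lt (by norm_num), stp_of_le (by norm_num), mul_zero]

theorem gg_half (h0 : ∀ b u, u ≤ 0 → H b u = P (b, ε)) (b : B) :
    gg P ε H (b, 1 / 2) = P (b, ε) := by
  rw [gg_gt h0 (by norm_num), h0 _ _ (by norm_num)]

theorem gg_one (b : B) : gg P ε H (b, 1) = H b 1 := by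
  unfold gg
  rw [if_neg (by norm_num)]
  norm_num

theorem gg_map (hP : (DB.prod (Dif.lin ℝ)).Map DM P)
    (hH : (DB.prod (Dif.lin ℝ)).Map DM fun p => H p.1 p.2)
    (h0 : ∀ b u, u ≤ 0 → H b u = P (b, ε)) : (DB.prod (Dif.lin ℝ)).Map DM (gg P ε H) := by
  intro E _ _ _ u x hu
  have hu2 : ContinuousAt (fun y => (u y).2) x := Sm.continuousAt hu.2
  have hs2 : Sm (fun y => (u y).2) x := hu.2
  by_cases hx : (u x).2 < 1 / 2
  · have h1 : DM.At (fun y => P ((u y).1, ε * stp (2 * (u y).2))) x := by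
      refine hP (u := fun y => ((u y).1, ε * stp (2 * (u y).2))) ⟨hu.1, ?_⟩
      exact Sm.comp (f := fun s : ℝ => ε * stp (2 * s)) (g := fun y => (u y).2)
        (Sm.of_contDiff (contDiff_const.mul (stp_contDiff.comp (contDiff_const.mul contDiff_id)))
          _) hs2
    refine DM.congr h1 ?_
    filter_upwards [hu2.eventually_lt_const hx] with y hy
    exact (if_pos hy).symm
  · have h1 : DM.At (fun y => H (u y).1 (2 * (u y).2 - 1)) x := by
      refine hH (u := fun y => ((u y).1, 2 * (u y).2 - 1)) ⟨hu.1, ?_⟩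
      exact Sm.comp (f := fun s : ℝ => 2 * s - 1) (g := fun y => (u y).2)
        (Sm.of_contDiff (by fun_prop) _) hs2
    refine DM.congr h1 ?_
    have hx' : 1 / 3 < (u x).2 := by linarith [not_lt.1 hx]
    filter_upwards [hu2.eventually_const_lt hx'] with y hy
    exact (gg_gt h0 hy).symm

/-- **The integral over the contraction of one orbit.** -/
theorem I2_gg (g : Geo DM D) {F : Form DM} (hF : F.d = 0) (hD : 0 < D) (hT : 0 < T)
    {Φ : B × ℝ → B} (hΦ : IsFlow DB T Φ) (hP : (DB.prod (Dif.lin ℝ)).Map DM P)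
    (hH : (DB.prod (Dif.lin ℝ)).Map DM fun p => H p.1 p.2)
    (h0 : ∀ b u, u ≤ 0 → H b u = P (b, ε)) (h1 : ∀ b t, H (Φ (b, t)) 1 = H b 1) (hε : 0 ≤ ε)
    (hlen : ∀ b u, eVariationOn (fun t => H (Φ (b, t)) u) (Icc 0 T) < 2 * ENNReal.ofReal D)
    {b : B} (hb : DB.At (fun _ : ℝ => b) 0) {z : M} (hz : DM.At (fun _ : ℝ => z) 0)
    (hz1 : ∀ t, ∀ s ∈ Icc 0 ε, dist z (P (Φ (b, t), s)) < D)
    (hmove : cone g F z (fun t => P (Φ (b, t), ε)) 0 T =
      cone g F (P (b, ε)) (fun t => P (Φ (b, t), ε)) 0 T) :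
    I2 F (fun p => gg P ε H (Φ (b, p.1), p.2)) 0 T 0 1 =
      -cone g F z (fun t => P (Φ (b, t), 0)) 0 T := by
  have hbb : ∀ (p : ℝ × ℝ), DB.At (fun _ : ℝ × ℝ => b) p := fun p => Dif.At_const hb p
  have hc : ∀ p : ℝ × ℝ, DM.At (fun p : ℝ × ℝ => gg P ε H (Φ (b, p.1), p.2)) p := fun p => by
    have e1 : DB.At (fun p : ℝ × ℝ => Φ (b, p.1)) p :=
      hΦ.map (u := fun p : ℝ × ℝ => (b, p.1)) ⟨hbb p, Sm.of_contDiff contDiff_fst _⟩
    exact gg_map hP hH h0 (u := fun p : ℝ × ℝ => (Φ (b, p.1), p.2))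
      ⟨e1, Sm.of_contDiff contDiff_snd _⟩
  have hper : ∀ s : ℝ, gg P ε H (Φ (b, T), s) = gg P ε H (Φ (b, 0), s) := fun s => by
    rw [hΦ.per, hΦ.zero]
  have key := I2_contract g hF hD (c := fun p => gg P ε H (Φ (b, p.1), p.2)) hc hT.le
    (m := 1 / 2) (by norm_num) (by norm_num) hper (z := z) hz ?_ ?_ ?_ ?_
  · simp only [gg_zero] at key
    exact key
  · -- the push-off part
    intro t _ s hs
    rcases hs.2.lt_or_eq with h | h
    · simp only
      rw [gg_lt h]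
      exact hz1 t _ ⟨mul_nonneg hε (stp_nonneg _),
        by simpa using mul_le_mul_of_nonneg_left (stp_le_one (2 * s)) hε⟩
    · simp only
      rw [h, gg_half h0]
      exact hz1 t _ ⟨hε, le_rfl⟩
  · -- the contraction part
    intro t ht s hs
    have hs3 : 1 / 3 < s := by linarith [hs.1]
    simp only
    rw [gg_gt h0 hs3, gg_gt h0 hs3]
    exact dist_lt_of_var (c := fun t => H (Φ (b, t)) (2 * s - 1)) (D := D) (T := T)
      (by simp only [hΦ.per, hΦ.zero]) (hlen b _) ht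
  · intro t
    simp only
    rw [gg_one, gg_one, h1, h1]
  · simp only [gg_half h0, hΦ.zero]
    exact hmove

end Flow

end Vale.Agent.P231.H766
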