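import Vale.Agent.P231.WD.Apex
import Vale.Agent.P231.WD.LemD
import Vale.Agent.P231.WD.GeoInst
import Vale.Agent.P231.WR.Rot

/-!
# P231, block D4: the apex of a cone over a pushed-off geodesic (geometric part)
-/

set_option maxSynthPendingDepth 3
set_option linter.unusedSectionVars false
set_option linter.unusedVariables false

open Bundle Manifold Set Filter Module
open scoped ContDiff Manifold Topology

namespace Vale.Agent.P231.H766

noncomputable section

open Vale.Agent.P234 Vale.Agent.P231 Vale.Agent.P231.Fm Vale.Agent.P231.W Vale.Agent.P231.WD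
open Vale.Agent.P231.WD3

variable {E : Type*} [NormedAddCommGroup E] [NormedSpace ℝ E]
  {M : Type*} [MetricSpace M] [ChartedSpace E M]
  [RiemannianBundle (fun x : M => TangentSpace 𝓘(ℝ, E) x)]
  {e : ∀ x : M, TangentSpace 𝓘(ℝ, E) x → M}

/-- the push-off of the footpoint along a field `Y` on the unit tangent bundle -/
def po (e : ∀ x : M, TangentSpace 𝓘(ℝ, E) x → M) (Y : UT E M → E) (p : UT E M × ℝ) : M :=
  e (foot p.1) (p.2 • Y p.1 : E)

variable [FiniteDimensional ℝ E] [IsManifold 𝓘(ℝ, E) ∞ M]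
  [IsContMDiffRiemannianBundle 𝓘(ℝ, E) ∞ E (fun x : M => TangentSpace 𝓘(ℝ, E) x)]
  [CompactSpace M] [ConnectedSpace M] [IsRiemannianManifold 𝓘(ℝ, E) M]

/-- `Y` is a smooth vector field along the footpoint map -/
def IsFld (Y : UT E M → E) : Prop := (dUT E M).Map (dTM E M) (fun v => tb (foot v) (Y v))

theorem IsFld.neg {Y : UT E M → E} (hY : IsFld Y) : IsFld (fun v => -Y v) := by
  intro E' _ _ _ u x hu
  have h1 : ∀ᶠ s in 𝓝 x, H775.SmV (fun s => foot (u s))
      (fun s => (Y (u s) : TangentSpace 𝓘(ℝ, E) (foot (u s)))) s := hY hu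
  have h2 : ∀ᶠ s in 𝓝 x, H775.SmV (fun s => foot (u s))
      (fun s => (-1 : ℝ) • (Y (u s) : TangentSpace 𝓘(ℝ, E) (foot (u s)))) s := by
    filter_upwards [h1] with s hs using hs.smul contDiffAt_const
  have h3 : ∀ᶠ s in 𝓝 x, H775.SmV (fun s => foot (u s))
      (fun s => (-(Y (u s)) : TangentSpace 𝓘(ℝ, E) (foot (u s)))) s := by
    filter_upwards [h2] with s hs
    refine hs.congr (Eventually.of_forall fun s' => ?_)
    exact neg_one_smul ℝ _
  exact h3

theorem map_po (F : Facts e) {Y : UT E M → E} (hY : IsFld Y) :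
    ((dUT E M).prod (Dif.lin ℝ)).Map (dM E M) (po e Y) := by
  intro E' _ _ _ u x hu
  have h1 : ∀ᶠ s in 𝓝 x, H775.SmV (fun s => foot (u s).1)
      (fun s => (Y (u s).1 : TangentSpace 𝓘(ℝ, E) (foot (u s).1))) s := hY hu.1
  have h2 : ∀ᶠ s in 𝓝 x, ContDiffAt ℝ ∞ (fun s => (u s).2) s := hu.2
  have h3 : ∀ᶠ s in 𝓝 x, ContMDiffAt 𝓘(ℝ, E') 𝓘(ℝ, E) ∞ (fun s => po e Y (u s)) s := by
    filter_upwards [h1, h2] with s hs1 hs2 using (hs1.smul hs2).exp F.isExp
  exact h3

theorem po_zero (F : Facts e) (Y : UT E M → E) (v : UT E M) : po e Y (v, 0) = foot v := by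
  unfold po
  have h : ((0 : ℝ) • Y v : E) = 0 := zero_smul ℝ _
  rw [h]
  exact F.isExp.map_zero _

theorem po_neg (Y : UT E M → E) (v : UT E M) (ε : ℝ) :
    po e (fun v => -Y v) (v, ε) = po e Y (v, -ε) := by
  have h : (ε • -Y v : E) = (-ε) • Y v := (smul_neg ε (Y v)).trans (neg_smul ε (Y v)).symm
  exact congrArg (e (foot v)) h

/-- constants are plots of the unit tangent bundle -/
theorem At_const_UT {E' : Type} [NormedAddCommGroup E'] [NormedSpace ℝ E']
    [FiniteDimensional ℝ E'] (v : UT E M) (x : E') : (dUT E M).At (fun _ : E' => v) x := by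
  have h : ∀ᶠ y in 𝓝 x, ContMDiffAt 𝓘(ℝ, E') 𝓘(ℝ, E).tangent ∞ (fun _ : E' => v.1) y :=
    Eventually.of_forall fun _ => contMDiffAt_const
  exact h

theorem At_const_M {E' : Type} [NormedAddCommGroup E'] [NormedSpace ℝ E']
    [FiniteDimensional ℝ E'] (z : M) (x : E') : (dM E M).At (fun _ : E' => z) x := by
  have h : ∀ᶠ y in 𝓝 x, ContMDiffAt 𝓘(ℝ, E') 𝓘(ℝ, E) ∞ (fun _ : E' => z) y :=
    Eventually.of_forall fun _ => contMDiffAt_const
  exact h

/-- the exponential map at one point, along smooth vectors -/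
theorem At_exp (F : Facts e) {E' : Type} [NormedAddCommGroup E'] [NormedSpace ℝ E']
    [FiniteDimensional ℝ E'] (x : M) {f : E' → E} (hf : ContDiff ℝ ∞ f) (y : E') :
    (dM E M).At (fun s => e x (f s : E)) y := by
  have h : ∀ᶠ s in 𝓝 y, ContMDiffAt 𝓘(ℝ, E') 𝓘(ℝ, E) ∞ (fun s => e x (f s : E)) s := by
    refine Eventually.of_forall fun s => ?_
    have h2 : ContDiff ℝ ∞ (fun a : E => (crd x x (a : TangentSpace 𝓘(ℝ, E) x) : E)) := by
      let A : E →ₗ[ℝ] E :=
        { toFun := fun a => crd x x (a : TangentSpace 𝓘(ℝ, E) x)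
          map_add' := fun a b => map_add (crd x x) _ _
          map_smul' := fun c a => map_smul (crd x x) c _ }
      exact (LinearMap.toContinuousLinearMap A).contDiff
    have h1 : H775.SmV (fun _ : E' => x) (fun s => (f s : TangentSpace 𝓘(ℝ, E) x)) s :=
      (H775.smV_iff (E := E) (f := fun _ : E' => x)
        (u := fun s => (f s : TangentSpace 𝓘(ℝ, E) x)) (s := s) x (mem_extChartAt_source x)).2
        ⟨contMDiffAt_const, h2.contDiffAt.comp s hf.contDiffAt⟩
    exact h1.exp F.isExp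
  exact h

/-- the moved geodesic, as a plot -/
theorem At_lp (F : Facts e) {Y : UT E M → E} (hY : IsFld Y) (v : UT E M) {E' : Type}
    [NormedAddCommGroup E'] [NormedSpace ℝ E'] [FiniteDimensional ℝ E'] {f g : E' → ℝ}
    (hf : ContDiff ℝ ∞ f) (hg : ContDiff ℝ ∞ g) (y : E') :
    (dM E M).At (fun s => po e Y (phi F (v, f s), g s)) y := by
  have h1 : (dUT E M).At (fun s => phi F (v, f s)) y :=
    map_phi F (u := fun s => (v, f s)) ⟨At_const_UT v y, Sm.of_contDiff hf y⟩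
  exact map_po F hY (u := fun s => (phi F (v, f s), g s)) ⟨h1, Sm.of_contDiff hg y⟩

theorem contMDiffAt_of_At {E' : Type} [NormedAddCommGroup E'] [NormedSpace ℝ E']
    [FiniteDimensional ℝ E'] {u : E' → M} {y : E'} (h : (dM E M).At u y) :
    ContMDiffAt 𝓘(ℝ, E') 𝓘(ℝ, E) ∞ u y := Filter.Eventually.self_of_nhds h

theorem continuous_of_At {E' : Type} [NormedAddCommGroup E'] [NormedSpace ℝ E']
    [FiniteDimensional ℝ E'] {u : E' → M} (h : ∀ y, (dM E M).At u y) : Continuous u :=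
  continuous_iff_continuousAt.2 fun y => (contMDiffAt_of_At (h y)).continuousAt

/-- a raw vector as a tangent vector -/
def tt (x : M) (a : E) : TangentSpace 𝓘(ℝ, E) x := a

/-- the logarithm at a fixed point along a smooth map, as a smooth map to the tangent space -/
theorem contDiffAt_lm (F : Facts e) {D : ℝ} (hB : InjGE e D) (x : M) {E' : Type}
    [NormedAddCommGroup E'] [NormedSpace ℝ E'] [FiniteDimensional ℝ E'] {b : E' → M} {s : E'}
    (hb : ContMDiffAt 𝓘(ℝ, E') 𝓘(ℝ, E) ∞ b s) (h : dist x (b s) < D) :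
    ContDiffAt ℝ ∞ (fun t => tt x (lm e x (b t))) s := by
  have h1 : H775.SmV (fun _ : E' => x) (fun t => tt x (lm e x (b t))) s :=
    smV_lm F hB contMDiffAt_const hb h
  have h2 := ((H775.smV_iff (E := E) (f := fun _ : E' => x)
        (u := fun t => tt x (lm e x (b t))) (s := s) x
        (mem_extChartAt_source x)).1 h1).2
  let A : E →L[ℝ] TangentSpace 𝓘(ℝ, E) x := vec (E := E) x x
  let q : E' → E := fun t => crd (E := E) x x (tt x (lm e x (b t)))
  have h2' : ContDiffAt ℝ ∞ q s := h2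
  have h3 : ContDiffAt ℝ ∞ (fun t => A (q t)) s := ContDiffAt.clm_apply contDiffAt_const h2'
  refine h3.congr_of_eventuallyEq (Eventually.of_forall fun t => ?_)
  exact (vec_crd x (mem_extChartAt_source x) _).symm

/-- **The apex near the cut pair.** -/
theorem near (F : Facts e) {D : ℝ} (hD : 0 < D) (hB : InjGE e D)
    (hdiam : ∀ p q : M, dist p q ≤ D) {Y : UT E M → E} (hY : IsFld Y) {v : UT E M} {w w' : E}
    (hw : nm (foot v) w = 1) (hvw : ip (foot v) (vec' v) w = 0)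
    (hrev : WD2.Rev e D (x := foot v) (y := foot (phi F (v, D))) w w')
    (hpos : 0 < ip (foot v) (Y v) w + ip (foot (phi F (v, D))) (Y (phi F (v, D))) w') :
    ∀ᶠ p : ℝ × ℝ × ℝ in 𝓝 (0, 0, D), 0 ≤ p.2.1 → 0 < p.1 →
      dist (e (foot v) (p.2.1 • w + p.1 • Y v : E)) (po e Y (phi F (v, p.2.2), p.1)) < D := by
  set x : M := foot v with hx
  set x' : M := foot (phi F (v, D)) with hx'
  let vv : TangentSpace 𝓘(ℝ, E) x := tt x (vec' v)
  let ww : TangentSpace 𝓘(ℝ, E) x := tt x w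
  let yy : TangentSpace 𝓘(ℝ, E) x := tt x (Y v)
  let v1 : TangentSpace 𝓘(ℝ, E) x' := tt x' (vec' (phi F (v, D)))
  let w1 : TangentSpace 𝓘(ℝ, E) x' := tt x' w'
  let y1 : TangentSpace 𝓘(ℝ, E) x' := tt x' (Y (phi F (v, D)))
  have hvv : ‖vv‖ = 1 := nm_vec' v
  have hww : ‖ww‖ = 1 := hw
  have hv1 : ‖v1‖ = 1 := nm_vec' (phi F (v, D))
  have hw1 : ‖w1‖ = 1 := hrev.1
  -- the geodesics through the cut pair
  have hcl : ∀ (x : M) (v : E), nm x v = 2 * D → e x v = x :=
    fun x v hv => closed_of_inj_diam F hD hB hdiam x v hv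
  have rv1 : WD2.Rev e D vv (-v1) := by
    refine ⟨by rw [norm_neg]; exact hv1, fun s => ?_⟩
    have h1 := gam_flow F x (vec' v) D (s - D)
    rw [add_sub_cancel] at h1
    have h2 : e x (s • vv) = e x' ((s - D) • v1) := h1.symm
    rw [h2, smul_neg, ← neg_smul, neg_sub]
  have rv2 : WD2.Rev e D (-vv) v1 := by
    refine ⟨hv1, fun s => ?_⟩
    have h1 := gam_flow F x (vec' v) D (D - s)
    have h2 := gam_per F hD.le hcl x (vec' v) (nm_vec' v) (-s)
    have h3 : e x ((-s) • vv) = e x' ((D - s) • v1) := by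
      refine Eq.trans h2.symm (Eq.trans ?_ h1.symm)
      congr 1
      ring
    rw [← h3, smul_neg, neg_smul]
  have hvw0 : (inner ℝ vv ww : ℝ) = 0 := hvw
  have hvw1 : (inner ℝ v1 w1 : ℝ) = 0 := by
    have h1 := WD2.Rev.inner_eq F hD hB hvv hww rv1 hrev
    rw [hvw0] at h1
    have h2 : (inner ℝ (-v1) w1 : ℝ) = 0 := h1.symm
    rw [inner_neg_left, neg_eq_zero] at h2
    exact h2
  obtain ⟨C, hC, δ, hδ, hpair⟩ := WD2.pair_unif F hD hB x x'
  -- the moved geodesic in the logarithmic chart at `x'`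
  let ζ : ℝ × ℝ → TangentSpace 𝓘(ℝ, E) x' :=
    fun q => tt x' (lm e x' (po e Y (phi F (v, D + q.1), q.2)))
  have hCat : ∀ q : ℝ × ℝ, (dM E M).At (fun q : ℝ × ℝ => po e Y (phi F (v, D + q.1), q.2)) q :=
    fun q => At_lp F hY v (f := fun q : ℝ × ℝ => D + q.1) (g := fun q : ℝ × ℝ => q.2)
      (by fun_prop) (by fun_prop) q
  have hC0 : po e Y (phi F (v, D + (0 : ℝ × ℝ).1), (0 : ℝ × ℝ).2) = x' := by
    simp only [Prod.fst_zero, Prod.snd_zero, add_zero]
    exact po_zero F Y _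
  have hζs : ContDiffAt ℝ ∞ ζ 0 := by
    refine contDiffAt_lm F hB x' (contMDiffAt_of_At (hCat 0)) ?_
    rw [hC0, dist_self]
    exact hD
  have hζτ : ∀ τ : ℝ, |τ| < D → ζ (τ, 0) = τ • v1 := by
    intro τ hτ
    have h1 : po e Y (phi F (v, D + τ), 0) = e x' (τ • v1) := by
      rw [po_zero F, foot_phi, ← gm_phi F v D τ]
      rfl
    have h2 : nm x' (τ • vec' (phi F (v, D))) < D := by
      rw [nm_smul, nm_vec', mul_one]
      exact hτ
    exact (congrArg (lm e x') h1).trans (lm_eq F hB h2)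
  have hζε : ∀ᶠ ε : ℝ in 𝓝 0, ζ (0, ε) = ε • y1 := by
    have hc : Tendsto (fun ε : ℝ => |ε| * ‖y1‖) (𝓝 0) (𝓝 0) := by
      have : Continuous fun ε : ℝ => |ε| * ‖y1‖ := by fun_prop
      exact this.tendsto' 0 0 (by simp)
    filter_upwards [hc.eventually_lt_const hD] with ε hε
    have h1 : po e Y (phi F (v, D + 0), ε) = e x' (ε • y1) := by
      rw [add_zero]
      rfl
    have h2 : nm x' (ε • Y (phi F (v, D))) < D := by
      rw [nm_smul]
      exact hε
    exact (congrArg (lm e x') h1).trans (lm_eq F hB h2)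
  have hζ0 : ζ 0 = 0 := by
    have := hζτ 0 (by rw [abs_zero]; exact hD)
    rw [zero_smul] at this
    exact this
  have hd := (hζs.differentiableAt (by simp)).hasFDerivAt
  have hL1 : fderiv ℝ ζ 0 ((1 : ℝ), (0 : ℝ)) = v1 := by
    have h1 : HasFDerivAt (fun τ : ℝ => ((τ, 0) : ℝ × ℝ)) (ContinuousLinearMap.inl ℝ ℝ ℝ) 0 :=
      hasFDerivAt_prodMk_left (0 : ℝ) (0 : ℝ)
    have h2 : HasFDerivAt (fun τ : ℝ => ζ (τ, 0)) ((fderiv ℝ ζ 0).comp
        (ContinuousLinearMap.inl ℝ ℝ ℝ)) 0 := HasFDerivAt.comp (0 : ℝ) (g := ζ) hd h1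
    have h3 : HasDerivAt (fun τ : ℝ => ζ (τ, 0)) v1 0 := by
      have h4 : HasDerivAt (fun τ : ℝ => τ • v1) v1 0 := by
        simpa using (hasDerivAt_id (0 : ℝ)).smul_const v1
      refine h4.congr_of_eventuallyEq ?_
      have : ∀ᶠ τ : ℝ in 𝓝 0, |τ| < D := by
        have hc : Continuous fun τ : ℝ => |τ| := continuous_abs
        exact (hc.tendsto' 0 0 abs_zero).eventually_lt_const hD
      filter_upwards [this] with τ hτ using hζτ τ hτ
    have h5 := h2.hasDerivAt.unique h3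
    simpa using h5
  have hL2 : fderiv ℝ ζ 0 ((0 : ℝ), (1 : ℝ)) = y1 := by
    have h1 : HasFDerivAt (fun ε : ℝ => ((0, ε) : ℝ × ℝ)) (ContinuousLinearMap.inr ℝ ℝ ℝ) 0 :=
      hasFDerivAt_prodMk_right (0 : ℝ) (0 : ℝ)
    have h2 : HasFDerivAt (fun ε : ℝ => ζ (0, ε)) ((fderiv ℝ ζ 0).comp
        (ContinuousLinearMap.inr ℝ ℝ ℝ)) 0 := HasFDerivAt.comp (0 : ℝ) (g := ζ) hd h1
    have h3 : HasDerivAt (fun ε : ℝ => ζ (0, ε)) y1 0 := by
      have h4 : HasDerivAt (fun ε : ℝ => ε • y1) y1 0 := by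
        simpa using (hasDerivAt_id (0 : ℝ)).smul_const y1
      exact h4.congr_of_eventuallyEq hζε
    have h5 := h2.hasDerivAt.unique h3
    simpa using h5
  have hL : ∀ τ ε : ℝ, fderiv ℝ ζ 0 (τ, ε) = τ • v1 + ε • y1 := by
    intro τ ε
    have h1 : ((τ, ε) : ℝ × ℝ) = τ • ((1 : ℝ), (0 : ℝ)) + ε • ((0 : ℝ), (1 : ℝ)) := by simp
    rw [h1, map_add, map_smul, map_smul, hL1, hL2]
  have key := apex_near (ex := fun ξ : TangentSpace 𝓘(ℝ, E) x => e x ξ)
    (ex' := fun ξ : TangentSpace 𝓘(ℝ, E) x' => e x' ξ) (D := D) (K := C) hδ (v := vv) (w := ww)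
    (y := yy) (v' := v1) (w' := -w1) (y' := y1) hww (by rw [real_inner_comm]; exact hvw0) hv1
    (by rw [inner_neg_right, hvw1, neg_zero]) ?_ ?_ ?_ ?_ hd hζ0 hL
  · -- back to the moved geodesic
    have hT : Tendsto (fun p : ℝ × ℝ × ℝ => ((p.1, p.2.1, p.2.2 - D) : ℝ × ℝ × ℝ))
        (𝓝 (0, 0, D)) (𝓝 0) := by
      have hc : Continuous fun p : ℝ × ℝ × ℝ => ((p.1, p.2.1, p.2.2 - D) : ℝ × ℝ × ℝ) := by
        fun_prop
      exact hc.tendsto' _ _ (by simp)
    have hT2 : Tendsto (fun p : ℝ × ℝ × ℝ => ((p.2.2 - D, p.1) : ℝ × ℝ))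
        (𝓝 (0, 0, D)) (𝓝 0) := by
      have hc : Continuous fun p : ℝ × ℝ × ℝ => ((p.2.2 - D, p.1) : ℝ × ℝ) := by
        fun_prop
      exact hc.tendsto' _ _ (by simp)
    have hclose : ∀ᶠ q : ℝ × ℝ in 𝓝 0, dist x' (po e Y (phi F (v, D + q.1), q.2)) < D := by
      have hc : Continuous fun q : ℝ × ℝ => dist x' (po e Y (phi F (v, D + q.1), q.2)) :=
        continuous_const.dist (continuous_of_At hCat)
      refine (hc.tendsto' 0 0 ?_).eventually_lt_const hD
      rw [hC0, dist_self]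
    filter_upwards [hT.eventually key, hT2.eventually hclose] with p hp1 hp2 hs hε
    have h1 := hp1 hs hε
    have h2 : e x' (ζ (p.2.2 - D, p.1)) = po e Y (phi F (v, p.2.2), p.1) := by
      have h3 := exp_lm F hB hp2
      refine h3.trans ?_
      simp only [add_sub_cancel]
    change dist (e x (p.2.1 • ww + p.1 • yy)) (e x' (ζ (p.2.2 - D, p.1))) < D at h1
    rw [h2] at h1
    exact h1
  · rw [inner_neg_right, sub_neg_eq_add]
    exact hpos
  · intro ξ ζ' h1 h2
    have h3 := hpair ww w1 hww hrev ξ ζ' h1 h2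
    rw [real_inner_comm ξ ww] at h3
    rw [inner_neg_right, real_inner_comm w1 ζ']
    linarith
  · intro ξ ζ' h1 h2
    have h3 := hpair vv (-v1) hvv rv1 ξ ζ' h1 h2
    rw [inner_neg_left, real_inner_comm ξ vv, real_inner_comm ζ' v1] at h3
    linarith
  · intro ξ ζ' h1 h2
    have h3 := hpair (-vv) v1 (by rw [norm_neg]; exact hvv) rv2 ξ ζ' h1 h2
    rw [inner_neg_left, real_inner_comm ξ vv, real_inner_comm ζ' v1] at h3
    linarith

/-- the moved geodesic has period `2 D` -/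
theorem lp_per (F : Facts e) {D : ℝ} (hD : 0 < D) (hB : InjGE e D)
    (hdiam : ∀ p q : M, dist p q ≤ D) (Y : UT E M → E) (v : UT E M) (t ε : ℝ) :
    po e Y (phi F (v, t + 2 * D), ε) = po e Y (phi F (v, t), ε) := by
  rw [← phi_add F v t (2 * D), phi_per F hD hB hdiam]

/-- **The apex of the cones over the moved geodesic (D4.1).** -/
theorem apex_geom (F : Facts e) {D : ℝ} (hD : 0 < D) (hB : InjGE e D)
    (hdiam : ∀ p q : M, dist p q ≤ D) {Y : UT E M → E} (hY : IsFld Y) {v : UT E M} {w w' : E}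
    (hw : nm (foot v) w = 1) (hvw : ip (foot v) (vec' v) w = 0)
    (hrev : WD2.Rev e D (x := foot v) (y := foot (phi F (v, D))) w w')
    (hpos : 0 < ip (foot v) (Y v) w + ip (foot (phi F (v, D))) (Y (phi F (v, D))) w') :
    ∃ ε₁ : ℝ, 0 < ε₁ ∧ ∀ ε ∈ Ioc 0 ε₁,
      (∀ s ∈ Icc 0 (D / 2), ∀ t, dist (e (foot v) (s • w + ε • Y v : E))
        (po e Y (phi F (v, t), ε)) < D) ∧
      (∀ σ ∈ Icc (0 : ℝ) 1, ∀ t, dist (e (foot v) ((D / 2) • w + (σ * ε) • Y v : E))
        (po e Y (phi F (v, t), ε)) < D) ∧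
      (∀ ε' ∈ Icc 0 ε, ∀ t, dist (e (foot v) ((D / 2) • w : E))
        (po e Y (phi F (v, t), ε')) < D) := by
  have hcl : ∀ (x : M) (v : E), nm x v = 2 * D → e x v = x :=
    fun x v hv => closed_of_inj_diam F hD hB hdiam x v hv
  have hvL : (tt (foot v) (vec' v)) ∈ Lk e D (foot (phi F (v, D))) (foot v) := ⟨nm_vec' v, rfl⟩
  have hwL : (tt (foot v) w) ∈ Lk e D (foot (phi F (v, D))) (foot v) := by
    refine ⟨hw, ?_⟩
    have h1 := hrev.2 D
    have h2 : ((D - D) • w' : E) = 0 := by rw [sub_self, zero_smul]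
    exact h1.trans ((congrArg (e (foot (phi F (v, D)))) h2).trans (F.isExp.map_zero _))
  have hfar : ∀ s ∈ Ioc 0 (D / 2), ∀ t, dist (e (foot v) (s • w : E)) (gm e (v, t)) < D := by
    intro s hs t
    exact WD1.lemD_orth F hD hB hdiam hvL hwL hvw hs.1 (by linarith [hs.2]) t
  have hC : Continuous fun p : ℝ × ℝ => po e Y (phi F (v, p.1), p.2) :=
    continuous_of_At fun q => At_lp F hY v (f := fun q : ℝ × ℝ => q.1)
      (g := fun q : ℝ × ℝ => q.2) (by fun_prop) (by fun_prop) q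
  have hZ : Continuous fun p : ℝ × ℝ => e (foot v) (p.1 • w + p.2 • Y v : E) :=
    continuous_of_At fun q => At_exp F (foot v) (f := fun p : ℝ × ℝ => p.1 • w + p.2 • Y v)
      (by fun_prop) q
  have hZ' : Continuous fun p : ℝ × ℝ => e (foot v) ((D / 2) • w + (p.1 * p.2) • Y v : E) :=
    continuous_of_At fun q => At_exp F (foot v)
      (f := fun p : ℝ × ℝ => (D / 2) • w + (p.1 * p.2) • Y v) (by fun_prop) q
  have hadd0 : ∀ a : E, a + (0 : ℝ) • Y v = a := fun a => by rw [zero_smul, add_zero]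
  obtain ⟨ε₁, h1, h2⟩ := apex_compact (D := D) (T := 2 * D) (S := D / 2) (by linarith)
    (Z := fun s ε => e (foot v) (s • w + ε • Y v : E))
    (C := fun t ε => po e Y (phi F (v, t), ε)) (t₀ := D) hZ hC
    (fun t ε => lp_per F hD hB hdiam Y v t ε) (near F hD hB hdiam hY hw hvw hrev hpos)
    (by
      intro t ht htD
      have h3' : ((0 : ℝ) • w + (0 : ℝ) • Y v : E) = 0 := by rw [hadd0, zero_smul]
      have h3 : e (foot v) ((0 : ℝ) • w + (0 : ℝ) • Y v : E) = foot v :=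
        (congrArg (e (foot v)) h3').trans (F.isExp.map_zero _)
      rw [h3, po_zero F, foot_phi]
      rcases lt_or_gt_of_ne htD with h4 | h4
      · have h5 := hB (foot v) (tt (foot v) (t • vec' v)) (by
          change nm (foot v) (t • vec' v) ≤ D
          rw [nm_smul, nm_vec', mul_one, abs_of_nonneg ht.1]
          exact h4.le)
        have h6 : nm (foot v) (t • vec' v) = t := by
          rw [nm_smul, nm_vec', mul_one, abs_of_nonneg ht.1]
        exact (h5.trans h6).trans_lt h4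
      · have h7 := gam_per F hD.le hcl (foot v) (vec' v) (nm_vec' v) (t - 2 * D)
        rw [sub_add_cancel] at h7
        have h6 : nm (foot v) ((t - 2 * D) • vec' v) = 2 * D - t := by
          rw [nm_smul, nm_vec', mul_one, abs_of_nonpos (by linarith [ht.2])]
          ring
        have h5 := hB (foot v) (tt (foot v) ((t - 2 * D) • vec' v)) (by
          change nm (foot v) ((t - 2 * D) • vec' v) ≤ D
          rw [h6]
          linarith)
        change dist (foot v) (gam e (foot v) (vec' v) t) < D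
        rw [h7]
        exact (h5.trans h6).trans_lt (by linarith))
    (by
      intro s hs t ht
      have h3 : e (foot v) (s • w + (0 : ℝ) • Y v : E) = e (foot v) (s • w : E) :=
        congrArg (e (foot v)) (hadd0 _)
      rw [h3, po_zero F, foot_phi]
      exact hfar s hs t)
  obtain ⟨ε₂, h3, h4⟩ := apex_compact' (D := D) (T := 2 * D) (by linarith)
    (Z := fun σ ε => e (foot v) ((D / 2) • w + (σ * ε) • Y v : E))
    (C := fun t ε => po e Y (phi F (v, t), ε)) hZ' hC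
    (fun t ε => lp_per F hD hB hdiam Y v t ε)
    (by
      intro s hs t ht
      have h3' : ((D / 2) • w + (s * 0) • Y v : E) = (D / 2) • w := by rw [mul_zero, hadd0]
      have h3 : e (foot v) ((D / 2) • w + (s * 0) • Y v : E) = e (foot v) ((D / 2) • w : E) :=
        congrArg (e (foot v)) h3'
      rw [h3, po_zero F, foot_phi]
      exact hfar (D / 2) ⟨by linarith, le_rfl⟩ t)
  refine ⟨min ε₁ ε₂, lt_min h1 h3, fun ε hε => ⟨fun s hs t => ?_, fun σ hσ t => ?_,
    fun ε' hε' t => ?_⟩⟩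
  · exact h2 ε ⟨hε.1, hε.2.trans (min_le_left _ _)⟩ s hs t
  · exact h4 ε ⟨hε.1.le, hε.2.trans (min_le_right _ _)⟩ σ hσ t
  · have h5 := h4 ε' ⟨hε'.1, hε'.2.trans (hε.2.trans (min_le_right _ _))⟩ 0 ⟨le_rfl, zero_le_one⟩ t
    have h6' : ((D / 2) • w + (0 * ε') • Y v : E) = (D / 2) • w := by rw [zero_mul, hadd0]
    have h6 : e (foot v) ((D / 2) • w + (0 * ε') • Y v : E) = e (foot v) ((D / 2) • w : E) :=
      congrArg (e (foot v)) h6'
    rw [← h6]
    exact h5

end

end Vale.Agent.P231.H766
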