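import Vale.Agent.P231.H766.Kap1
import Vale.Agent.P231.H766.Kap2

/-!
# P231, block D4: the integral over the contraction of a pushed-off closed geodesic
-/

set_option maxSynthPendingDepth 3
set_option linter.unusedSectionVars false
set_option linter.unusedVariables false

open Bundle Manifold Set Filter Module
open scoped ContDiff Manifold Topology

namespace Vale.Agent.P231.H766

noncomputable section

open Vale.Agent.P234 Vale.Agent.P231 Vale.Agent.P231.Fm Vale.Agent.P231.W Vale.Agent.P231.WD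
open Vale.Agent.P231.WD3

variable {E : Type*} [NormedAddCommGroup E] [NormedSpace ℝ E]
  {M : Type*} [MetricSpace M] [ChartedSpace E M]
  [RiemannianBundle (fun x : M => TangentSpace 𝓘(ℝ, E) x)]
  {e : ∀ x : M, TangentSpace 𝓘(ℝ, E) x → M}
  [FiniteDimensional ℝ E] [IsManifold 𝓘(ℝ, E) ∞ M]
  [IsContMDiffRiemannianBundle 𝓘(ℝ, E) ∞ E (fun x : M => TangentSpace 𝓘(ℝ, E) x)]
  [CompactSpace M] [ConnectedSpace M] [IsRiemannianManifold 𝓘(ℝ, E) M]

/-- moving the apex from the loop to the pole `exp_x ((D / 2) w)` -/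
theorem cone_pole (F : Facts e) {D : ℝ} (hD : 0 < D) (hB : InjGE e D)
    (hdiam : ∀ p q : M, dist p q ≤ D) {Y : UT E M → E} (hY : IsFld Y) {Om : Form (dM E M)}
    (hO : Om.d = 0) {v : UT E M} {w : E} {ε : ℝ}
    (h1 : ∀ s ∈ Icc 0 (D / 2), ∀ t, dist (e (foot v) (s • w + ε • Y v : E))
        (po e Y (phi F (v, t), ε)) < D)
    (h2 : ∀ σ ∈ Icc (0 : ℝ) 1, ∀ t, dist (e (foot v) ((D / 2) • w + (σ * ε) • Y v : E))
        (po e Y (phi F (v, t), ε)) < D) :
    cone (geoM F hB) Om (e (foot v) ((D / 2) • w : E)) (fun t => po e Y (phi F (v, t), ε)) 0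
      (2 * D) =
    cone (geoM F hB) Om (po e Y (v, ε)) (fun t => po e Y (phi F (v, t), ε)) 0 (2 * D) := by
  have hT : (0 : ℝ) ≤ 2 * D := by linarith
  have hc : ∀ t : ℝ, (dM E M).At (fun t => po e Y (phi F (v, t), ε)) t := fun t =>
    At_lp F hY v (f := fun t : ℝ => t) (g := fun _ : ℝ => ε) contDiff_id contDiff_const t
  have hper : po e Y (phi F (v, 2 * D), ε) = po e Y (phi F (v, 0), ε) := by
    have := lp_per F hD hB hdiam Y v 0 ε
    rwa [zero_add] at this
  have m1 := cone_move (geoM F hB) hO (c := fun t => po e Y (phi F (v, t), ε))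
    (z := fun s => e (foot v) (s • w + ε • Y v : E)) (a := 0) (b := 2 * D) (s0 := 0)
    (s1 := D / 2) hT (by linarith) hc
    (fun s => At_exp F (foot v) (f := fun s : ℝ => s • w + ε • Y v) (by fun_prop) s)
    (fun t _ s hs => h1 s hs t) hper
  have m2 := cone_move (geoM F hB) hO (c := fun t => po e Y (phi F (v, t), ε))
    (z := fun σ => e (foot v) ((D / 2) • w + (σ * ε) • Y v : E)) (a := 0) (b := 2 * D) (s0 := 0)
    (s1 := 1) hT zero_le_one hc
    (fun s => At_exp F (foot v) (f := fun σ : ℝ => (D / 2) • w + (σ * ε) • Y v) (by fun_prop) s)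
    (fun t _ s hs => h2 s hs t) hper
  have e1' : ((0 : ℝ) • w + ε • Y v : E) = ε • Y v := by rw [zero_smul, zero_add]
  have e1 : e (foot v) ((0 : ℝ) • w + ε • Y v : E) = po e Y (v, ε) :=
    congrArg (e (foot v)) e1'
  have e2' : ((D / 2) • w + ((1 : ℝ) * ε) • Y v : E) = (D / 2) • w + ε • Y v := by rw [one_mul]
  have e2 : e (foot v) ((D / 2) • w + ((1 : ℝ) * ε) • Y v : E) =
      e (foot v) ((D / 2) • w + ε • Y v : E) := congrArg (e (foot v)) e2'
  have e3' : ((D / 2) • w + ((0 : ℝ) * ε) • Y v : E) = (D / 2) • w := by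
    rw [zero_mul, zero_smul, add_zero]
  have e3 : e (foot v) ((D / 2) • w + ((0 : ℝ) * ε) • Y v : E) =
      e (foot v) ((D / 2) • w : E) := congrArg (e (foot v)) e3'
  simp only [e1] at m1
  simp only [e2, e3] at m2
  exact m2.symm.trans m1

/-- **D4.3.** The integral over the contraction of the pushed-off geodesic of `v`. -/
theorem I2_gg_UT (F : Facts e) {D : ℝ} (hD : 0 < D) (hB : InjGE e D)
    (hdiam : ∀ p q : M, dist p q ≤ D) {Y : UT E M → E} (hY : IsFld Y) {Om : Form (dM E M)}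
    (hO : Om.d = 0) {v : UT E M} {w w' : E}
    (hw : nm (foot v) w = 1) (hvw : ip (foot v) (vec' v) w = 0)
    (hrev : WD2.Rev e D (x := foot v) (y := foot (phi F (v, D))) w w')
    (hpos : 0 < ip (foot v) (Y v) w + ip (foot (phi F (v, D))) (Y (phi F (v, D))) w') :
    ∃ ε₁ : ℝ, 0 < ε₁ ∧ ∀ ε ∈ Ioc 0 ε₁, ∀ H : UT E M → ℝ → M,
      ((dUT E M).prod (Dif.lin ℝ)).Map (dM E M) (fun p => H p.1 p.2) →
      (∀ v u, u ≤ 0 → H v u = po e Y (v, ε)) → (∀ v t, H (phi F (v, t)) 1 = H v 1) →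
      (∀ v u, eVariationOn (fun t => H (phi F (v, t)) u) (Icc 0 (2 * D)) <
        2 * ENNReal.ofReal D) →
      I2 Om (fun p => gg (po e Y) ε H (phi F (v, p.1), p.2)) 0 (2 * D) 0 1 =
        -cone (geoM F hB) Om (e (foot v) ((D / 2) • w : E)) (fun t => gm e (v, t)) 0 (2 * D) := by
  obtain ⟨ε₁, hε₁, h⟩ := apex_geom F hD hB hdiam hY hw hvw hrev hpos
  refine ⟨ε₁, hε₁, fun ε hε H hH h0 h1 hlen => ?_⟩
  obtain ⟨g1, g2, g3⟩ := h ε hε
  have key := I2_gg (geoM F hB) hO hD (T := 2 * D) (by linarith)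
    (isFlow_phi F hD hB hdiam) (map_po F hY) hH h0 h1 hε.1.le hlen (b := v)
    (At_const_UT v 0) (z := e (foot v) ((D / 2) • w : E)) (At_const_M _ 0)
    (fun t s hs => g3 s hs t) (cone_pole F hD hB hdiam hY hO g1 g2)
  rw [key]
  congr 2
  funext t
  rw [po_zero F, foot_phi]

/-- the opposite directions at a cut pair -/
theorem rev_neg (F : Facts e) {D : ℝ} (hD : 0 < D) (hB : InjGE e D)
    (hdiam : ∀ p q : M, dist p q ≤ D) {x y : M} {w : TangentSpace 𝓘(ℝ, E) x}
    {w' : TangentSpace 𝓘(ℝ, E) y} (hw : ‖w‖ = 1) (h : WD2.Rev e D w w') :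
    WD2.Rev e D (-w) (-w') := by
  have hcl : ∀ (x : M) (v : E), nm x v = 2 * D → e x v = x :=
    fun x v hv => closed_of_inj_diam F hD hB hdiam x v hv
  refine ⟨by rw [norm_neg]; exact h.1, fun s => ?_⟩
  have h1 := h.2 (-s)
  have h2 : gam e y w' (s - D + 2 * D) = gam e y w' (s - D) :=
    gam_per F hD.le hcl y w' h.1 (s - D)
  have h3 : e y ((D - -s) • w') = e y ((s - D) • w') := by
    refine Eq.trans ?_ h2
    congr 1
    have : D - -s = s - D + 2 * D := by ring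
    rw [this]
    rfl
  rw [smul_neg, ← neg_smul, h1, h3, smul_neg, ← neg_smul, neg_sub]

/-- **D4.3, the opposite side.** -/
theorem I2_gg_UT_neg (F : Facts e) {D : ℝ} (hD : 0 < D) (hB : InjGE e D)
    (hdiam : ∀ p q : M, dist p q ≤ D) {Y : UT E M → E} (hY : IsFld Y) {Om : Form (dM E M)}
    (hO : Om.d = 0) {v : UT E M} {w w' : E}
    (hw : nm (foot v) w = 1) (hvw : ip (foot v) (vec' v) w = 0)
    (hrev : WD2.Rev e D (x := foot v) (y := foot (phi F (v, D))) w w')
    (hpos : 0 < ip (foot v) (Y v) w + ip (foot (phi F (v, D))) (Y (phi F (v, D))) w') :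
    ∃ ε₁ : ℝ, 0 < ε₁ ∧ ∀ ε ∈ Ioc 0 ε₁, ∀ H : UT E M → ℝ → M,
      ((dUT E M).prod (Dif.lin ℝ)).Map (dM E M) (fun p => H p.1 p.2) →
      (∀ v u, u ≤ 0 → H v u = po e (fun v => -Y v) (v, ε)) →
      (∀ v t, H (phi F (v, t)) 1 = H v 1) →
      (∀ v u, eVariationOn (fun t => H (phi F (v, t)) u) (Icc 0 (2 * D)) <
        2 * ENNReal.ofReal D) →
      I2 Om (fun p => gg (po e (fun v => -Y v)) ε H (phi F (v, p.1), p.2)) 0 (2 * D) 0 1 =
        -cone (geoM F hB) Om (e (foot v) ((D / 2) • (-w) : E)) (fun t => gm e (v, t)) 0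
          (2 * D) := by
  have hn : ∀ (x : M) (a : E), nm x (-a) = nm x a := fun x a =>
    norm_neg (E := TangentSpace 𝓘(ℝ, E) x) _
  have hi : ∀ (x : M) (a b : E), ip x (-a) (-b) = ip x a b := fun x a b =>
    inner_neg_neg (𝕜 := ℝ) (E := TangentSpace 𝓘(ℝ, E) x) _ _
  refine I2_gg_UT F hD hB hdiam hY.neg hO (v := v) (w := -w) (w' := -w') ((hn _ _).trans hw)
    ?_ (rev_neg F hD hB hdiam hw hrev) ?_
  · rw [WR.ip_neg_right', hvw, neg_zero]
  · simp only [hi]
    exact hpos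

end

end Vale.Agent.P231.H766
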