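import Vale.Agent.P231.H766.Uec4

/-!
# P231, equivariant contraction of short loops (E): the theorem
-/

set_option linter.unusedSectionVars false
set_option linter.unusedVariables false

open Set Filter Topology
open scoped ContDiff ENNReal

namespace Vale.Agent.P231.H766

open Vale.Agent.P231.Fm

variable {B : Type*} {DB : Dif B} {A : CAct DB} {M : Type*} [MetricSpace M] {DM : Dif M}

/-- finitely many stages -/
theorem stages {D : ℝ} (g : Geo DM D) {C : B → M} (hC : DB.Map DM C)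
    (hlen : ∀ b, eVariationOn (fun t => C (A.φ b t)) (Icc 0 1) < 2 * ENNReal.ofReal D)
    {δ : ℝ} (hδ : 0 < δ) (L : List (B → ℂ))
    (hL : ∀ F ∈ L, DB.Map (Dif.lin ℂ) F ∧ Equi A F) :
    ∃ C' : B → M,
      Hty DM A (fun b => eVariationOn (fun t => C (A.φ b t)) (Icc 0 1))
        (fun b => ∀ t, C (A.φ b t) = C b) C C' ∧
      ∀ b, (∃ F ∈ L, δ ≤ ‖F b‖) → ∀ t, C' (A.φ b t) = C' b := by
  induction L with
  | nil => exact ⟨C, Hty.refl hC fun b => le_rfl, fun b ⟨F, hF, _⟩ => absurd hF (by simp)⟩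
  | cons F L ih =>
    obtain ⟨C₁, h1, h2⟩ := ih fun F' hF' => hL F' (List.mem_cons_of_mem _ hF')
    have hC₁ : DB.Map DM C₁ := h1.smooth_right
    have hlen₁ : ∀ b, eVariationOn (fun t => C₁ (A.φ b t)) (Icc 0 1) < 2 * ENNReal.ofReal D :=
      fun b => (h1.var_right b).trans_lt (hlen b)
    obtain ⟨hF1, hF2⟩ := hL F List.mem_cons_self
    obtain ⟨C₂, h3, h4⟩ := stage g hF1 hF2 hδ hC₁ hlen₁
    have h3' : Hty DM A (fun b => eVariationOn (fun t => C (A.φ b t)) (Icc 0 1))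
        (fun b => ∀ t, C (A.φ b t) = C b) C₁ C₂ := by
      refine h3.mono (fun b => h1.var_right b) fun b hb t => ?_
      have hb' : ∀ s, C (A.φ (A.φ b t) s) = C (A.φ b t) := fun s => by
        rw [A.add, hb, hb]
      rw [h1.const_right hb, h1.const_right hb', hb]
    refine ⟨C₂, h1.trans h3', fun b hb t => ?_⟩
    obtain ⟨F', hF', hb2⟩ := hb
    rcases List.mem_cons.1 hF' with h5 | h5
    · subst h5
      exact h4 b hb2 t
    · have h6 : ∀ t, C₁ (A.φ b t) = C₁ b := h2 b ⟨F', h5, hb2⟩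
      have h7 : ∀ s, C₁ (A.φ (A.φ b t) s) = C₁ (A.φ b t) := fun s => by
        rw [A.add, h6, h6]
      rw [h3.const_right h6, h3.const_right h7, h6]

/-! ### Fourier coefficients -/

/-- the first Fourier coefficient of a function along the orbits -/
noncomputable def fou (A : CAct DB) (f : B → ℝ) (b : B) : ℂ :=
  ∫ t in (0 : ℝ)..1, (f (A.φ b t) : ℂ) * Complex.exp ((2 * Real.pi * (-t) : ℝ) * Complex.I)

theorem fou_equi (f : B → ℝ) : Equi A (fou A f) := by
  intro b s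
  set h : ℝ → ℂ := fun t => (f (A.φ b t) : ℂ) *
    Complex.exp ((2 * Real.pi * (-t) : ℝ) * Complex.I) with hh
  have hper : Function.Periodic h 1 := by
    intro t
    simp only [hh]
    have e1 : t + 1 = t + ((1 : ℤ) : ℝ) := by simp
    have e2 : ((2 * Real.pi * (-(t + 1)) : ℝ) : ℂ) * Complex.I =
        ((2 * Real.pi * (-t) : ℝ) : ℂ) * Complex.I + ((-1 : ℤ) : ℂ) * (2 * Real.pi * Complex.I) := by
      push_cast
      ring
    have e3 : Complex.exp (((-1 : ℤ) : ℂ) * (2 * Real.pi * Complex.I)) = 1 :=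
      Complex.exp_int_mul_two_pi_mul_I (-1)
    rw [e2, Complex.exp_add, e3, mul_one]
    congr 2
    rw [e1, A.add_int]
  have e1 : ∀ t, (f (A.φ (A.φ b s) t) : ℂ) *
      Complex.exp ((2 * Real.pi * (-t) : ℝ) * Complex.I) =
        Complex.exp ((2 * Real.pi * s : ℝ) * Complex.I) * h (s + t) := by
    intro t
    simp only [hh]
    rw [A.add]
    have e2 : ((2 * Real.pi * (-t) : ℝ) : ℂ) * Complex.I =
        ((2 * Real.pi * s : ℝ) : ℂ) * Complex.I +
          ((2 * Real.pi * (-(s + t)) : ℝ) : ℂ) * Complex.I := by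
      push_cast
      ring
    rw [e2, Complex.exp_add]
    ring
  rw [fou, fou]
  simp only [e1]
  rw [intervalIntegral.integral_const_mul]
  congr 1
  have e3 : ∫ t in (0 : ℝ)..1, h (s + t) = ∫ t in s..(s + 1), h t := by
    rw [intervalIntegral.integral_comp_add_left (f := h) s]
    simp
  rw [e3, hper.intervalIntegral_add_eq s 0, zero_add]

theorem fou_smooth {f : B → ℝ} (hf : DB.Map (Dif.lin ℝ) f) : DB.Map (Dif.lin ℂ) (fou A f) := by
  intro E _ _ _ u x hu
  obtain ⟨U, hU1, hU2, hU3⟩ := eventually_nhds_iff.1 (DB.open' hu)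
  have hg : ContDiffOn ℝ ∞ (fun p : E × ℝ => (f (A.φ (u p.1) p.2) : ℂ) *
      Complex.exp ((2 * Real.pi * (-p.2) : ℝ) * Complex.I)) (U ×ˢ univ) := by
    intro p hp
    refine ContDiffAt.contDiffWithinAt ?_
    have h1 : DB.At (fun y : E × ℝ => u y.1) p :=
      DB.comp (g := Prod.fst) (hU1 _ hp.1) (Sm.of_contDiff contDiff_fst p)
    have h2 : DB.At (fun y : E × ℝ => A.φ (u y.1) y.2) p :=
      A.at_phi h1 (Sm.of_contDiff contDiff_snd p)
    have h3 : Sm (fun y : E × ℝ => f (A.φ (u y.1) y.2)) p := hf h2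
    have h4 : ContDiffAt ℝ ∞ (fun y : E × ℝ => (f (A.φ (u y.1) y.2) : ℂ)) p :=
      Complex.ofRealCLM.contDiff.contDiffAt.comp p h3.contDiffAt
    refine h4.mul ?_
    have h5 : ContDiff ℝ ∞ fun y : E × ℝ =>
        Complex.exp ((2 * Real.pi * (-y.2) : ℝ) * Complex.I) := by
      refine Complex.contDiff_exp.comp ?_
      refine ContDiff.mul ?_ contDiff_const
      exact Complex.ofRealCLM.contDiff.comp (contDiff_const.mul contDiff_snd.neg)
    exact h5.contDiffAt
  have h := contDiffOn_time hU2 hg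
  exact Sm.of_contDiffOn h hU2 hU3

/-- finitely many equivariant functions, on a compact space -/
theorem exists_list [TopologicalSpace B] [CompactSpace B]
    (hcont : ∀ F : B → ℂ, DB.Map (Dif.lin ℂ) F → Continuous F)
    (hsep : ∀ b, ∃ f : B → ℝ, DB.Map (Dif.lin ℝ) f ∧ fou A f b ≠ 0) :
    ∃ (δ : ℝ) (L : List (B → ℂ)), 0 < δ ∧ (∀ F ∈ L, DB.Map (Dif.lin ℂ) F ∧ Equi A F) ∧
      ∀ b, ∃ F ∈ L, δ ≤ ‖F b‖ := by
  choose f hf hf2 using hsep
  have hc : ∀ b, Continuous (fou A (f b)) := fun b => hcont _ (fou_smooth (hf b))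
  have hO : ∀ b, {b' | ‖fou A (f b) b‖ / 2 < ‖fou A (f b) b'‖} ∈ 𝓝 b := by
    intro b
    refine ((isOpen_lt continuous_const (hc b).norm)).mem_nhds ?_
    exact half_lt_self (norm_pos_iff.2 (hf2 b))
  obtain ⟨t, ht⟩ := CompactSpace.elim_nhds_subcover _ hO
  have hδ : ∃ δ : ℝ, 0 < δ ∧ ∀ b ∈ t, δ ≤ ‖fou A (f b) b‖ / 2 := by
    classical
    clear ht
    induction t using Finset.induction_on with
    | empty => exact ⟨1, one_pos, fun b hb => absurd hb (by simp)⟩
    | insert a s ha ih =>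
      obtain ⟨δ, h1, h2⟩ := ih
      refine ⟨min δ (‖fou A (f a) a‖ / 2), lt_min h1 (half_pos (norm_pos_iff.2 (hf2 a))),
        fun b hb => ?_⟩
      rcases Finset.mem_insert.1 hb with h3 | h3
      · rw [h3]; exact min_le_right _ _
      · exact (min_le_left _ _).trans (h2 b h3)
  obtain ⟨δ, h1, h2⟩ := hδ
  refine ⟨δ, t.toList.map fun b => fou A (f b), h1, fun F hF => ?_, fun b => ?_⟩
  · obtain ⟨b, _, rfl⟩ := List.mem_map.1 hF
    exact ⟨fou_smooth (hf b), fou_equi _⟩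
  · have h3 : b ∈ ⋃ x ∈ t, {b' | ‖fou A (f x) x‖ / 2 < ‖fou A (f x) b'‖} := by
      rw [ht]
      trivial
    simp only [mem_iUnion, exists_prop] at h3
    obtain ⟨a, ha, hb⟩ := h3
    exact ⟨fou A (f a), List.mem_map.2 ⟨a, Finset.mem_toList.2 ha, rfl⟩,
      (h2 a ha).trans (le_of_lt hb)⟩

/-- **Equivariant contraction.** A smooth family of loops, equivariant under a circle action on a
compact space, all of variation less than `2 D`, is smoothly and equivariantly homotopic through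
such loops to a family of constant loops. -/
theorem uec [TopologicalSpace B] [CompactSpace B]
    (hcont : ∀ F : B → ℂ, DB.Map (Dif.lin ℂ) F → Continuous F)
    (hsep : ∀ b, ∃ f : B → ℝ, DB.Map (Dif.lin ℝ) f ∧ fou A f b ≠ 0)
    {D : ℝ} (g : Geo DM D) {C : B → M} (hC : DB.Map DM C)
    (hlen : ∀ b, eVariationOn (fun t => C (A.φ b t)) (Icc 0 1) < 2 * ENNReal.ofReal D) :
    ∃ H : B → ℝ → M, (DB.prod (Dif.lin ℝ)).Map DM (fun p => H p.1 p.2) ∧
      (∀ b u, u ≤ 0 → H b u = C b) ∧ (∀ b u, 1 ≤ u → H b u = H b 1) ∧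
      (∀ b t, H (A.φ b t) 1 = H b 1) ∧
      (∀ b u, eVariationOn (fun t => H (A.φ b t) u) (Icc 0 1) ≤
        eVariationOn (fun t => C (A.φ b t)) (Icc 0 1)) ∧
      (∀ b, (∀ t, C (A.φ b t) = C b) → ∀ u, H b u = C b) := by
  obtain ⟨δ, L, hδ, hL, hcov⟩ := exists_list (A := A) hcont hsep
  obtain ⟨C', ⟨H, h1, h2, h3, h4, h5⟩, h6⟩ := stages g hC hlen hδ L hL
  refine ⟨H, h1, h2, fun b u hu => ?_, fun b t => ?_, h4, h5⟩
  · rw [h3 b u hu, h3 b 1 le_rfl]
  · rw [h3 _ 1 le_rfl, h3 _ 1 le_rfl]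
    exact h6 b (hcov b) t

end Vale.Agent.P231.H766
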