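import Vale.Agent.P231.H766.Unif
import Vale.Agent.P231.WD.Kappa
import Vale.Agent.P231.H583.C1
import Vale.Agent.P231.WC.Vel

/-!
# P231, block C: the push-off, from the second variation of the energy
-/

set_option maxSynthPendingDepth 3
set_option linter.unusedSectionVars false
set_option linter.unusedVariables false

open Bundle Manifold Set Filter Module MeasureTheory
open scoped ContDiff Manifold Topology ENNReal

namespace Vale.Agent.P231.H766

noncomputable section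

open Vale.Agent.P234 Vale.Agent.P231 Vale.Agent.P231.Fm Vale.Agent.P231.W Vale.Agent.P231.WC
open Vale.Agent.P231.WF Vale.Agent.P231.WR

variable {E : Type*} [NormedAddCommGroup E] [NormedSpace ℝ E]
  {M : Type*} [MetricSpace M] [ChartedSpace E M]
  [RiemannianBundle (fun x : M => TangentSpace 𝓘(ℝ, E) x)]
  {e : ∀ x : M, TangentSpace 𝓘(ℝ, E) x → M}
  [FiniteDimensional ℝ E] [IsManifold 𝓘(ℝ, E) ∞ M]
  [IsContMDiffRiemannianBundle 𝓘(ℝ, E) ∞ E (fun x : M => TangentSpace 𝓘(ℝ, E) x)]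
  [CompactSpace M] [ConnectedSpace M] [IsRiemannianManifold 𝓘(ℝ, E) M]

/-- **Block C from the second variation.** -/
theorem push_of (F : Facts e) {D : ℝ} (hD : 0 < D) (hB : InjGE e D)
    (hdiam : ∀ p q : M, dist p q ≤ D) {N : ℕ} (hN : finrank ℝ E = N + 1)
    (hK : ∀ (x : M) (v : TangentSpace 𝓘(ℝ, E) x), ‖v‖ = 1 → finrank ℝ (H703.Ker e D x v) = 1)
    {w : UT E M → UT E M} (h : IsSec e D w)
    (h1 : ∀ v, deriv (fun ε => en F D (Yf F D w) ε v) 0 = 0)
    (h2 : ∀ v, deriv (deriv (fun ε => en F D (Yf F D w) ε v)) 0 < 0) :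
    ∃ ε₀ : ℝ, WD.Push F D w (Yf F D w) ε₀ := by
  obtain ⟨ε₀, hε₀, hlt⟩ := unif_lt F hD (H583.map_Yf F h) (map_vlc F (H583.map_Yf F h)) h1 h2
  refine ⟨ε₀, ⟨H583.map_Yf F h, fun v => ?_, hε₀, fun ε hε v => ?_, fun ε hε v => ?_⟩⟩
  · exact add_pos (H583.Y_pos F hD hB hdiam hN hK h v) (H583.Y_pos F hD hB hdiam hN hK h _)
  · exact hlt ε hε.1.ne' (by rw [abs_of_pos hε.1]; exact hε.2) v
  · have h3 := hlt (-ε) (neg_ne_zero.2 hε.1.ne') (by rw [abs_neg, abs_of_pos hε.1]; exact hε.2) v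
    have h4 : (fun t => po e (fun v => -(Yf F D w v)) (phi F (v, t), ε)) =
        fun t => Cm e (Yf F D w) (-ε) (phi F (v, t)) := by
      funext t
      exact po_neg (Yf F D w) _ ε
    rw [h4]
    exact h3

end

end Vale.Agent.P231.H766
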