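import Vale.Agent.P231.WC.Jac

/-!
# P231, block C: every section of the line bundle is reversed at the far end
-/

set_option maxSynthPendingDepth 3
set_option linter.unusedSectionVars false
set_option linter.unusedVariables false

open Bundle Manifold Set Filter Module
open scoped ContDiff Manifold Topology

namespace Vale.Agent.P231.H766

noncomputable section

open Vale.Agent.P234 Vale.Agent.P231 Vale.Agent.P231.Fm Vale.Agent.P231.W Vale.Agent.P231.WR
open Vale.Agent.P231.WC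

/-- a function with a zero and positive derivative cannot be positive on the left -/
theorem not_pos_left {g : ℝ → ℝ} {a : ℝ} (ha : 0 < a) (hg : HasDerivAt g a 0) (h0 : g 0 = 0)
    (hpos : ∀ᶠ t in 𝓝[<] (0 : ℝ), 0 < g t) : False := by
  have h1 : Tendsto (fun t => t⁻¹ • (g (0 + t) - g 0)) (𝓝[≠] 0) (𝓝 a) :=
    hasDerivAt_iff_tendsto_slope_zero.1 hg
  have h2 : Tendsto (fun t => t⁻¹ • (g (0 + t) - g 0)) (𝓝[<] 0) (𝓝 a) :=
    h1.mono_left (nhdsWithin_mono _ fun t ht => ne_of_lt ht)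
  have h3 : ∀ᶠ t in 𝓝[<] (0 : ℝ), t⁻¹ • (g (0 + t) - g 0) ≤ 0 := by
    filter_upwards [hpos, self_mem_nhdsWithin] with t ht ht'
    rw [zero_add, h0, sub_zero, smul_eq_mul]
    exact mul_nonpos_of_nonpos_of_nonneg (inv_nonpos.2 (le_of_lt ht')) ht.le
  exact absurd (le_of_tendsto h2 h3) (not_le.2 ha)

variable {E : Type*} [NormedAddCommGroup E] [NormedSpace ℝ E]
  {M : Type*} [MetricSpace M] [ChartedSpace E M]
  [RiemannianBundle (fun x : M => TangentSpace 𝓘(ℝ, E) x)]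
  {e : ∀ x : M, TangentSpace 𝓘(ℝ, E) x → M}
  [FiniteDimensional ℝ E] [IsManifold 𝓘(ℝ, E) ∞ M]
  [IsContMDiffRiemannianBundle 𝓘(ℝ, E) ∞ E (fun x : M => TangentSpace 𝓘(ℝ, E) x)]
  [CompactSpace M] [ConnectedSpace M] [IsRiemannianManifold 𝓘(ℝ, E) M]

variable {D : ℝ} {w : UT E M → UT E M}

/-- the section along the flow, in a chart -/
theorem sm_crd_w (F : Facts e) (h : IsSec e D w) (x₀ : M) (v : UT E M)
    (hx : foot v ∈ (extChartAt 𝓘(ℝ, E) x₀).source) :
    Sm (fun t : ℝ => (crd x₀ (gm e (v, t)) (vec' (w (phi F (v, t))) : E) : E)) 0 := by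
  have h0 : (dUT E M).At (fun t : ℝ => w (phi F (v, t))) 0 :=
    h.map (map_phi F (u := fun t : ℝ => (v, t))
      ⟨H583.at_const v _, Sm.of_contDiff contDiff_id _⟩)
  have h1 := at_iff.1 h0
  have hx0 : gm e (v, 0) ∈ (extChartAt 𝓘(ℝ, E) x₀).source := by rw [gm_zero F]; exact hx
  filter_upwards [h1, src_gm F x₀ hx0] with t h2 h3
  have h4 : H775.SmV (fun t : ℝ => gm e (v, t)) (fun t => (vec' (w (phi F (v, t))) : E)) t := by
    refine ContMDiffAt.congr_of_eventuallyEq h2 ?_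
    refine Eventually.of_forall fun s => tb_congr ?_ rfl
    exact ((h.isL (phi F (v, s))).foot_eq.trans (foot_phi F (v, s))).symm
  exact ((H775.smV_iff (f := fun t : ℝ => gm e (v, t)) (s := t) x₀ h3).1 h4).2

/-- **orientation reversal**, for every section -/
theorem w_phi_neg (F : Facts e) (hD : 0 < D) (hB : InjGE e D)
    (hdiam : ∀ p q : M, dist p q ≤ D) {N : ℕ} (hN : finrank ℝ E = N + 1)
    (hK : ∀ (x : M) (v : TangentSpace 𝓘(ℝ, E) x), ‖v‖ = 1 → finrank ℝ (H703.Ker e D x v) = 1)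
    (hP : ∀ x y : M, dist x y = D → finrank ℝ (H775.Pl e D x y) = 2)
    (h : IsSec e D w) (v : UT E M) : w (phi F (v, D)) = ng (phi F (w v, D)) := by
  rcases (isL_Th F hD hB hdiam (h.isL v)).eq_or F hD hB hdiam hP (h.isL (phi F (v, D)))
    with h3 | h3
  swap
  · exact h3
  exfalso
  set v' := phi F (v, D) with hv'
  set x₀ := foot v' with hx₀
  have hx : foot v' ∈ (extChartAt 𝓘(ℝ, E) x₀).source := mem_extChartAt_source _
  have hx0 : gm e (v', 0) ∈ (extChartAt 𝓘(ℝ, E) x₀).source := by rw [gm_zero F]; exact hx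
  have hv : phi F (v', -D) = v := by rw [hv', phi_add, add_neg_cancel, phi_zero]
  -- the three factors
  have hW := (sm_crd_w F h x₀ v' hx).differentiableAt.hasDerivAt
  have hj := hasDerivAt_d2 (sm_jj F h x₀ v' (-D) hx0).differentiableAt
  rw [dt_jj_D F hD hB hdiam h x₀ v' hx, hv, ← h3] at hj
  have hg0 : (dM E M).At (fun t : ℝ => gm e (v', t)) 0 :=
    map_gm F (u := fun t : ℝ => (v', t)) ⟨H583.at_const v' _, Sm.of_contDiff contDiff_id _⟩
  have hk : ContDiffAt ℝ ∞ (fun t : ℝ => extChartAt 𝓘(ℝ, E) x₀ (gm e (v', t))) 0 :=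
    contDiffAt_chart x₀ hx0 hg0.self_of_nhds
  have hk' := (hk.differentiableAt (by simp)).hasDerivAt
  have hL := (sm_cm x₀ ((extChartAt 𝓘(ℝ, E) x₀).map_source hx0)).differentiableAt.hasFDerivAt
  have hLk := hL.comp_hasDerivAt (0 : ℝ) hk'
  have hA := (hLk.clm_apply hj).clm_apply hW
  have hj0 : jj F w x₀ v' (-D, 0) = 0 := by
    unfold jj
    have k1 : Jw e w (phi F (v', (-D, (0 : ℝ)).1)) ((-D, (0 : ℝ)).2 - (-D, (0 : ℝ)).1) = 0 := by
      change Jw e w (phi F (v', -D)) (0 - -D) = 0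
      rw [hv, zero_sub, neg_neg]
      exact Jw_D F hD hB hdiam h v
    rw [k1]
    exact map_zero (crd x₀ (gm e (v', (-D, (0 : ℝ)).2)))
  rw [hj0] at hA
  simp only [Function.comp_apply, map_zero, zero_apply, zero_add, add_zero] at hA
  have e1 : (cm x₀ (extChartAt 𝓘(ℝ, E) x₀ (gm e (v', 0))))
      (crd x₀ (foot v') (vec' (w v') : E) : E)
      (crd x₀ (gm e (v', 0)) (vec' (w (phi F (v', 0))) : E) : E) = 1 := by
    have k1 : (crd x₀ (foot v') (vec' (w v') : E) : E) =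
        crd x₀ (gm e (v', 0)) (vec' (w (phi F (v', 0))) : E) :=
      crd_congr x₀ (gm_zero F v').symm (by rw [phi_zero])
    rw [k1, cm_ip x₀ hx0, phi_zero, gm_zero F]
    exact (h.isL v').ip_self
  rw [e1] at hA
  refine not_pos_left one_pos hA ?_ ?_
  · change (cm x₀ (extChartAt 𝓘(ℝ, E) x₀ (gm e (v', 0)))) (jj F w x₀ v' (-D, 0))
      (crd x₀ (gm e (v', 0)) (vec' (w (phi F (v', 0))) : E) : E) = 0
    rw [hj0, map_zero, zero_apply]
  · have h5 : Ioo (-D) 0 ∈ 𝓝[<] (0 : ℝ) := Ioo_mem_nhdsLT (by linarith)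
    filter_upwards [h5, nhdsWithin_le_nhds (src_gm F x₀ hx0)] with t ht ht'
    have h6 := H583.pairing_pos F hD hB hdiam hN hK h v (r := D + t) (by linarith [ht.1])
      (by linarith [ht.2])
    have h7 : phi F (v, D + t) = phi F (v', t) := by rw [hv', phi_add]
    have h8 : gm e (v, D + t) = gm e (v', t) := by rw [hv', gm_phi F]
    rw [h7, h8] at h6
    change 0 < (cm x₀ (extChartAt 𝓘(ℝ, E) x₀ (gm e (v', t)))) (jj F w x₀ v' (-D, t))
      (crd x₀ (gm e (v', t)) (vec' (w (phi F (v', t))) : E) : E)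
    have h9 : jj F w x₀ v' (-D, t) = (crd x₀ (gm e (v', t)) (Jw e w v (D + t) : E) : E) := by
      unfold jj
      change (crd x₀ (gm e (v', t)) (Jw e w (phi F (v', -D)) (t - -D) : E) : E) = _
      rw [hv, sub_neg_eq_add, add_comm]
    rw [h9, cm_ip x₀ ht']
    exact h6

end

end Vale.Agent.P231.H766
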