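import Vale.Agent.P231.H584.Flow
import Vale.Agent.P231.H766.Uec2

/-!
# P231, stages 2 and 3: transgression over a contraction of loops (abstract part)
-/

set_option linter.unusedSectionVars false
set_option linter.unusedVariables false

open MeasureTheory Set Module Filter Topology
open scoped ContDiff

namespace Vale.Agent.P231.H766

open Fm W H584

variable {X Y Z : Type*} {D : Dif X} {D' : Dif Y} {D'' : Dif Z}

/-! ### reparametrisation -/

theorem map_rep {β : ℝ → ℝ} (hβ : ContDiff ℝ ∞ β) : (D.prod (Dif.lin ℝ)).Map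
    (D.prod (Dif.lin ℝ)) (fun p : X × ℝ => (p.1, β p.2)) := fun {E} _ _ _ {u x} h =>
  ⟨h.1, Sm.comp (f := β) (g := fun y => (u y).2) (Sm.of_contDiff hβ _) h.2⟩

theorem co_rep {E : Type} [NormedAddCommGroup E] [NormedSpace ℝ E] [FiniteDimensional ℝ E]
    {β : ℝ → ℝ} (hβ : ContDiff ℝ ∞ β) (w : Form (D.prod (Dif.lin ℝ))) {u : E → X} {x : E}
    (h : D.At u x) (t : ℝ) :
    co (Form.pull (fun p : X × ℝ => (p.1, β p.2)) (map_rep hβ) w) u x t =
      deriv β t • co w u x (β t) := by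
  rw [co, co, Form.pull_val _ _ (Form.cyl_at h t)]
  let G : E × ℝ → E × ℝ := fun p => (p.1, β p.2)
  have h1 : (fun p : X × ℝ => (p.1, β p.2)) ∘ Form.cyl u = Form.cyl u ∘ G := rfl
  have hG : Sm G (x, t) := Sm.of_contDiff (contDiff_fst.prodMk (hβ.comp contDiff_snd)) _
  have h3 : HasFDerivAt G ((ContinuousLinearMap.fst ℝ E ℝ).prod
      (deriv β t • ContinuousLinearMap.snd ℝ E ℝ)) (x, t) := by
    have h4 : HasDerivAt β (deriv β t) t :=
      (hβ.differentiable (by simp) t).hasDerivAt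
    have h5 : HasFDerivAt (fun p : E × ℝ => β p.2)
        (deriv β t • ContinuousLinearMap.snd ℝ E ℝ) (x, t) := by
      have h6 : HasFDerivAt (Prod.snd : E × ℝ → ℝ) (ContinuousLinearMap.snd ℝ E ℝ) (x, t) :=
        hasFDerivAt_snd
      exact HasDerivAt.comp_hasFDerivAt (f := (Prod.snd : E × ℝ → ℝ)) (x, t) h4 h6
    exact hasFDerivAt_fst.prodMk h5
  rw [h1, w.nat (u := Form.cyl u) (g := G) (x := (x, t)) (Form.cyl_at h _) hG, h3.fderiv]
  have h6 := at1_pull_shear (E := E) (F := E) (ContinuousLinearMap.id ℝ E) 0 (deriv β t)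
    ((ContinuousLinearMap.fst ℝ E ℝ).prod (deriv β t • ContinuousLinearMap.snd ℝ E ℝ))
    (fun p => by simp) (w.val (Form.cyl u) (G (x, t)))
  rw [Fm.pull_id] at h6
  exact h6

theorem K_rep_val {E : Type} [NormedAddCommGroup E] [NormedSpace ℝ E] [FiniteDimensional ℝ E]
    {β : ℝ → ℝ} (hβ : ContDiff ℝ ∞ β) (w : Form (D.prod (Dif.lin ℝ))) {u : E → X} {x : E}
    (h : D.At u x) :
    (Form.K (Form.pull (fun p : X × ℝ => (p.1, β p.2)) (map_rep hβ) w)).val u x =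
      ∫ t in β 0..β 1, co w u x t := by
  rw [K_val' _ h]
  simp only [co_rep hβ w h]
  exact intervalIntegral.integral_deriv_smul_comp (f := β) (f' := deriv β) (g := co w u x)
    (fun t _ => (hβ.differentiable (by simp) t).hasDerivAt)
    (hβ.continuous_deriv (by simp)).continuousOn (continuous_co w h)

theorem K_rep_eq {β β' : ℝ → ℝ} (hβ : ContDiff ℝ ∞ β) (hβ' : ContDiff ℝ ∞ β')
    (h0 : β 0 = β' 0) (h1 : β 1 = β' 1) (w : Form (D.prod (Dif.lin ℝ))) :
    Form.K (Form.pull (fun p : X × ℝ => (p.1, β p.2)) (map_rep hβ) w) =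
      Form.K (Form.pull (fun p : X × ℝ => (p.1, β' p.2)) (map_rep hβ') w) :=
  Form.ext_val fun E _ _ _ u x h => by
    rw [K_rep_val hβ w h, K_rep_val hβ' w h, h0, h1]

theorem K_rep_KT {β : ℝ → ℝ} (hβ : ContDiff ℝ ∞ β) (h0 : β 0 = 0) {c : ℝ} (h1 : β 1 = c)
    (w : Form (D.prod (Dif.lin ℝ))) :
    Form.K (Form.pull (fun p : X × ℝ => (p.1, β p.2)) (map_rep hβ) w) = KT c w :=
  Form.ext_val fun E _ _ _ u x h => by
    rw [K_rep_val hβ w h, KT_val c w h, h0, h1]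

/-- two pieces -/
theorem KT_split {β β' : ℝ → ℝ} (hβ : ContDiff ℝ ∞ β) (hβ' : ContDiff ℝ ∞ β') {c : ℝ}
    (h0 : β 0 = 0) (h1 : β' 0 = c) (h2 : β 1 = β' 1) (w : Form (D.prod (Dif.lin ℝ))) :
    KT c w = Form.K (Form.pull (fun p : X × ℝ => (p.1, β p.2)) (map_rep hβ) w) -
      Form.K (Form.pull (fun p : X × ℝ => (p.1, β' p.2)) (map_rep hβ') w) :=
  Form.ext_val fun E _ _ _ u x h => by
    rw [Form.sub_val, K_rep_val hβ w h, K_rep_val hβ' w h, KT_val c w h, h0, h1, h2]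
    have hi : ∀ a b : ℝ, IntervalIntegrable (co w u x) volume a b := fun a b =>
      (continuous_co w h).intervalIntegrable a b
    rw [← intervalIntegral.integral_add_adjacent_intervals (hi 0 (β' 1)) (hi (β' 1) c),
      intervalIntegral.integral_symm c (β' 1)]
    abel

/-- two halves of a period -/
theorem KT_halves {c : ℝ} {w : Form (D.prod (Dif.lin ℝ))}
    (hw : Form.pull (fun p : X × ℝ => (p.1, p.2 + 2 * c)) (map_trans (2 * c)) w = w) :
    KT (2 * c) w = KT c w - KT (-c) w :=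
  Form.ext_val fun E _ _ _ u x h => by
    rw [Form.sub_val, KT_val _ w h, KT_val _ w h, KT_val _ w h]
    have hi : ∀ a b : ℝ, IntervalIntegrable (co w u x) volume a b := fun a b =>
      (continuous_co w h).intervalIntegrable a b
    have h1 := (co_periodic hw h).intervalIntegral_add_eq 0 (-c)
    have h2 : -c + 2 * c = c := by ring
    rw [h2, zero_add] at h1
    rw [h1, ← intervalIntegral.integral_add_adjacent_intervals (hi (-c) 0) (hi 0 c),
      intervalIntegral.integral_symm 0 (-c)]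
    abel

/-! ### the cube -/

theorem K_d {w : Form (D.prod (Dif.lin ℝ))} (hw : w.d = 0) :
    (Form.K w).d = at_ 1 w - at_ 0 w := by
  have h := homotopy' w
  rw [hw, K_zero, zero_add] at h
  exact h.symm

theorem K_d' (w : Form (D.prod (Dif.lin ℝ))) :
    (Form.K w).d = at_ 1 w - at_ 0 w - Form.K w.d := by
  rw [homotopy' w]
  abel

theorem KK_d {w : Form ((D.prod (Dif.lin ℝ)).prod (Dif.lin ℝ))} (hw : w.d = 0) :
    (Form.K (Form.K w)).d = at_ 1 (Form.K w) - at_ 0 (Form.K w) - Form.K (at_ 1 w) +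
      Form.K (at_ 0 w) := by
  rw [K_d' (Form.K w), K_d hw, K_sub]
  abel

theorem KTKK_d {w : Form (((D.prod (Dif.lin ℝ)).prod (Dif.lin ℝ)).prod (Dif.lin ℝ))}
    (hw : w.d = 0) (c : ℝ) :
    (KT c (Form.K (Form.K w))).d = at_ c (Form.K (Form.K w)) - at_ 0 (Form.K (Form.K w)) -
      KT c (at_ 1 (Form.K w)) + KT c (at_ 0 (Form.K w)) + KT c (Form.K (at_ 1 w)) -
      KT c (Form.K (at_ 0 w)) := by
  have h := KT_homotopy c (Form.K (Form.K w))
  rw [KK_d hw, KT_add, KT_sub, KT_sub] at h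
  rw [← sub_eq_iff_eq_add'.2 h]
  abel

/-- a family that does not depend on the parameter -/
theorem K_const {f : X × ℝ → Y} (hf : (D.prod (Dif.lin ℝ)).Map D' f) {g : X → Y}
    (hg : D.Map D' g) (h : ∀ x t, f (x, t) = g x) (F : Form D') :
    Form.K (Form.pull f hf F) = 0 := by
  have h1 : Form.pull f hf F = pr (Form.pull g hg F) :=
    (pull_pull Dif.map_fst hg hf (fun p => (h p.1 p.2).symm) F).symm
  rw [h1, K_pr]

theorem at_K {f : (X × ℝ) × ℝ → Y} (hf : ((D.prod (Dif.lin ℝ)).prod (Dif.lin ℝ)).Map D' f)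
    (c : ℝ) (F : Form D') (hf' : (D.prod (Dif.lin ℝ)).Map D' (fun p => f ((p.1, c), p.2))) :
    at_ c (Form.K (Form.pull f hf F)) =
      Form.K (Form.pull (fun p : X × ℝ => f ((p.1, c), p.2)) hf' F) := by
  rw [at_, ← K_nat (Form.map_slice c)]
  congr 1
  exact pull_pull (map_cyl (Form.map_slice c)) hf hf' (fun p => rfl) F

theorem map_atf {f : (X × ℝ) × ℝ → Y} (hf : ((D.prod (Dif.lin ℝ)).prod (Dif.lin ℝ)).Map D' f)
    (c : ℝ) : (D.prod (Dif.lin ℝ)).Map D' (fun p => f ((p.1, c), p.2)) := fun h =>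
  hf ⟨Form.map_slice c h.1, h.2⟩

/-- if the family does not depend on the middle parameter, the integral over it vanishes -/
theorem KTK_const {f : (X × ℝ) × ℝ → Y}
    (hf : ((D.prod (Dif.lin ℝ)).prod (Dif.lin ℝ)).Map D' f) {g : X × ℝ → Y}
    (hg : (D.prod (Dif.lin ℝ)).Map D' g) (h : ∀ x t r, f ((x, t), r) = g (x, r)) (c : ℝ)
    (F : Form D') : KT c (Form.K (Form.pull f hf F)) = 0 := by
  have h1 : Form.K (Form.pull f hf F) = pr (Form.K (Form.pull g hg F)) := by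
    rw [pr, ← K_nat Dif.map_fst]
    congr 1
    exact (pull_pull (map_cyl Dif.map_fst) hg hf (fun p => (h p.1.1 p.1.2 p.2).symm) F).symm
  rw [h1, KT_pr]

theorem KK_const {f : (X × ℝ) × ℝ → Y}
    (hf : ((D.prod (Dif.lin ℝ)).prod (Dif.lin ℝ)).Map D' f) {g : X × ℝ → Y}
    (hg : (D.prod (Dif.lin ℝ)).Map D' g) (h : ∀ x t r, f ((x, t), r) = g (x, r))
    (F : Form D') : Form.K (Form.K (Form.pull f hf F)) = 0 := by
  rw [← KT_one]
  exact KTK_const hf hg h 1 F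

theorem at_KK {f : ((X × ℝ) × ℝ) × ℝ → Y}
    (hf : (((D.prod (Dif.lin ℝ)).prod (Dif.lin ℝ)).prod (Dif.lin ℝ)).Map D' f) (c : ℝ)
    (F : Form D') (hf' : ((D.prod (Dif.lin ℝ)).prod (Dif.lin ℝ)).Map D'
      (fun q => f (((q.1.1, c), q.1.2), q.2))) :
    at_ c (Form.K (Form.K (Form.pull f hf F))) =
      Form.K (Form.K (Form.pull (fun q : (X × ℝ) × ℝ => f (((q.1.1, c), q.1.2), q.2)) hf' F)) := by
  rw [at_, ← K_nat (Form.map_slice c), ← K_nat (map_cyl (Form.map_slice c))]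
  congr 2
  exact pull_pull (map_cyl (map_cyl (Form.map_slice c))) hf hf' (fun p => rfl) F

theorem map_atf2 {f : ((X × ℝ) × ℝ) × ℝ → Y}
    (hf : (((D.prod (Dif.lin ℝ)).prod (Dif.lin ℝ)).prod (Dif.lin ℝ)).Map D' f) (c : ℝ) :
    ((D.prod (Dif.lin ℝ)).prod (Dif.lin ℝ)).Map D' (fun q => f (((q.1.1, c), q.1.2), q.2)) :=
  fun h => hf ⟨⟨Form.map_slice c h.1.1, h.1.2⟩, h.2⟩

section Geom

variable {B M : Type*} {DB : Dif B} [MetricSpace M] {DM : Dif M} {δ T : ℝ}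

/-- **the transgression over a contraction of loops is a cone over the loop** -/
theorem transg_cone (g : Geo DM δ) {F : Form DM} (hF : F.d = 0) {Λ : B × ℝ → B}
    (hΛ : IsFlow DB T Λ) {γ : B × ℝ → M} (hγ : (DB.prod (Dif.lin ℝ)).Map DM γ)
    {ap : B × ℝ → M} (hap : (DB.prod (Dif.lin ℝ)).Map DM ap)
    (hd : ∀ b t r, dist (ap (b, r)) (γ (Λ (b, t), r)) < δ)
    (h1 : ∀ b t, γ (Λ (b, t), 1) = γ (b, 1))
    (hc : ((DB.prod (Dif.lin ℝ)).prod (Dif.lin ℝ)).Map DM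
      (fun p => g.G (ap (p.1.1, 0)) (γ (Λ p.1, 0)) p.2)) :
    ∃ l : Form DB, J Λ hΛ.map T (Form.K (Form.pull γ hγ F)) =
      -KT T (Form.K (Form.pull (fun p => g.G (ap (p.1.1, 0)) (γ (Λ p.1, 0)) p.2) hc F)) + l.d := by
  have hR : (((DB.prod (Dif.lin ℝ)).prod (Dif.lin ℝ)).prod (Dif.lin ℝ)).Map DM
      (fun q : ((B × ℝ) × ℝ) × ℝ => g.G (ap (q.1.1.1, q.2)) (γ (Λ q.1.1, q.2)) q.1.2) :=
    fun {E'} _ _ _ {u x} h => g.smooth
      (hap (u := fun y => ((u y).1.1.1, (u y).2)) ⟨h.1.1.1, h.2⟩)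
      (hγ (u := fun y => (Λ (u y).1.1, (u y).2)) ⟨hΛ.map h.1.1, h.2⟩) h.1.2
      (hd (u x).1.1.1 (u x).1.1.2 (u x).2)
  have hw : (Form.pull _ hR F).d = 0 := by
    rw [← Form.pull_d, hF]
    exact map_zero (Form.pullA _ hR)
  have key := KTKK_d hw T
  -- the period
  have eper : at_ T (Form.K (Form.K (Form.pull _ hR F))) =
      at_ 0 (Form.K (Form.K (Form.pull _ hR F))) := by
    rw [at_KK hR T F (map_atf2 hR T), at_KK hR 0 F (map_atf2 hR 0)]
    congr 2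
    refine Form.pull_congr _ _ ?_ F
    funext q
    rw [hΛ.per, hΛ.zero]
  -- the faces
  have hγΛ : ((DB.prod (Dif.lin ℝ)).prod (Dif.lin ℝ)).Map DM (fun p => γ (Λ p.1, p.2)) :=
    fun h => hγ ⟨hΛ.map h.1, h.2⟩
  have f1 : KT T (at_ 1 (Form.K (Form.pull _ hR F))) =
      J Λ hΛ.map T (Form.K (Form.pull γ hγ F)) := by
    rw [at_K hR 1 F (map_atf hR 1), J_def, ← K_nat hΛ.map]
    congr 2
    refine Eq.trans ?_ (pull_pull (map_cyl hΛ.map) hγ hγΛ (fun p => rfl) F).symm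
    refine Form.pull_congr _ _ ?_ F
    funext q
    exact g.one _ _ (hd q.1.1 q.1.2 q.2)
  have f0 : KT T (at_ 0 (Form.K (Form.pull _ hR F))) = 0 := by
    rw [at_K hR 0 F (map_atf hR 0)]
    exact KTK_const (map_atf hR 0) hap (fun x t r => g.zero _ _ (hd x t r)) T F
  have r1 : KT T (Form.K (at_ 1 (Form.pull _ hR F))) = 0 := by
    rw [at_pull_of hR 1 F]
    have hg : (DB.prod (Dif.lin ℝ)).Map DM (fun p => g.G (ap (p.1, 1)) (γ (p.1, 1)) p.2) :=
      fun {E'} _ _ _ {u x} h => g.smooth (map_at hap 1 h.1) (map_at hγ 1 h.1) h.2 (by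
        have := hd (u x).1 0 1
        rwa [hΛ.zero] at this)
    exact KTK_const (map_at hR 1) hg (fun x t r => by simp only; rw [h1]) T F
  have r0 : KT T (Form.K (at_ 0 (Form.pull _ hR F))) =
      KT T (Form.K (Form.pull (fun p => g.G (ap (p.1.1, 0)) (γ (Λ p.1, 0)) p.2) hc F)) := by
    rw [at_pull_of hR 0 F]
  rw [eper, f1, f0, r1, r0, sub_self, add_zero, add_zero, zero_sub] at key
  refine ⟨-(KT T (Form.K (Form.K (Form.pull _ hR F)))), ?_⟩
  rw [Form.d_neg, key]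
  abel

/-- **the cone over a loop which bounds a disc** -/
theorem cone_disc_form (g : Geo DM δ) {F : Form DM} (hF : F.d = 0) {γ : B × ℝ → M}
    (hγ : (DB.prod (Dif.lin ℝ)).Map DM γ) {z : B → M} (hz : DB.Map DM z)
    (hd0 : ∀ b t, dist (z b) (γ (b, t)) < δ) {disc : (B × ℝ) × ℝ → M}
    (hdisc : ((DB.prod (Dif.lin ℝ)).prod (Dif.lin ℝ)).Map DM disc)
    (hd : ∀ b θ τ, dist (z b) (disc ((b, θ), τ)) < δ) {β β' : ℝ → ℝ} (hβ : ContDiff ℝ ∞ β)
    (hβ' : ContDiff ℝ ∞ β') (h0 : β 0 = 0) (h0' : β' 0 = T) (h1 : β 1 = β' 1)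
    (e0 : ∀ b τ, disc ((b, 0), τ) = γ (b, β τ)) (e1 : ∀ b τ, disc ((b, 1), τ) = γ (b, β' τ))
    {x y : B → M} (hx : DB.Map DM x) (hy : DB.Map DM y) (ex : ∀ b θ, disc ((b, θ), 0) = x b)
    (ey : ∀ b θ, disc ((b, θ), 1) = y b)
    (hc : ((DB.prod (Dif.lin ℝ)).prod (Dif.lin ℝ)).Map DM
      (fun p => g.G (z p.1.1) (γ p.1) p.2)) :
    ∃ l : Form DB, KT T (Form.K (Form.pull (fun p => g.G (z p.1.1) (γ p.1) p.2) hc F)) =
      Form.K (Form.K (Form.pull disc hdisc F)) + l.d := by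
  have hR : (((DB.prod (Dif.lin ℝ)).prod (Dif.lin ℝ)).prod (Dif.lin ℝ)).Map DM
      (fun q : ((B × ℝ) × ℝ) × ℝ => g.G (z q.1.1.1) (disc q.1) q.2) :=
    fun {E'} _ _ _ {u x} h => g.smooth (hz h.1.1.1) (hdisc h.1) h.2
      (hd (u x).1.1.1 (u x).1.1.2 (u x).1.2)
  have hw : (Form.pull _ hR F).d = 0 := by
    rw [← Form.pull_d, hF]
    exact map_zero (Form.pullA _ hR)
  have key := KTKK_d hw 1
  have hzx : ∀ {y : B → M} (hy : DB.Map DM y) (hdy : ∀ b, dist (z b) (y b) < δ),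
      (DB.prod (Dif.lin ℝ)).Map DM (fun p => g.G (z p.1) (y p.1) p.2) :=
    fun {y} hy hdy {E'} _ _ _ {u x} h => g.smooth (hz h.1) (hy h.1) h.2 (hdy _)
  have t1 : KT 1 (at_ 1 (Form.K (Form.pull _ hR F))) = 0 := by
    rw [at_K hR 1 F (map_atf hR 1)]
    exact KTK_const (map_atf hR 1) (hzx hy fun b => by
      have := hd b 0 1
      rwa [ey] at this) (fun b θ r => by simp only; rw [ey]) 1 F
  have t0 : KT 1 (at_ 0 (Form.K (Form.pull _ hR F))) = 0 := by
    rw [at_K hR 0 F (map_atf hR 0)]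
    exact KTK_const (map_atf hR 0) (hzx hx fun b => by
      have := hd b 0 0
      rwa [ex] at this) (fun b θ r => by simp only; rw [ex]) 1 F
  have r1 : KT 1 (Form.K (at_ 1 (Form.pull _ hR F))) =
      Form.K (Form.K (Form.pull disc hdisc F)) := by
    rw [at_pull_of hR 1 F, KT_one]
    congr 2
    refine Form.pull_congr _ _ ?_ F
    funext q
    exact g.one _ _ (hd q.1.1 q.1.2 q.2)
  have r0 : KT 1 (Form.K (at_ 0 (Form.pull _ hR F))) = 0 := by
    rw [at_pull_of hR 0 F]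
    have hz1 : (DB.prod (Dif.lin ℝ)).Map DM (fun p => z p.1) := fun h => hz h.1
    have h2 : Form.K (Form.pull (fun q : (B × ℝ) × ℝ => g.G (z q.1.1) (disc q) 0)
        (map_at hR 0) F) = 0 :=
      K_const (map_at hR 0) (g := fun p : B × ℝ => z p.1) hz1
        (fun x t => g.zero _ _ (hd x.1 x.2 t)) F
    rw [h2, KT_zero]
  -- the cones over the two halves
  have half : ∀ {β : ℝ → ℝ} (hβ : ContDiff ℝ ∞ β) (c : ℝ)
      (he : ∀ b τ, disc ((b, c), τ) = γ (b, β τ)),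
      at_ c (Form.K (Form.K (Form.pull _ hR F))) =
        Form.K (Form.pull (fun p : B × ℝ => (p.1, β p.2)) (map_rep hβ)
          (Form.K (Form.pull (fun p => g.G (z p.1.1) (γ p.1) p.2) hc F))) := by
    intro β hβ c he
    rw [at_KK hR c F (map_atf2 hR c), ← K_nat (map_rep hβ)]
    congr 2
    have hk : ((DB.prod (Dif.lin ℝ)).prod (Dif.lin ℝ)).Map DM
        (fun q : (B × ℝ) × ℝ => g.G (z q.1.1) (γ (q.1.1, β q.1.2)) q.2) :=
      fun h => hc (map_cyl (map_rep hβ) h)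
    refine Eq.trans ?_ (pull_pull (map_cyl (map_rep hβ)) hc hk (fun p => rfl) F).symm
    refine Form.pull_congr _ _ ?_ F
    funext q
    simp only
    rw [he]
  rw [half hβ' 1 e1, half hβ 0 e0, t1, t0, r1, r0, sub_zero, add_zero, sub_zero] at key
  refine ⟨-(KT 1 (Form.K (Form.K (Form.pull _ hR F)))), ?_⟩
  rw [KT_split hβ hβ' h0 h0' h1, Form.d_neg, key]
  abel

end Geom

end Vale.Agent.P231.H766
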