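import Vale.Agent.P231.H766.SL3
import Vale.Agent.P231.H997.SV3

/-!
# P231, stages 2 and 3: the apex of the cones, uniformly over the space of pairs (1)
-/

set_option maxSynthPendingDepth 3
set_option linter.unusedSectionVars false
set_option linter.unusedVariables false

open Bundle Manifold Set Filter Module MeasureTheory
open scoped ContDiff Manifold Topology ENNReal

namespace Vale.Agent.P231.H766

noncomputable section

open Vale.Agent.P234 Vale.Agent.P231 Vale.Agent.P231.Fm Vale.Agent.P231.W Vale.Agent.P231.WR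
  Vale.Agent.P231.WF

/-! ### abstract part -/

/-- first order expansion along a slice on which the function is constant, uniformly in the
parameter -/
theorem strict_slice {E' V : Type*} [NormedAddCommGroup E'] [NormedSpace ℝ E']
    [NormedAddCommGroup V] [NormedSpace ℝ V] {A : E' × V → ℝ} {A' : E' × V →L[ℝ] ℝ} {z₀ : E'}
    (hA : HasStrictFDerivAt A A' (z₀, 0)) {d : ℝ} (h0 : ∀ᶠ z in 𝓝 z₀, A (z, 0) = d) {η : ℝ}
    (hη : 0 < η) : ∀ᶠ q : E' × V in 𝓝 (z₀, 0), |A q - d - A' (0, q.2)| ≤ η * ‖q.2‖ := by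
  have h1 := hA.isLittleO.def hη
  have h2 : Tendsto (fun q : E' × V => ((q, (q.1, 0)) : (E' × V) × (E' × V))) (𝓝 (z₀, 0))
      (𝓝 ((z₀, 0), (z₀, 0))) := by
    have hc : Continuous fun q : E' × V => ((q, (q.1, 0)) : (E' × V) × (E' × V)) := by fun_prop
    exact hc.tendsto _
  have h3 : Tendsto (Prod.fst : E' × V → E') (𝓝 (z₀, 0)) (𝓝 z₀) := continuousAt_fst
  filter_upwards [h2.eventually h1, h3.eventually h0] with q hq1 hq2
  have h4 : q - (q.1, (0 : V)) = (0, q.2) := by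
    refine Prod.ext ?_ ?_ <;> simp
  have hq3 : ‖A q - A (q.1, 0) - A' (q - (q.1, 0))‖ ≤ η * ‖q - (q.1, 0)‖ := hq1
  rw [h4, hq2, Real.norm_eq_abs, Prod.norm_mk, norm_zero, max_eq_right (norm_nonneg _)] at hq3
  exact hq3

/-- the three first order inequalities exclude `D ≤ dist` -/
theorem three_excl {a c η s ε τ N : ℝ} (ha : 0 < a) (hη : 0 < η) (h1 : η < 1) (h2 : η < a)
    (h3 : η * (|c| / a + 1) < 1) (hs : 0 ≤ s) (hε : 0 < ε) (hN : max |s| (max |ε| |τ|) = N)
    (e1 : s + ε * a ≤ η * N) (e2 : |τ - ε * c| ≤ η * N) : False := by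
  have hN0 : 0 < N := by
    rw [← hN]
    exact lt_max_of_lt_right (lt_max_of_lt_left (abs_pos.2 hε.ne'))
  have k1 : |s| < N := by
    rw [abs_of_nonneg hs]
    nlinarith [mul_pos hε ha]
  have k2 : |ε| < N := by
    rw [abs_of_pos hε]
    have : ε * a < N * a := by nlinarith
    exact lt_of_mul_lt_mul_right this ha.le
  have k3 : |τ| < N := by
    have h4 : |τ| ≤ |τ - ε * c| + ε * |c| := by
      have := abs_add_le (τ - ε * c) (ε * c)
      rw [sub_add_cancel, abs_mul, abs_of_pos hε] at this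
      exact this
    have h5 : ε ≤ η * N / a := by
      rw [le_div_iff₀ ha]
      linarith
    have h6 : ε * |c| ≤ η * N / a * |c| := mul_le_mul_of_nonneg_right h5 (abs_nonneg c)
    have h7 : η * N / a * |c| = η * (|c| / a) * N := by
      field_simp
    nlinarith
  have := max_lt k1 (max_lt k2 k3)
  rw [hN] at this
  exact lt_irrefl _ this

/-! ### distances -/

variable {E : Type*} [NormedAddCommGroup E] [NormedSpace ℝ E]
  {M : Type*} [MetricSpace M] [ChartedSpace E M]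
  [RiemannianBundle (fun x : M => TangentSpace 𝓘(ℝ, E) x)]
  {e : ∀ x : M, TangentSpace 𝓘(ℝ, E) x → M}
  [FiniteDimensional ℝ E] [IsManifold 𝓘(ℝ, E) ∞ M]
  [IsContMDiffRiemannianBundle 𝓘(ℝ, E) ∞ E (fun x : M => TangentSpace 𝓘(ℝ, E) x)]

theorem dist_eq_sqrt (x y : M) : dist x y = Real.sqrt (2 * cost x y) := by
  unfold cost
  rw [mul_div_cancel₀ _ two_ne_zero, Real.sqrt_sq dist_nonneg]

/-- the distance is smooth away from the diagonal and the cut locus -/
theorem contDiffAt_dist (F : Facts e) {D : ℝ} (hB : InjGE e D) {V : Type*}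
    [NormedAddCommGroup V] [NormedSpace ℝ V] {a b : V → M} {s : V}
    (ha : ContMDiffAt 𝓘(ℝ, V) 𝓘(ℝ, E) ∞ a s) (hb : ContMDiffAt 𝓘(ℝ, V) 𝓘(ℝ, E) ∞ b s)
    (h : dist (a s) (b s) < D) (h0 : 0 < dist (a s) (b s)) :
    ContDiffAt ℝ ∞ (fun t => dist (a t) (b t)) s := by
  have h1 : ContMDiffAt (𝓘(ℝ, E).prod 𝓘(ℝ, E)) 𝓘(ℝ, ℝ) ∞ (fun p : M × M => cost p.1 p.2)
      (a s, b s) := (WD3.smoothAt_of_dist_lt F hB h).contMDiffAt
  have h2 : ContDiffAt ℝ ∞ (fun t => cost (a t) (b t)) s :=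
    (ContMDiffAt.comp s (f := fun t => (a t, b t)) h1 (ha.prodMk hb)).contDiffAt
  have h3 : 2 * cost (a s) (b s) ≠ 0 := by
    unfold cost
    positivity
  have h4 := (contDiffAt_const (c := (2 : ℝ))).mul h2 |>.sqrt h3
  refine h4.congr_of_eventuallyEq (Eventually.of_forall fun t => dist_eq_sqrt _ _)

/-- first variation of the distance to a fixed point -/
theorem hasDerivAt_dist (F : Facts e) {D : ℝ} (hB : InjGE e D) {p : ℝ → M} {y : M}
    (hp : ContMDiffAt 𝓘(ℝ, ℝ) 𝓘(ℝ, E) ∞ p 0) (hy : p 0 = y) {m : M} {u ξ : E} {r : ℝ}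
    (hr : 0 < r) (hrD : r < D) (hu : nm y u = 1) (hm : e y (r • u : E) = m)
    (hξ : (WC.vl p 0 : E) = ξ) : HasDerivAt (fun θ => dist (p θ) m) (-ip y u ξ) 0 := by
  subst hy
  subst hξ
  have hn : nm (p 0) (r • u) = r := by rw [nm_smul, hu, mul_one, abs_of_pos hr]
  have hd : dist (p 0) m = r := by
    rw [← hm]
    exact (hB (p 0) _ (hn.le.trans hrD.le)).trans hn
  have hs : SmoothAt E (p 0) ((fun _ : ℝ => m) 0) :=
    WD3.smoothAt_of_dist_lt F hB (by rw [hd]; exact hrD)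
  have h1 := H997.hasDerivAt_cost_curves (E := E) (p := p) (q := fun _ : ℝ => m) hs
    (hp.mdifferentiableAt (by simp)) mdifferentiableAt_const
  have h2 : H997.dcost (E := E) (p 0) m (H997.dv p 0) = -ip (p 0) (r • u) (H997.dv p 0) :=
    H997.dcost_eq F hB (by rw [hn]; exact hrD) hm.symm _
  have h3 : (H997.dv (E := E) (fun _ : ℝ => m) 0 : E) = 0 := by
    unfold H997.dv
    have h3 : mfderiv 𝓘(ℝ, ℝ) 𝓘(ℝ, E) (fun _ : ℝ => m) 0 = 0 := mfderiv_const
    exact congrArg (fun L : ℝ →L[ℝ] E => L 1) h3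
  have h4 : H997.dcost (E := E) m (p 0) (0 : E) = 0 := by
    unfold H997.dcost
    exact map_zero _
  have h5 : HasDerivAt (fun θ => cost (p θ) m) (-(r * ip (p 0) u (WC.vl p 0))) 0 := by
    refine h1.congr_deriv ?_
    have h6 : (H997.dcost (E := E) m (p 0) (H997.dv (fun _ : ℝ => m) 0) : ℝ) = 0 := by
      rw [h3]
      exact h4
    refine (congrArg₂ (· + ·) h2 h6).trans ?_
    rw [add_zero, H997.ip_smul_left']
    rfl
  have h7 : (2 : ℝ) * cost (p 0) m ≠ 0 := by
    unfold cost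
    rw [hd]
    positivity
  have h8 := (h5.const_mul 2).sqrt h7
  have h9 : (fun θ => dist (p θ) m) = fun θ => Real.sqrt (2 * cost (p θ) m) :=
    funext fun θ => dist_eq_sqrt _ _
  rw [h9]
  refine h8.congr_deriv ?_
  rw [← dist_eq_sqrt, hd]
  field_simp

end

end Vale.Agent.P231.H766
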