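import Vale.Agent.P231.H766.Apx1

/-!
# P231, stages 2 and 3: the apex of the cones, uniformly over the space of pairs (2)
-/

set_option maxSynthPendingDepth 3
set_option linter.unusedSectionVars false
set_option linter.unusedVariables false

open Bundle Manifold Set Filter Module MeasureTheory
open scoped ContDiff Manifold Topology ENNReal

namespace Vale.Agent.P231.H766

noncomputable section

open Vale.Agent.P234 Vale.Agent.P231 Vale.Agent.P231.Fm Vale.Agent.P231.W Vale.Agent.P231.WR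
  Vale.Agent.P231.WF

/-- a derivative from the derivatives along three coordinate lines -/
theorem lin3 {E' : Type*} [NormedAddCommGroup E'] [NormedSpace ℝ E']
    {A : E' × (ℝ × ℝ × ℝ) → ℝ} {A' : E' × (ℝ × ℝ × ℝ) →L[ℝ] ℝ} {z₀ : E'}
    (h : HasFDerivAt A A' (z₀, 0)) {α β γ : ℝ}
    (h1 : HasDerivAt (fun θ : ℝ => A (z₀, (θ, 0, 0))) α 0)
    (h2 : HasDerivAt (fun θ : ℝ => A (z₀, (0, θ, 0))) β 0)
    (h3 : HasDerivAt (fun θ : ℝ => A (z₀, (0, 0, θ))) γ 0) (p : ℝ × ℝ × ℝ) :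
    A' (0, p) = p.1 * α + p.2.1 * β + p.2.2 * γ := by
  have l1 : HasDerivAt (fun θ : ℝ => ((z₀, (θ, 0, 0)) : E' × (ℝ × ℝ × ℝ))) (0, (1, 0, 0)) 0 :=
    (hasDerivAt_const _ _).prodMk ((hasDerivAt_id _).prodMk
      ((hasDerivAt_const _ _).prodMk (hasDerivAt_const _ _)))
  have l2 : HasDerivAt (fun θ : ℝ => ((z₀, (0, θ, 0)) : E' × (ℝ × ℝ × ℝ))) (0, (0, 1, 0)) 0 :=
    (hasDerivAt_const _ _).prodMk ((hasDerivAt_const _ _).prodMk
      ((hasDerivAt_id _).prodMk (hasDerivAt_const _ _)))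
  have l3 : HasDerivAt (fun θ : ℝ => ((z₀, (0, 0, θ)) : E' × (ℝ × ℝ × ℝ))) (0, (0, 0, 1)) 0 :=
    (hasDerivAt_const _ _).prodMk ((hasDerivAt_const _ _).prodMk
      ((hasDerivAt_const _ _).prodMk (hasDerivAt_id _)))
  have g1 : A' (0, (1, 0, 0)) = α :=
    (HasFDerivAt.comp_hasDerivAt (f := fun θ : ℝ => ((z₀, (θ, 0, 0)) : E' × (ℝ × ℝ × ℝ)))
      (0 : ℝ) h l1).unique h1
  have g2 : A' (0, (0, 1, 0)) = β :=
    (HasFDerivAt.comp_hasDerivAt (f := fun θ : ℝ => ((z₀, (0, θ, 0)) : E' × (ℝ × ℝ × ℝ)))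
      (0 : ℝ) h l2).unique h2
  have g3 : A' (0, (0, 0, 1)) = γ :=
    (HasFDerivAt.comp_hasDerivAt (f := fun θ : ℝ => ((z₀, (0, 0, θ)) : E' × (ℝ × ℝ × ℝ)))
      (0 : ℝ) h l3).unique h3
  have hp : ((0, p) : E' × (ℝ × ℝ × ℝ)) = p.1 • (0, (1, 0, 0)) + p.2.1 • (0, (0, 1, 0)) +
      p.2.2 • (0, (0, 0, 1)) := by
    refine Prod.ext ?_ (Prod.ext ?_ (Prod.ext ?_ ?_)) <;> simp
  rw [hp, map_add, map_add, map_smul, map_smul, map_smul, g1, g2, g3, smul_eq_mul, smul_eq_mul,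
    smul_eq_mul]

variable {E : Type*} [NormedAddCommGroup E] [NormedSpace ℝ E]
  {M : Type*} [MetricSpace M] [ChartedSpace E M]
  [RiemannianBundle (fun x : M => TangentSpace 𝓘(ℝ, E) x)]
  {e : ∀ x : M, TangentSpace 𝓘(ℝ, E) x → M}
  [FiniteDimensional ℝ E] [IsManifold 𝓘(ℝ, E) ∞ M]
  [IsContMDiffRiemannianBundle 𝓘(ℝ, E) ∞ E (fun x : M => TangentSpace 𝓘(ℝ, E) x)]
  [CompactSpace M] [ConnectedSpace M] [IsRiemannianManifold 𝓘(ℝ, E) M]

variable {D : ℝ}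

/-- the apex -/
def apx (e : ∀ x : M, TangentSpace 𝓘(ℝ, E) x → M) (Y : Pr e D → E) (b : Pr e D) (s ε : ℝ) : M :=
  e (foot b.v) (s • vec' b.w + ε • Y b : E)

/-- the second vector of a pair is a smooth field along the foot of the first one -/
theorem smV_w {E' : Type} [NormedAddCommGroup E'] [NormedSpace ℝ E'] [FiniteDimensional ℝ E']
    {u : E' → Pr e D} {x : E'} (hu : (dPr e D).At u x) :
    ∀ᶠ s in 𝓝 x, H775.SmV (fun s => foot (u s).v) (fun s => (vec' (u s).w : E)) s := by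
  have h1 := at_iff.1 (map_w hu)
  filter_upwards [h1] with s hs
  refine ContMDiffAt.congr_of_eventuallyEq hs ?_
  exact Eventually.of_forall fun s' => tb_congr (u s').isL.foot_eq.symm rfl

theorem map_apx (F : Facts e) {Y : Pr e D → E} (hY : IsFldP Y) :
    (((dPr e D).prod (Dif.lin ℝ)).prod (Dif.lin ℝ)).Map (dM E M)
      (fun p : (Pr e D × ℝ) × ℝ => apx e Y p.1.1 p.1.2 p.2) := by
  intro E' _ _ _ u x h
  have h1 := hY h.1.1
  have h2 : Sm (fun s => (u s).1.2) x := h.1.2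
  have h3 : Sm (fun s => (u s).2) x := h.2
  have h4 := smV_w h.1.1
  change ∀ᶠ s in 𝓝 x, H775.SmV (fun s => foot (u s).1.1.v) (fun s => (Y (u s).1.1 : E)) s at h1
  change ∀ᶠ s in 𝓝 x, ContMDiffAt _ _ _ _ _
  filter_upwards [h1, h2, h3, h4] with s hs1 hs2 hs3 hs4
  exact ((hs4.smul hs2).add (hs1.smul hs3)).exp F.isExp

theorem apx_zero_right (Y : Pr e D → E) (b : Pr e D) (s : ℝ) :
    apx e Y b s 0 = e (foot b.v) (s • vec' b.w : E) := by
  unfold apx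
  have h : (s • vec' b.w + (0 : ℝ) • Y b : E) = s • vec' b.w := by rw [zero_smul, add_zero]
  exact congrArg (e (foot b.v)) h

theorem apx_zero_left (Y : Pr e D → E) (b : Pr e D) (ε : ℝ) :
    apx e Y b 0 ε = poP e Y ε b := by
  unfold apx poP
  have h : ((0 : ℝ) • vec' b.w + ε • Y b : E) = ε • Y b := by rw [zero_smul, zero_add]
  exact congrArg (e (foot b.v)) h

/-- the middle of a pair of cut points, in the direction `u` -/
def Mid (F : Facts e) (D : ℝ) (x y m : M) (u u' : E) : Prop :=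
  nm x u = 1 ∧ nm y u' = 1 ∧ e x ((D / 2) • u : E) = m ∧ e y ((D / 2) • u' : E) = m

theorem vl_exp_line (F : Facts e) (x : M) (a : E) :
    (WC.vl (fun θ : ℝ => e x (θ • a : E)) 0 : E) = a := by
  have h1 := mfderiv_gam F.isExp x a 0
  have h2 := vel_zero F.isExp x a
  exact (show (WC.vl (gam e x a) 0 : E) = vel e x a 0 from h1).trans h2

theorem hasDerivAt_line (F : Facts e) (hD : 0 < D) (hB : InjGE e D) {x m : M} {u : E}
    (hu : nm x u = 1) (hm : e x ((D / 2) • u : E) = m) (a : E) :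
    HasDerivAt (fun θ : ℝ => dist (e x (θ • a : E)) m) (-ip x u a) 0 := by
  have h0 : e x ((0 : ℝ) • a : E) = x := by
    have h1 : ((0 : ℝ) • a : E) = 0 := zero_smul _ _
    exact (congrArg (e x) h1).trans (F.isExp.map_zero x)
  exact hasDerivAt_dist F hB (p := fun θ : ℝ => (e x (θ • a : E) : M))
    (contMDiff_gam F.isExp x a).contMDiffAt h0 (by positivity) (by linarith) hu hm
    (vl_exp_line F x a)

theorem Mid.dist_left (F : Facts e) (hD : 0 < D) (hB : InjGE e D) {x y m : M} {u u' : E}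
    (h : Mid F D x y m u u') : dist x m = D / 2 := by
  have hn : nm x ((D / 2) • u) = D / 2 := by rw [nm_smul, h.1, mul_one, abs_of_pos (by positivity)]
  rw [← h.2.2.1]
  exact (hB x _ (hn.le.trans (by linarith))).trans hn

theorem Mid.dist_right (F : Facts e) (hD : 0 < D) (hB : InjGE e D) {x y m : M} {u u' : E}
    (h : Mid F D x y m u u') : dist m y = D / 2 := by
  have hn : nm y ((D / 2) • u') = D / 2 := by
    rw [nm_smul, h.2.1, mul_one, abs_of_pos (by positivity)]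
  rw [← h.2.2.2, dist_comm]
  exact (hB y _ (hn.le.trans (by linarith))).trans hn

/-- the length of the path from the apex to the loop through the midpoint -/
def Af (e : ∀ x : M, TangentSpace 𝓘(ℝ, E) x → M) (Lam : Pr e D × ℝ → Pr e D) (Y : Pr e D → E)
    {E' : Type} (c : E' → Pr e D) (m : E' → M) (q : E' × (ℝ × ℝ × ℝ)) : ℝ :=
  dist (apx e Y (c q.1) q.2.1 q.2.2.1) (m q.1) +
    dist (m q.1) (poP e Y q.2.2.1 (Lam (c q.1, D + q.2.2.2)))

theorem le_Af {Lam : Pr e D × ℝ → Pr e D} {Y : Pr e D → E} {E' : Type} (c : E' → Pr e D)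
    (m : E' → M) (q : E' × (ℝ × ℝ × ℝ)) :
    dist (apx e Y (c q.1) q.2.1 q.2.2.1) (poP e Y q.2.2.1 (Lam (c q.1, D + q.2.2.2))) ≤
      Af e Lam Y c m q := dist_triangle _ _ _

section Exp

variable {E' : Type} [NormedAddCommGroup E'] [NormedSpace ℝ E'] [FiniteDimensional ℝ E']

theorem at_apx (F : Facts e) {Y : Pr e D → E} (hY : IsFldP Y) {c : E' → Pr e D} {z₀ : E'}
    (hc : (dPr e D).At c z₀) : ContMDiffAt 𝓘(ℝ, E' × (ℝ × ℝ × ℝ)) 𝓘(ℝ, E) ∞
      (fun q : E' × (ℝ × ℝ × ℝ) => apx e Y (c q.1) q.2.1 q.2.2.1) (z₀, 0) := by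
  have h0 : (dPr e D).At (fun q : E' × (ℝ × ℝ × ℝ) => c q.1) (z₀, 0) :=
    (dPr e D).comp (u := c) (g := Prod.fst) (x := ((z₀, 0) : E' × (ℝ × ℝ × ℝ))) hc
      (Sm.of_contDiff contDiff_fst _)
  have h1 : (((dPr e D).prod (Dif.lin ℝ)).prod (Dif.lin ℝ)).At
      (fun q : E' × (ℝ × ℝ × ℝ) => ((c q.1, q.2.1), q.2.2.1)) (z₀, 0) :=
    ⟨⟨h0, Sm.of_contDiff (by fun_prop) _⟩, Sm.of_contDiff (by fun_prop) _⟩
  have h2 : (dM E M).At (fun q : E' × (ℝ × ℝ × ℝ) => apx e Y (c q.1) q.2.1 q.2.2.1) (z₀, 0) :=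
    map_apx F hY h1
  exact Filter.Eventually.self_of_nhds h2

theorem at_lo (F : Facts e) {Lam : Pr e D × ℝ → Pr e D} (h : IsFlow (dPr e D) (2 * D) Lam)
    {Y : Pr e D → E} (hY : IsFldP Y) {c : E' → Pr e D} {z₀ : E'}
    (hc : (dPr e D).At c z₀) : ContMDiffAt 𝓘(ℝ, E' × (ℝ × ℝ × ℝ)) 𝓘(ℝ, E) ∞
      (fun q : E' × (ℝ × ℝ × ℝ) => poP e Y q.2.2.1 (Lam (c q.1, D + q.2.2.2))) (z₀, 0) := by
  have h0 : (dPr e D).At (fun q : E' × (ℝ × ℝ × ℝ) => c q.1) (z₀, 0) :=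
    (dPr e D).comp (u := c) (g := Prod.fst) (x := ((z₀, 0) : E' × (ℝ × ℝ × ℝ))) hc
      (Sm.of_contDiff contDiff_fst _)
  have h1 : (((dPr e D).prod (Dif.lin ℝ)).prod (Dif.lin ℝ)).At
      (fun q : E' × (ℝ × ℝ × ℝ) => ((c q.1, q.2.2.1), D + q.2.2.2)) (z₀, 0) :=
    ⟨⟨h0, Sm.of_contDiff (by fun_prop) _⟩, Sm.of_contDiff (by fun_prop) _⟩
  have h2 : (dM E M).At
      (fun q : E' × (ℝ × ℝ × ℝ) => poP e Y q.2.2.1 (Lam (c q.1, D + q.2.2.2))) (z₀, 0) :=
    map_loopP F h hY h1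
  exact Filter.Eventually.self_of_nhds h2

/-- **first order expansion of the broken paths** -/
theorem Af_exp (F : Facts e) (hD : 0 < D) (hB : InjGE e D) {Lam : Pr e D × ℝ → Pr e D}
    (h : IsFlow (dPr e D) (2 * D) Lam) (hv : ∀ b t, (Lam (b, t)).v = phi F (b.v, t))
    {Y : Pr e D → E} (hY : IsFldP Y) {c : E' → Pr e D} {z₀ : E'} (hc : (dPr e D).At c z₀)
    {m : E' → M} (hm : ContMDiffAt 𝓘(ℝ, E') 𝓘(ℝ, E) ∞ m z₀)
    (hM : ∀ z, ∃ u u', Mid F D (foot (c z).v) (foot (Lam (c z, D)).v) (m z) u u') {u u' : E}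
    (hM0 : Mid F D (foot (c z₀).v) (foot (Lam (c z₀, D)).v) (m z₀) u u') {η : ℝ} (hη : 0 < η) :
    ∀ᶠ q : E' × (ℝ × ℝ × ℝ) in 𝓝 (z₀, 0), |Af e Lam Y c m q - D -
      (q.2.1 * (-ip (foot (c z₀).v) u (vec' (c z₀).w)) +
        q.2.2.1 * (-ip (foot (c z₀).v) u (Y (c z₀)) -
          ip (foot (Lam (c z₀, D)).v) u' (Y (Lam (c z₀, D)))) +
        q.2.2.2 * (-ip (foot (Lam (c z₀, D)).v) u' (vec' (Lam (c z₀, D)).v)))| ≤ η * ‖q.2‖ := by
  set b := c z₀ with hb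
  set b' := Lam (b, D) with hb'
  have hap := at_apx F hY hc
  have hlo := at_lo F h hY hc
  have hm' : ContMDiffAt 𝓘(ℝ, E' × (ℝ × ℝ × ℝ)) 𝓘(ℝ, E) ∞
      (fun q : E' × (ℝ × ℝ × ℝ) => m q.1) (z₀, 0) :=
    ContMDiffAt.comp (z₀, (0 : ℝ × ℝ × ℝ)) hm contDiffAt_fst.contMDiffAt
  have hap0 : ∀ b : Pr e D, apx e Y b 0 0 = foot b.v := fun b => by
    rw [apx_zero_left, poP_zero F]
  have hlo0 : ∀ (b : Pr e D), poP e Y 0 (Lam (b, D + 0)) = foot (Lam (b, D)).v := fun b => by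
    rw [add_zero, poP_zero F]
  have hdl := hM0.dist_left F hD hB
  have hdr := hM0.dist_right F hD hB
  have s1 : ContDiffAt ℝ ∞ (fun q : E' × (ℝ × ℝ × ℝ) =>
      dist (apx e Y (c q.1) q.2.1 q.2.2.1) (m q.1)) (z₀, 0) := by
    have k : dist (apx e Y (c ((z₀, 0) : E' × (ℝ × ℝ × ℝ)).1) 0 0) (m z₀) = D / 2 := by
      rw [hap0]
      exact hdl
    refine contDiffAt_dist F hB hap hm' ?_ ?_
    · exact k.trans_lt (by linarith)
    · exact (by linarith : (0 : ℝ) < D / 2).trans_eq k.symm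
  have s2 : ContDiffAt ℝ ∞ (fun q : E' × (ℝ × ℝ × ℝ) =>
      dist (m q.1) (poP e Y q.2.2.1 (Lam (c q.1, D + q.2.2.2)))) (z₀, 0) := by
    have k : dist (m z₀) (poP e Y 0 (Lam (c ((z₀, 0) : E' × (ℝ × ℝ × ℝ)).1, D + 0))) = D / 2 := by
      rw [hlo0]
      exact hdr
    refine contDiffAt_dist F hB hm' hlo ?_ ?_
    · exact k.trans_lt (by linarith)
    · exact (by linarith : (0 : ℝ) < D / 2).trans_eq k.symm
  have hA : ContDiffAt ℝ ∞ (Af e Lam Y c m) (z₀, 0) := s1.add s2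
  have hst := hA.hasStrictFDerivAt (by simp)
  have h0 : ∀ᶠ z in 𝓝 z₀, Af e Lam Y c m (z, 0) = D := by
    refine Eventually.of_forall fun z => ?_
    obtain ⟨a, a', ha⟩ := hM z
    change dist (apx e Y (c z) 0 0) (m z) + dist (m z) (poP e Y 0 (Lam (c z, D + 0))) = D
    rw [hap0, hlo0, ha.dist_left F hD hB, ha.dist_right F hD hB]
    ring
  -- the three derivatives
  have g1 : ∀ a : E, HasDerivAt (fun θ : ℝ => dist (e (foot b.v) (θ • a : E)) (m z₀))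
      (-ip (foot b.v) u a) 0 := fun a => hasDerivAt_line F hD hB hM0.1 hM0.2.2.1 a
  have g2 : ∀ a : E, HasDerivAt (fun θ : ℝ => dist (m z₀) (e (foot b'.v) (θ • a : E)))
      (-ip (foot b'.v) u' a) 0 := fun a => by
    have := hasDerivAt_line F hD hB hM0.2.1 hM0.2.2.2 a
    refine this.congr_of_eventuallyEq (Eventually.of_forall fun θ => dist_comm _ _)
  have d1 : HasDerivAt (fun θ : ℝ => Af e Lam Y c m (z₀, (θ, 0, 0)))
      (-ip (foot b.v) u (vec' b.w)) 0 := by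
    have k := (g1 (vec' b.w)).add_const (dist (m z₀) (poP e Y 0 (Lam (b, D + 0))))
    refine k.congr_of_eventuallyEq (Eventually.of_forall fun θ => ?_)
    change dist (apx e Y b θ 0) (m z₀) + _ = _
    rw [apx_zero_right]
  have d2 : HasDerivAt (fun θ : ℝ => Af e Lam Y c m (z₀, (0, θ, 0)))
      (-ip (foot b.v) u (Y b) - ip (foot b'.v) u' (Y b')) 0 := by
    have k := ((g1 (Y b)).add (g2 (Y b'))).congr_deriv (sub_eq_add_neg _ _).symm
    refine k.congr_of_eventuallyEq (Eventually.of_forall fun θ => ?_)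
    change dist (apx e Y b 0 θ) (m z₀) + dist (m z₀) (poP e Y θ (Lam (b, D + 0))) = _
    rw [apx_zero_left, add_zero]
    rfl
  have d3 : HasDerivAt (fun θ : ℝ => Af e Lam Y c m (z₀, (0, 0, θ)))
      (-ip (foot b'.v) u' (vec' b'.v)) 0 := by
    have k := (g2 (vec' b'.v)).const_add (dist (apx e Y b 0 0) (m z₀))
    refine k.congr_of_eventuallyEq (Eventually.of_forall fun θ => ?_)
    change dist (apx e Y b 0 0) (m z₀) + dist (m z₀) (poP e Y 0 (Lam (b, D + θ))) = _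
    rw [poP_zero F]
    have k2 : foot (Lam (b, D + θ)).v = e (foot b'.v) (θ • vec' b'.v : E) := by
      have k3 : b'.v = phi F (b.v, D) := hv b D
      have k4 : (Lam (b, D + θ)).v = phi F (b'.v, θ) := by
        rw [hv, k3, phi_add, add_comm]
      rw [k4]
      rfl
    exact congrArg (fun y => dist (apx e Y b 0 0) (m z₀) + dist (m z₀) y) k2
  have hlin := lin3 (A := Af e Lam Y c m) hst.hasFDerivAt d1 d2 d3
  filter_upwards [strict_slice hst h0 hη] with q hq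
  have hq2 := hlin q.2
  rw [hq2] at hq
  exact hq

end Exp

end

end Vale.Agent.P231.H766
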