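import Vale.Agent.P231.H766.Apx2

/-!
# P231, stages 2 and 3: the apex of the cones, uniformly over the space of pairs (3)
-/

set_option maxSynthPendingDepth 3
set_option linter.unusedSectionVars false
set_option linter.unusedVariables false

open Bundle Manifold Set Filter Module MeasureTheory
open scoped ContDiff Manifold Topology ENNReal

namespace Vale.Agent.P231.H766

noncomputable section

open Vale.Agent.P234 Vale.Agent.P231 Vale.Agent.P231.Fm Vale.Agent.P231.W Vale.Agent.P231.WR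
  Vale.Agent.P231.WF

theorem exists_eta {a : ℝ} (c : ℝ) (ha : 0 < a) :
    ∃ η : ℝ, 0 < η ∧ η < 1 ∧ η < a ∧ η * (|c| / a + 1) < 1 := by
  have h1 : 0 < |c| / a + 1 := by positivity
  refine ⟨min (1 / 2) (min (a / 2) (1 / (2 * (|c| / a + 1)))), by positivity, ?_, ?_, ?_⟩
  · exact (min_le_left _ _).trans_lt (by norm_num)
  · exact ((min_le_right _ _).trans (min_le_left _ _)).trans_lt (by linarith)
  · have h2 : min (1 / 2) (min (a / 2) (1 / (2 * (|c| / a + 1)))) ≤ 1 / (2 * (|c| / a + 1)) :=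
      (min_le_right _ _).trans (min_le_right _ _)
    have h3 : 1 / (2 * (|c| / a + 1)) * (|c| / a + 1) = 1 / 2 := by
      field_simp
    nlinarith

variable {E : Type*} [NormedAddCommGroup E] [NormedSpace ℝ E]
  {M : Type*} [MetricSpace M] [ChartedSpace E M]
  [RiemannianBundle (fun x : M => TangentSpace 𝓘(ℝ, E) x)]
  {e : ∀ x : M, TangentSpace 𝓘(ℝ, E) x → M}
  [FiniteDimensional ℝ E] [IsManifold 𝓘(ℝ, E) ∞ M]
  [IsContMDiffRiemannianBundle 𝓘(ℝ, E) ∞ E (fun x : M => TangentSpace 𝓘(ℝ, E) x)]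
  [CompactSpace M] [ConnectedSpace M] [IsRiemannianManifold 𝓘(ℝ, E) M]

variable {D : ℝ}

theorem e_foot_w (b : Pr e D) (s : ℝ) : e (foot b.v) (s • vec' b.w : E) = gm e (b.w, s) := by
  rw [← b.isL.foot_eq]
  rfl

theorem nm_w (b : Pr e D) : nm (foot b.v) (vec' b.w) = 1 := by
  rw [← b.isL.foot_eq]
  exact nm_vec' b.w

theorem ip_self'' (x : M) (a : E) : ip x a a = nm x a ^ 2 :=
  real_inner_self_eq_norm_sq (F := TangentSpace 𝓘(ℝ, E) x) a

theorem ip_w_w (b : Pr e D) : ip (foot b.v) (vec' b.w) (vec' b.w) = 1 := by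
  rw [ip_self'', nm_w b, one_pow]

section Near

variable (F : Facts e) (hD : 0 < D) (hB : InjGE e D) (hdiam : ∀ p q : M, dist p q ≤ D)
  {Lam : Pr e D × ℝ → Pr e D}

theorem foot_half (hv : ∀ b t, (Lam (b, t)).v = phi F (b.v, t)) (b : Pr e D) :
    foot (Lam (b, D)).v = bar e D b.v := by
  rw [hv]
  rfl

theorem mid1 (hhalf : ∀ b, Lam (b, D) = ngP F hD hB hdiam (Th F hD hB hdiam b)) (b : Pr e D) :
    Mid F D (foot b.v) (foot (Lam (b, D)).v) (gm e (b.w, D / 2)) (vec' b.w)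
      (vec' (Lam (b, D)).w) := by
  refine ⟨nm_w b, nm_w _, e_foot_w b _, ?_⟩
  have h : gm e ((Lam (b, D)).w, D / 2) = gm e (b.w, D / 2) := by
    rw [hhalf, ngP_w, Th_w, gm_ng, gm_phi]
    congr 2
    ring
  exact (e_foot_w (Lam (b, D)) (D / 2)).trans h

theorem mid2 (hv : ∀ b t, (Lam (b, t)).v = phi F (b.v, t)) (b : Pr e D) :
    Mid F D (foot b.v) (foot (Lam (b, D)).v) (gm e (b.v, D / 2)) (vec' b.v)
      (vec' (ng (Lam (b, D)).v)) := by
  refine ⟨nm_vec' b.v, nm_vec' (ng (Lam (b, D)).v), rfl, ?_⟩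
  have h : gm e (ng (Lam (b, D)).v, D / 2) = gm e (b.v, D / 2) := by
    rw [hv, gm_ng, gm_phi]
    congr 2
    ring
  exact h

include hD hB hdiam in
theorem mid3 (hv : ∀ b t, (Lam (b, t)).v = phi F (b.v, t)) (b : Pr e D) :
    Mid F D (foot b.v) (foot (Lam (b, D)).v) (gm e (b.v, -(D / 2))) (vec' (ng b.v))
      (vec' (Lam (b, D)).v) := by
  refine ⟨nm_vec' (ng b.v), nm_vec' (Lam (b, D)).v, gm_ng b.v _, ?_⟩
  have h : gm e ((Lam (b, D)).v, D / 2) = gm e (b.v, -(D / 2)) := by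
    rw [hv, gm_phi]
    have h1 : gm e (b.v, D + D / 2) = gm e (phi F (b.v, 2 * D), -(D / 2)) := by
      rw [gm_phi]
      congr 2
      ring
    rw [h1, W.phi_per F hD hB hdiam]
  exact h

/-- **near the antipodal point of the geodesic** -/
theorem near_Pr (hflow : IsFlow (dPr e D) (2 * D) Lam)
    (hv : ∀ b t, (Lam (b, t)).v = phi F (b.v, t))
    (hhalf : ∀ b, Lam (b, D) = ngP F hD hB hdiam (Th F hD hB hdiam b))
    {Y : Pr e D → E} (hY : IsFldP Y)
    (hsgn : ∀ b, 0 < ip (foot b.v) (Y b) (vec' b.w) +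
      ip (foot (Lam (b, D)).v) (Y (Lam (b, D))) (vec' (Lam (b, D)).w))
    {E' : Type} [NormedAddCommGroup E'] [NormedSpace ℝ E'] [FiniteDimensional ℝ E']
    {c : E' → Pr e D} {z₀ : E'} (hc : (dPr e D).At c z₀) :
    ∀ᶠ q : E' × (ℝ × ℝ × ℝ) in 𝓝 (z₀, 0), 0 ≤ q.2.1 → 0 < q.2.2.1 →
      dist (apx e Y (c q.1) q.2.1 q.2.2.1) (poP e Y q.2.2.1 (Lam (c q.1, D + q.2.2.2))) < D := by
  set b := c z₀ with hb
  set b' := Lam (b, D) with hb'
  set a := ip (foot b.v) (Y b) (vec' b.w) + ip (foot b'.v) (Y b') (vec' b'.w) with ha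
  have ha0 : 0 < a := hsgn b
  set c' := ip (foot b.v) (vec' b.v) (Y b) - ip (foot b'.v) (vec' b'.v) (Y b') with hc'
  obtain ⟨η, hη, hη1, hη2, hη3⟩ := exists_eta c' ha0
  have at1 : ContMDiffAt 𝓘(ℝ, E') 𝓘(ℝ, E) ∞ (fun z => gm e ((c z).w, D / 2)) z₀ :=
    contMDiffAt_of_At (map_gm F (u := fun z => ((c z).w, D / 2))
      ⟨map_w hc, Sm.of_contDiff contDiff_const _⟩)
  have at2 : ∀ r : ℝ, ContMDiffAt 𝓘(ℝ, E') 𝓘(ℝ, E) ∞ (fun z => gm e ((c z).v, r)) z₀ := fun r =>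
    contMDiffAt_of_At (map_gm F (u := fun z => ((c z).v, r))
      ⟨map_v hc, Sm.of_contDiff contDiff_const _⟩)
  have k1 := Af_exp F hD hB hflow hv hY hc at1
    (fun z => ⟨_, _, mid1 F hD hB hdiam hhalf (c z)⟩) (mid1 F hD hB hdiam hhalf b) hη
  have k2 := Af_exp F hD hB hflow hv hY hc (at2 (D / 2))
    (fun z => ⟨_, _, mid2 F hv (c z)⟩) (mid2 F hv b) hη
  have k3 := Af_exp F hD hB hflow hv hY hc (at2 (-(D / 2)))
    (fun z => ⟨_, _, mid3 F hD hB hdiam hv (c z)⟩) (mid3 F hD hB hdiam hv b) hη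
  have vn : ∀ v : UT E M, (vec' (ng v) : E) = (-1 : ℝ) • vec' v := fun v =>
    (neg_one_smul ℝ (vec' v : E)).symm
  have c11 : ip (foot b.v) (vec' b.w) (vec' b.w) = 1 := ip_w_w b
  have c13 : ip (foot b'.v) (vec' b'.w) (vec' b'.v) = 0 := by
    rw [ip_comm']
    exact b'.isL.orth
  have c21 : ip (foot b.v) (vec' b.v) (vec' b.w) = 0 := b.isL.orth
  have c23 : ip (foot b'.v) (vec' b'.v) (vec' b'.v) = 1 := by
    rw [ip_self'', nm_vec', one_pow]
  filter_upwards [k1, k2, k3] with q h1 h2 h3 hs hε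
  by_contra hlt
  push Not at hlt
  have l1 := hlt.trans (le_Af c (fun z => gm e ((c z).w, D / 2)) q)
  have l2 := hlt.trans (le_Af c (fun z => gm e ((c z).v, D / 2)) q)
  have l3 := hlt.trans (le_Af c (fun z => gm e ((c z).v, -(D / 2))) q)
  have g1 : |Af e Lam Y c (fun z => gm e ((c z).w, D / 2)) q - D -
      (q.2.1 * -ip (foot b.v) (vec' b.w) (vec' b.w) +
        q.2.2.1 * (-ip (foot b.v) (vec' b.w) (Y b) - ip (foot b'.v) (vec' b'.w) (Y b')) +
        q.2.2.2 * -ip (foot b'.v) (vec' b'.w) (vec' b'.v))| ≤ η * ‖q.2‖ := h1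
  have g2 : |Af e Lam Y c (fun z => gm e ((c z).v, D / 2)) q - D -
      (q.2.1 * -ip (foot b.v) (vec' b.v) (vec' b.w) +
        q.2.2.1 * (-ip (foot b.v) (vec' b.v) (Y b) -
          ip (foot b'.v) (vec' (ng b'.v)) (Y b')) +
        q.2.2.2 * -ip (foot b'.v) (vec' (ng b'.v)) (vec' b'.v))| ≤ η * ‖q.2‖ := h2
  have g3 : |Af e Lam Y c (fun z => gm e ((c z).v, -(D / 2))) q - D -
      (q.2.1 * -ip (foot b.v) (vec' (ng b.v)) (vec' b.w) +
        q.2.2.1 * (-ip (foot b.v) (vec' (ng b.v)) (Y b) -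
          ip (foot b'.v) (vec' b'.v) (Y b')) +
        q.2.2.2 * -ip (foot b'.v) (vec' b'.v) (vec' b'.v))| ≤ η * ‖q.2‖ := h3
  rw [c11, c13, ip_comm' _ (vec' b.w) (Y b), ip_comm' _ (vec' b'.w) (Y b'), abs_le] at g1
  rw [vn, H997.ip_smul_left', H997.ip_smul_left', c21, c23, abs_le] at g2
  rw [vn, H997.ip_smul_left', H997.ip_smul_left', c21, c23, abs_le] at g3
  have hN : max |q.2.1| (max |q.2.2.1| |q.2.2.2|) = ‖q.2‖ := rfl
  refine three_excl (c := c') ha0 hη hη1 hη2 hη3 hs hε hN ?_ ?_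
  · rw [ha]
    nlinarith [g1.1, g1.2]
  · rw [hc', abs_le]
    constructor
    · nlinarith [g2.1, g2.2]
    · nlinarith [g3.1, g3.2]

include F hD hB hdiam in
theorem lt_of_pos (b : Pr e D) {s : ℝ} (hs : 0 < s) (hsD : s ≤ D / 2) (t : ℝ) :
    dist (e (foot b.v) (s • vec' b.w : E)) (gm e (b.v, t)) < D := by
  have hvL : (tt (foot b.v) (vec' b.v)) ∈ Lk e D (foot (phi F (b.v, D))) (foot b.v) :=
    ⟨nm_vec' b.v, rfl⟩
  have hwL : (tt (foot b.v) (vec' b.w)) ∈ Lk e D (foot (phi F (b.v, D))) (foot b.v) :=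
    ⟨nm_w b, (e_foot_w b D).trans b.isL.bar_eq⟩
  exact WD1.lemD_orth F hD hB hdiam hvL hwL b.isL.orth hs (by linarith) t

include F hD hB hdiam in
theorem lt_of_ne (v : UT E M) {t : ℝ} (ht : t ∈ Icc 0 (2 * D)) (htD : t ≠ D) :
    dist (foot v) (gm e (v, t)) < D := by
  have hcl : ∀ (x : M) (v : E), nm x v = 2 * D → e x v = x :=
    fun x v hv => closed_of_inj_diam F hD hB hdiam x v hv
  rcases lt_or_gt_of_ne htD with h4 | h4
  · have h5 := hB (foot v) (tt (foot v) (t • vec' v)) (by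
      change nm (foot v) (t • vec' v) ≤ D
      rw [nm_smul, nm_vec', mul_one, abs_of_nonneg ht.1]
      exact h4.le)
    have h6 : nm (foot v) (t • vec' v) = t := by
      rw [nm_smul, nm_vec', mul_one, abs_of_nonneg ht.1]
    exact (h5.trans h6).trans_lt h4
  · have h7 := gam_per F hD.le hcl (foot v) (vec' v) (nm_vec' v) (t - 2 * D)
    rw [sub_add_cancel] at h7
    have h6 : nm (foot v) ((t - 2 * D) • vec' v) = 2 * D - t := by
      rw [nm_smul, nm_vec', mul_one, abs_of_nonpos (by linarith [ht.2])]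
      ring
    have h5 := hB (foot v) (tt (foot v) ((t - 2 * D) • vec' v)) (by
      change nm (foot v) ((t - 2 * D) • vec' v) ≤ D
      rw [h6]
      linarith)
    change dist (foot v) (gam e (foot v) (vec' v) t) < D
    rw [h7]
    exact (h5.trans h6).trans_lt (by linarith)

include F hD hB hdiam in
theorem lt_zero (hv : ∀ b t, (Lam (b, t)).v = phi F (b.v, t)) (Y : Pr e D → E) (b : Pr e D)
    {s t : ℝ} (hs : s ∈ Icc 0 (D / 2)) (ht : t ∈ Icc 0 (2 * D)) (h : s ≠ 0 ∨ t ≠ D) :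
    dist (apx e Y b s 0) (poP e Y 0 (Lam (b, t))) < D := by
  rw [apx_zero_right, poP_zero F, hv, foot_phi]
  rcases eq_or_ne s 0 with h0 | h0
  · subst h0
    have h1 : ((0 : ℝ) • vec' b.w : E) = 0 := zero_smul _ _
    have h2 : e (foot b.v) ((0 : ℝ) • vec' b.w : E) = foot b.v :=
      (congrArg (e (foot b.v)) h1).trans (F.isExp.map_zero _)
    rw [h2]
    rcases h with h | h
    · exact absurd rfl h
    · exact lt_of_ne F hD hB hdiam b.v ht h
  · exact lt_of_pos F hD hB hdiam b (lt_of_le_of_ne hs.1 h0.symm) hs.2 t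

include F in
theorem cont_ap (hflow : IsFlow (dPr e D) (2 * D) Lam) {Y : Pr e D → E} (hY : IsFldP Y)
    {E' : Type} [NormedAddCommGroup E'] [NormedSpace ℝ E'] [FiniteDimensional ℝ E']
    {c : E' → Pr e D} {s t ε ε' : E' → ℝ} {x : E'} (hc : (dPr e D).At c x) (hs : Sm s x)
    (ht : Sm t x) (hε : Sm ε x) (hε' : Sm ε' x) :
    ContinuousAt (fun p => dist (apx e Y (c p) (s p) (ε p)) (poP e Y (ε' p) (Lam (c p, t p)))) x := by
  have h1 : (dM E M).At (fun p => apx e Y (c p) (s p) (ε p)) x :=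
    map_apx F hY (u := fun p => ((c p, s p), ε p)) ⟨⟨hc, hs⟩, hε⟩
  have h2 : (dM E M).At (fun p => poP e Y (ε' p) (Lam (c p, t p))) x :=
    map_loopP F hflow hY (u := fun p => ((c p, ε' p), t p)) ⟨⟨hc, hε'⟩, ht⟩
  exact (contMDiffAt_of_At h1).continuousAt.dist (contMDiffAt_of_At h2).continuousAt

/-- **the apex of the cones, uniformly** -/
theorem apex_unif (hPC : PC (dPr e D)) (hflow : IsFlow (dPr e D) (2 * D) Lam)
    (hv : ∀ b t, (Lam (b, t)).v = phi F (b.v, t))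
    (hhalf : ∀ b, Lam (b, D) = ngP F hD hB hdiam (Th F hD hB hdiam b))
    {Y : Pr e D → E} (hY : IsFldP Y)
    (hsgn : ∀ b, 0 < ip (foot b.v) (Y b) (vec' b.w) +
      ip (foot (Lam (b, D)).v) (Y (Lam (b, D))) (vec' (Lam (b, D)).w)) :
    ∃ ε₁ : ℝ, 0 < ε₁ ∧
      (∀ ε ∈ Ioc 0 ε₁, ∀ b, ∀ s ∈ Icc 0 (D / 2), ∀ t,
        dist (apx e Y b s ε) (poP e Y ε (Lam (b, t))) < D) ∧
      (∀ ε ∈ Icc 0 ε₁, ∀ ε' ∈ Icc 0 ε₁, ∀ b t,
        dist (apx e Y b (D / 2) ε) (poP e Y ε' (Lam (b, t))) < D) := by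
  have hper : ∀ b t, ∃ t' ∈ Icc 0 (2 * D), Lam (b, t) = Lam (b, t') := by
    intro b t
    have hp : Function.Periodic (fun t => Lam (b, t)) (2 * D) := fun t => by
      change Lam (b, t + 2 * D) = Lam (b, t)
      rw [← hflow.add, hflow.per]
    obtain ⟨t', ht', h⟩ := hp.exists_mem_Ico₀ (by linarith) t
    exact ⟨t', ⟨ht'.1, ht'.2.le⟩, h⟩
  -- first part
  have kA : ∀ᶠ ε in 𝓝 (0 : ℝ), ∀ b : Pr e D, ∀ z ∈ Icc (0 : ℝ) (D / 2) ×ˢ Icc 0 (2 * D),
      0 < ε → 0 ≤ z.1 → dist (apx e Y b z.1 ε) (poP e Y ε (Lam (b, z.2))) < D := by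
    refine hPC.eventually (P := fun ε b z => 0 < ε → 0 ≤ z.1 →
      dist (apx e Y b z.1 ε) (poP e Y ε (Lam (b, z.2))) < D) (isCompact_Icc.prod isCompact_Icc)
      fun E' _ _ _ c z hc y hy => ?_
    by_cases h0 : y.1 ≠ 0 ∨ y.2 ≠ D
    · have h1 := cont_ap F hflow hY (c := fun p : ℝ × (E' × (ℝ × ℝ)) => c p.2.1)
        (s := fun p => p.2.2.1) (t := fun p => p.2.2.2) (ε := fun p => p.1) (ε' := fun p => p.1)
        (x := (0, (z, y)))
        ((dPr e D).comp (u := c) (g := fun p : ℝ × (E' × (ℝ × ℝ)) => p.2.1)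
          (x := ((0, (z, y)) : ℝ × (E' × (ℝ × ℝ)))) hc (Sm.of_contDiff (by fun_prop) _))
        (Sm.of_contDiff (by fun_prop) _) (Sm.of_contDiff (by fun_prop) _)
        (Sm.of_contDiff (by fun_prop) _) (Sm.of_contDiff (by fun_prop) _)
      have h2 := h1.eventually_lt_const (lt_zero F hD hB hdiam hv Y (c z) hy.1 hy.2 h0)
      filter_upwards [h2] with p hp _ _
      exact hp
    · push Not at h0
      have h1 := near_Pr F hD hB hdiam hflow hv hhalf hY hsgn hc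
      have h2 : Tendsto (fun p : ℝ × (E' × (ℝ × ℝ)) =>
          ((p.2.1, (p.2.2.1, p.1, p.2.2.2 - D)) : E' × (ℝ × ℝ × ℝ))) (𝓝 (0, (z, y)))
          (𝓝 (z, 0)) := by
        have h3 : Continuous fun p : ℝ × (E' × (ℝ × ℝ)) =>
          ((p.2.1, (p.2.2.1, p.1, p.2.2.2 - D)) : E' × (ℝ × ℝ × ℝ)) := by fun_prop
        have h4 := h3.tendsto (0, (z, y))
        simp only [h0.1, h0.2, sub_self] at h4
        exact h4
      filter_upwards [h2.eventually h1] with p hp hp1 hp2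
      have h5 := hp hp2 hp1
      simp only [add_sub_cancel] at h5
      exact h5
  have kB : ∀ᶠ ε : ℝ × ℝ in 𝓝 ((0, 0) : ℝ × ℝ), ∀ b : Pr e D, ∀ z ∈ Icc (0 : ℝ) (2 * D),
      dist (apx e Y b (D / 2) ε.1) (poP e Y ε.2 (Lam (b, z))) < D := by
    refine hPC.eventually (P := fun (ε : ℝ × ℝ) (b : Pr e D) (z : ℝ) =>
      dist (apx e Y b (D / 2) ε.1) (poP e Y ε.2 (Lam (b, z))) < D) isCompact_Icc
      fun E' _ _ _ c z hc y hy => ?_
    have h1 := cont_ap F hflow hY (c := fun p : (ℝ × ℝ) × (E' × ℝ) => c p.2.1)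
      (s := fun p => D / 2) (t := fun p => p.2.2) (ε := fun p => p.1.1) (ε' := fun p => p.1.2)
      (x := ((0, 0), (z, y)))
      ((dPr e D).comp (u := c) (g := fun p : (ℝ × ℝ) × (E' × ℝ) => p.2.1)
        (x := (((0, 0), (z, y)) : (ℝ × ℝ) × (E' × ℝ))) hc (Sm.of_contDiff (by fun_prop) _))
      (Sm.of_contDiff (by fun_prop) _) (Sm.of_contDiff (by fun_prop) _)
      (Sm.of_contDiff (by fun_prop) _) (Sm.of_contDiff (by fun_prop) _)
    exact h1.eventually_lt_const (lt_zero F hD hB hdiam hv Y (c z)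
      ⟨by linarith, le_rfl⟩ hy (Or.inl (by linarith)))
  obtain ⟨δ₁, hδ₁, h1⟩ := Metric.eventually_nhds_iff.1 kA
  obtain ⟨δ₂, hδ₂, h2⟩ := Metric.eventually_nhds_iff.1 kB
  refine ⟨min δ₁ δ₂ / 2, by positivity, fun ε hε b s hs t => ?_, fun ε hε ε' hε' b t => ?_⟩
  · obtain ⟨t', ht', h3⟩ := hper b t
    rw [h3]
    have h4 : ε < δ₁ := by
      have := hε.2.trans (div_le_div_of_nonneg_right (min_le_left δ₁ δ₂) (by norm_num : (0:ℝ) ≤ 2))
      linarith
    exact h1 (by rw [Real.dist_eq, sub_zero, abs_of_pos hε.1]; exact h4) b (s, t') ⟨hs, ht'⟩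
      hε.1 hs.1
  · obtain ⟨t', ht', h3⟩ := hper b t
    rw [h3]
    have h4 : ∀ r ∈ Icc 0 (min δ₁ δ₂ / 2), |r| < δ₂ := fun r hr => by
      rw [abs_of_nonneg hr.1]
      have := hr.2.trans (div_le_div_of_nonneg_right (min_le_right δ₁ δ₂) (by norm_num : (0:ℝ) ≤ 2))
      linarith
    refine h2 (y := (ε, ε')) ?_ b t' ht'
    rw [Prod.dist_eq]
    refine max_lt ?_ ?_
    · change dist ε 0 < δ₂
      rw [Real.dist_eq, sub_zero]
      exact h4 ε hε
    · change dist ε' 0 < δ₂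
      rw [Real.dist_eq, sub_zero]
      exact h4 ε' hε'

end Near

end

end Vale.Agent.P231.H766
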