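import Vale.Agent.P231.WR.Th
import Vale.Agent.P231.W.Abs

/-!
# P231, stages 2 and 3: the lifted flow on the space of pairs and the push-off (interface)
-/

set_option maxSynthPendingDepth 3
set_option linter.unusedSectionVars false
set_option linter.unusedVariables false

open Bundle Manifold Set Filter Module
open scoped ContDiff Manifold Topology

namespace Vale.Agent.P231.H766

noncomputable section

open Vale.Agent.P234 Vale.Agent.P231 Vale.Agent.P231.Fm Vale.Agent.P231.W Vale.Agent.P231.WR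

variable {E : Type*} [NormedAddCommGroup E] [NormedSpace ℝ E]
  {M : Type*} [MetricSpace M] [ChartedSpace E M]
  [RiemannianBundle (fun x : M => TangentSpace 𝓘(ℝ, E) x)]
  {e : ∀ x : M, TangentSpace 𝓘(ℝ, E) x → M}
  [FiniteDimensional ℝ E] [IsManifold 𝓘(ℝ, E) ∞ M]
  [IsContMDiffRiemannianBundle 𝓘(ℝ, E) ∞ E (fun x : M => TangentSpace 𝓘(ℝ, E) x)]
  [CompactSpace M] [ConnectedSpace M] [IsRiemannianManifold 𝓘(ℝ, E) M]

/-- the pair `(v, -w)` -/
def ngP (F : Facts e) {D : ℝ} (hD : 0 < D) (hB : InjGE e D)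
    (hdiam : ∀ p q : M, dist p q ≤ D) (b : Pr e D) : Pr e D :=
  ⟨(b.v, ng b.w), b.isL.ng F hD hB hdiam⟩

@[simp] theorem ngP_v (F : Facts e) {D : ℝ} (hD : 0 < D) (hB : InjGE e D)
    (hdiam : ∀ p q : M, dist p q ≤ D) (b : Pr e D) : (ngP F hD hB hdiam b).v = b.v := rfl

@[simp] theorem ngP_w (F : Facts e) {D : ℝ} (hD : 0 < D) (hB : InjGE e D)
    (hdiam : ∀ p q : M, dist p q ≤ D) (b : Pr e D) : (ngP F hD hB hdiam b).w = ng b.w := rfl

theorem ngP_ngP (F : Facts e) {D : ℝ} (hD : 0 < D) (hB : InjGE e D)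
    (hdiam : ∀ p q : M, dist p q ≤ D) (b : Pr e D) :
    ngP F hD hB hdiam (ngP F hD hB hdiam b) = b := Pr.ext' rfl (ng_ng b.w)

/-- the field `Y` along the foot map of the pairs is smooth -/
def IsFldP {D : ℝ} (Y : Pr e D → E) : Prop :=
  (dPr e D).Map (dTM E M) (fun b => tb (foot b.v) (Y b))

/-- **The lift of the geodesic flow to the space of pairs, and the push-off.**
This is the interface between the index theory (which produces it) and the contraction. -/
structure PushL (F : Facts e) {D : ℝ} (hD : 0 < D) (hB : InjGE e D)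
    (hdiam : ∀ p q : M, dist p q ≤ D) (Lam : Pr e D × ℝ → Pr e D) (Y : Pr e D → E)
    (ε₀ : ℝ) : Prop where
  flow : IsFlow (dPr e D) (2 * D) Lam
  v : ∀ b t, (Lam (b, t)).v = phi F (b.v, t)
  neg : ∀ b t, Lam (ngP F hD hB hdiam b, t) = ngP F hD hB hdiam (Lam (b, t))
  half : ∀ b, Lam (b, D) = ngP F hD hB hdiam (Th F hD hB hdiam b)
  fld : IsFldP Y
  odd : ∀ b, Y (ngP F hD hB hdiam b) = -Y b
  sgn : ∀ b, 0 < ip (foot b.v) (Y b) (vec' b.w) +
    ip (foot (Lam (b, D)).v) (Y (Lam (b, D))) (vec' (Lam (b, D)).w)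
  pos : 0 < ε₀
  lenp : ∀ ε ∈ Ioc 0 ε₀, ∀ b, eVariationOn
    (fun t => e (foot (Lam (b, t)).v) (ε • Y (Lam (b, t)) : E)) (Icc 0 (2 * D)) <
      ENNReal.ofReal (2 * D)

end

end Vale.Agent.P231.H766
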