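import Vale.Agent.P231.H766.D4b
import Vale.Agent.P231.H766.PushL
import Vale.Agent.P231.H584.Side

/-!
# P231, stages 2 and 3: the transgression of the contraction is the transgression of the rotation
-/

set_option maxSynthPendingDepth 3
set_option linter.unusedSectionVars false
set_option linter.unusedVariables false

open Bundle Manifold Set Filter Module MeasureTheory
open scoped ContDiff Manifold Topology ENNReal

namespace Vale.Agent.P231.H766

noncomputable section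

open Vale.Agent.P234 Vale.Agent.P231 Vale.Agent.P231.Fm Vale.Agent.P231.W Vale.Agent.P231.WR
  Vale.Agent.P231.WF Vale.Agent.P231.H584

variable {E : Type*} [NormedAddCommGroup E] [NormedSpace ℝ E]
  {M : Type*} [MetricSpace M] [ChartedSpace E M]
  [RiemannianBundle (fun x : M => TangentSpace 𝓘(ℝ, E) x)]
  {e : ∀ x : M, TangentSpace 𝓘(ℝ, E) x → M}
  [FiniteDimensional ℝ E] [IsManifold 𝓘(ℝ, E) ∞ M]
  [IsContMDiffRiemannianBundle 𝓘(ℝ, E) ∞ E (fun x : M => TangentSpace 𝓘(ℝ, E) x)]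
  [CompactSpace M] [ConnectedSpace M] [IsRiemannianManifold 𝓘(ℝ, E) M]

variable {D : ℝ}

theorem map_ngP (F : Facts e) (hD : 0 < D) (hB : InjGE e D) (hdiam : ∀ p q : M, dist p q ≤ D) :
    (dPr e D).Map (dPr e D) (ngP F hD hB hdiam) := fun h => ⟨h.1, map_ng h.2⟩

/-- **the rotation integral, in two halves** -/
theorem J_R_eq (F : Facts e) (hD : 0 < D) (hB : InjGE e D) (hdiam : ∀ p q : M, dist p q ≤ D)
    (A : Form (dUT E M)) :
    J (R F hD hB hdiam) (isFlow_R F hD hB hdiam).map (2 * Real.pi) (Form.pull Pr.v map_v A) =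
      KT Real.pi (Form.pull (cv e D) (map_cv F hD hB hdiam) A) -
      Form.pull (ngP F hD hB hdiam) (map_ngP F hD hB hdiam)
        (KT Real.pi (Form.pull (cv e D) (map_cv F hD hB hdiam) A)) := by
  set w := Form.pull (cv e D) (map_cv F hD hB hdiam) A with hw
  have h1 : Form.pull (R F hD hB hdiam) (isFlow_R F hD hB hdiam).map (Form.pull Pr.v map_v A) =
      w := H584.pull_pull _ map_v (map_cv F hD hB hdiam) (fun p => rfl) A
  have hper : Form.pull (fun p : Pr e D × ℝ => (p.1, p.2 + 2 * Real.pi))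
      (H584.map_trans (2 * Real.pi)) w = w :=
    H584.pull_pull (H584.map_trans (2 * Real.pi)) (map_cv F hD hB hdiam)
      (map_cv F hD hB hdiam) (fun p => by
        refine mk_congr rfl ?_
        simp only [Real.cos_add_two_pi, Real.sin_add_two_pi]) A
  have h2 : Form.pull (ngP F hD hB hdiam) (map_ngP F hD hB hdiam) (KT Real.pi w) =
      KT (-Real.pi) w := by
    rw [KT, KT, ← K_nat (map_ngP F hD hB hdiam)]
    congr 1
    have hk : ((dPr e D).prod (Dif.lin ℝ)).Map (dUT E M) (fun p => rv p.1 (-Real.pi * p.2)) :=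
      fun h => map_cv F hD hB hdiam (map_scale (-Real.pi) h)
    have hk1 : ((dPr e D).prod (Dif.lin ℝ)).Map (dUT E M) (fun p => rv p.1 (Real.pi * p.2)) :=
      fun h => map_cv F hD hB hdiam (map_scale Real.pi h)
    refine Eq.trans ?_ (H584.pull_pull (map_scale (-Real.pi)) (map_cv F hD hB hdiam) hk
      (fun p => rfl) A).symm
    refine Eq.trans (congrArg (Form.pull _ (map_cyl (map_ngP F hD hB hdiam)))
      (H584.pull_pull (map_scale Real.pi) (map_cv F hD hB hdiam) hk1 (fun p => rfl) A)) ?_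
    refine H584.pull_pull (map_cyl (map_ngP F hD hB hdiam)) hk1 hk (fun p => ?_) A
    refine mk_congr rfl ?_
    simp only
    rw [neg_mul, Real.cos_neg, Real.sin_neg]
    have h3 : (vec' (ngP F hD hB hdiam p.1).w : E) = -vec' p.1.w := rfl
    have h4 : (vec' (ngP F hD hB hdiam p.1).v : E) = vec' p.1.v := rfl
    rw [h3, h4, smul_neg, neg_smul]
  rw [J_def, h1, h2, KT_halves hper]

section Main

variable {F : Facts e} {hD : 0 < D} {hB : InjGE e D} {hdiam : ∀ p q : M, dist p q ≤ D}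
  {Lam : Pr e D × ℝ → Pr e D} {Y : Pr e D → E} {ε₀ : ℝ}

theorem PushL.Th_eq (P : PushL F hD hB hdiam Lam Y ε₀) (b : Pr e D) :
    Th F hD hB hdiam b = ngP F hD hB hdiam (Lam (b, D)) := by
  rw [P.half, ngP_ngP]

theorem PushL.Th_Lam (P : PushL F hD hB hdiam Lam Y ε₀) (b : Pr e D) (t : ℝ) :
    Th F hD hB hdiam (Lam (b, t)) = Lam (Th F hD hB hdiam b, t) := by
  rw [P.Th_eq, P.Th_eq, P.neg, P.flow.add, P.flow.add, add_comm]

theorem Th_Th (F : Facts e) (hD : 0 < D) (hB : InjGE e D) (hdiam : ∀ p q : M, dist p q ≤ D)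
    (b : Pr e D) : Th F hD hB hdiam (Th F hD hB hdiam b) = b := by
  refine Pr.ext' ?_ ?_
  · rw [Th_v, Th_v, phi_add, ← two_mul, W.phi_per F hD hB hdiam]
  · rw [Th_w, Th_w, phi_add, ← two_mul, W.phi_per F hD hB hdiam]

/-- **The contraction over the space of pairs, and its transgression.** -/
theorem PushL.exists_g (P : PushL F hD hB hdiam Lam Y ε₀) {l : ℕ}
    (hP : ∀ x y : M, dist x y = D → finrank ℝ (H775.Pl e D x y) = l + 1) :
    ∃ (g : Pr e D × ℝ → M) (hg : ((dPr e D).prod (Dif.lin ℝ)).Map (dM E M) g),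
      (∀ b, g (b, 0) = foot b.v) ∧ (∀ b t, g (Lam (b, t), 1) = g (b, 1)) ∧
      ∀ G : Form (dM E M), G.d = 0 → ∃ l : Form (dPr e D),
        J Lam P.flow.map (2 * D) (Form.K (Form.pull g hg G)) =
          -KT Real.pi (Form.pull (cv e D) (map_cv F hD hB hdiam) (WR.B0 F D G)) + l.d := by
  obtain ⟨ε₁, hε₁, hA, hBd⟩ := apex_unif F hD hB hdiam (pc_Pr F hD hB hdiam hP) P.flow P.v P.half
    P.fld P.sgn
  obtain ⟨ε, hε, hε0, hε1⟩ : ∃ ε : ℝ, 0 < ε ∧ ε ≤ ε₀ ∧ ε ≤ ε₁ :=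
    ⟨min ε₀ ε₁, lt_min P.pos hε₁, min_le_left _ _, min_le_right _ _⟩
  have h2D : 0 < 2 * D := by linarith
  have hPm : ((dPr e D).prod (Dif.lin ℝ)).Map (dM E M)
      (fun p : Pr e D × ℝ => poP e Y p.2 p.1) := map_poP F P.fld
  have hC : (dPr e D).Map (dM E M) (fun b => poP e Y ε b) := map_at hPm ε
  obtain ⟨H, hH, h0, _, h1, hlen⟩ := uec_Pr F hD hB hdiam hP P.flow P.v hC
    (P.lenp ε ⟨hε, hε0⟩)
  have hH' : ((dPr e D).prod (Dif.lin ℝ)).Map (dM E M)
      (fun p : Pr e D × ℝ => (fun b u => H (b, u)) p.1 p.2) := hH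
  have hZ : (((dPr e D).prod (Dif.lin ℝ)).prod (Dif.lin ℝ)).Map (dM E M)
      (fun p : (Pr e D × ℝ) × ℝ => apx e Y p.1.1 p.1.2 p.2) := map_apx F P.fld
  have h0' : ∀ b u, u ≤ 0 → (fun b u => H (b, u)) b u =
      (fun p : Pr e D × ℝ => poP e Y p.2 p.1) (b, ε) := h0
  set γ := gg (fun p : Pr e D × ℝ => poP e Y p.2 p.1) ε (fun b u => H (b, u)) with hγdef
  have hγ : ((dPr e D).prod (Dif.lin ℝ)).Map (dM E M) γ := gg_map hPm hH' h0'
  set ap := apP (fun p : (Pr e D × ℝ) × ℝ => apx e Y p.1.1 p.1.2 p.2) γ (D / 2) ε with hapdef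
  have hap : ((dPr e D).prod (Dif.lin ℝ)).Map (dM E M) ap :=
    apP_map hZ hPm hH' h0' (fun b => apx_zero_left Y b ε)
  have hγ0 : ∀ b, γ (b, 0) = foot b.v := fun b => (gg_zero b).trans (poP_zero F Y b)
  have hγ1 : ∀ b t, γ (Lam (b, t), 1) = γ (b, 1) := fun b t => by
    rw [hγdef, gg_one, gg_one]
    exact h1 b t
  have hap0 : ∀ b, ap (b, 0) = gm e (b.w, D / 2) := fun b =>
    (apP_zero b).trans ((apx_zero_right Y b (D / 2)).trans (e_foot_w b (D / 2)))
  have hdist : ∀ b t r, dist (ap (b, r)) (γ (Lam (b, t), r)) < D := by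
    intro b t r
    refine apP_dist (δ := D) P.flow h2D hε (by linarith) h0' (fun b u => ?_)
      (fun b s hs t => hA ε ⟨hε, hε1⟩ b s hs t)
      (fun ε₁' h1' ε₂' h2' b t => hBd ε₁' ⟨h1'.1, h1'.2.trans hε1⟩ ε₂'
        ⟨h2'.1, h2'.2.trans hε1⟩ b t) b t r
    refine (hlen b u).trans_le (le_of_eq ?_)
    rw [ENNReal.ofReal_mul zero_le_two, ENNReal.ofReal_ofNat]
  refine ⟨γ, hγ, hγ0, hγ1, fun G hG => ?_⟩
  have hc : (((dPr e D).prod (Dif.lin ℝ)).prod (Dif.lin ℝ)).Map (dM E M)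
      (fun p => WD3.gG e (ap (p.1.1, 0)) (γ (Lam p.1, 0)) p.2) :=
    fun {E'} _ _ _ {u x} h => (WD3.geoM F hB).smooth
      (map_at hap 0 h.1.1) (map_at hγ 0 (P.flow.map h.1)) h.2 (hdist (u x).1.1 (u x).1.2 0)
  obtain ⟨l₁, hl₁⟩ := transg_cone (WD3.geoM F hB) hG P.flow hγ hap hdist hγ1 hc
  have efun : (fun p : (Pr e D × ℝ) × ℝ => WD3.gG e (ap (p.1.1, 0)) (γ (Lam p.1, 0)) p.2) =
      fun p => WD3.gG e (gm e (p.1.1.w, D / 2)) (gm e (p.1.1.v, p.1.2)) p.2 := by
    funext p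
    rw [hap0, hγ0, P.v, foot_phi]
  have hc' : (((dPr e D).prod (Dif.lin ℝ)).prod (Dif.lin ℝ)).Map (dM E M)
      (fun p => WD3.gG e (gm e (p.1.1.w, D / 2)) (gm e (p.1.1.v, p.1.2)) p.2) := by
    rw [← efun]
    exact hc
  obtain ⟨l₂, hl₂⟩ := cone_geo F hD hB hdiam hG hc'
  have e3 : Form.pull (fun p : (Pr e D × ℝ) × ℝ =>
      (WD3.geoM F hB).G (ap (p.1.1, 0)) (γ (Lam p.1, 0)) p.2) hc G =
      Form.pull (fun p => WD3.gG e (gm e (p.1.1.w, D / 2)) (gm e (p.1.1.v, p.1.2)) p.2) hc' G :=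
    Form.pull_congr _ _ efun G
  refine ⟨l₁ - l₂, ?_⟩
  rw [hl₁, e3, hl₂, Form.d_sub]
  abel

/-- **block D4 of the higher multiplicity case: `b₁ = - b₀` up to an exact form** -/
theorem PushL.exists_b1 (P : PushL F hD hB hdiam Lam Y ε₀) {l : ℕ}
    (hP : ∀ x y : M, dist x y = D → finrank ℝ (H775.Pl e D x y) = l + 1) :
    ∃ (g : Pr e D × ℝ → M) (hg : ((dPr e D).prod (Dif.lin ℝ)).Map (dM E M) g),
      (∀ b, g (b, 0) = foot b.v) ∧ (∀ b t, g (Lam (b, t), 1) = g (b, 1)) ∧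
      ∀ G : Form (dM E M), G.d = 0 → ∃ l : Form (dPr e D),
        J Lam P.flow.map (2 * D) (Form.K (Form.pull g hg G) -
          Form.pull (Th F hD hB hdiam) (map_Th F hD hB hdiam) (Form.K (Form.pull g hg G))) =
        (-1 : ℝ) • J (R F hD hB hdiam) (isFlow_R F hD hB hdiam).map (2 * Real.pi)
          (Form.pull Pr.v map_v (WR.B0 F D G)) + l.d := by
  obtain ⟨g, hg, hg0, hg1, hl⟩ := P.exists_g hP
  refine ⟨g, hg, hg0, hg1, fun G hG => ?_⟩
  obtain ⟨m, hm⟩ := hl G hG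
  set X := Form.K (Form.pull g hg G) with hX
  set h' := KT Real.pi (Form.pull (cv e D) (map_cv F hD hB hdiam) (WR.B0 F D G)) with hh'
  set ρ := ngP F hD hB hdiam with hρ
  -- the transported transgression
  have e1 : J Lam P.flow.map (2 * D) (Form.pull (Th F hD hB hdiam) (map_Th F hD hB hdiam) X) =
      Form.pull (Th F hD hB hdiam) (map_Th F hD hB hdiam) (J Lam P.flow.map (2 * D) X) :=
    (pull_J P.flow.map P.flow.map (map_Th F hD hB hdiam) P.Th_Lam (2 * D) X).symm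
  have e2 : Form.pull (Th F hD hB hdiam) (map_Th F hD hB hdiam) (J Lam P.flow.map (2 * D) X) =
      Form.pull ρ (map_ngP F hD hB hdiam) (J Lam P.flow.map (2 * D) X) := by
    have hbas : Basic Lam P.flow.map
        (Form.pull ρ (map_ngP F hD hB hdiam) (J Lam P.flow.map (2 * D) X)) := by
      rw [pull_J P.flow.map P.flow.map (map_ngP F hD hB hdiam)
        (fun b t => (P.neg b t).symm) (2 * D) X]
      exact J_basic P.flow _
    have e3 := congrArg (at_ D) hbas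
    rw [at_pr, at_pull_of P.flow.map D] at e3
    rw [← e3]
    exact (H584.pull_pull (map_at P.flow.map D) (map_ngP F hD hB hdiam)
      (map_Th F hD hB hdiam) (fun b => (P.Th_eq b).symm) _).symm
  refine ⟨m - Form.pull ρ (map_ngP F hD hB hdiam) m, ?_⟩
  rw [J_sub, e1, e2, hm, J_R_eq]
  have e4 : Form.pull ρ (map_ngP F hD hB hdiam) (-h' + m.d) =
      -Form.pull ρ (map_ngP F hD hB hdiam) h' + (Form.pull ρ (map_ngP F hD hB hdiam) m).d := by
    rw [← Form.pull_d]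
    have h1 := map_add (Form.pullA ρ (map_ngP F hD hB hdiam)) (-h') m.d
    have h2 := map_neg (Form.pullA ρ (map_ngP F hD hB hdiam)) h'
    rw [h2] at h1
    exact h1
  rw [e4, Form.d_sub, neg_one_smul]
  abel

end Main

end

end Vale.Agent.P231.H766
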