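import Vale.Agent.P231.H766.Apx3
import Vale.Agent.P231.H766.Kap1
import Vale.Agent.P231.H766.Stk

/-!
# P231, stages 2 and 3: the contraction over the space of pairs and the path of the apex
-/

set_option maxSynthPendingDepth 3
set_option linter.unusedSectionVars false
set_option linter.unusedVariables false

open Bundle Manifold Set Filter Module MeasureTheory
open scoped ContDiff Manifold Topology ENNReal

namespace Vale.Agent.P231.H766

noncomputable section

open Vale.Agent.P234 Vale.Agent.P231 Vale.Agent.P231.Fm Vale.Agent.P231.W Vale.Agent.P231.WR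
  Vale.Agent.P231.WF

/-! ### abstract part: the path of the apex -/

section Abs

variable {B M : Type*} {DB : Dif B} [MetricSpace M] {DM : Dif M} {T : ℝ}

/-- the first step function of the path of the apex -/
def b3 (r : ℝ) : ℝ := Real.smoothTransition (15 * (r - 1 / 3))

/-- the second step function of the path of the apex -/
def b4 (r : ℝ) : ℝ := Real.smoothTransition (15 * (r - 2 / 5))

theorem b3_contDiff : ContDiff ℝ ∞ b3 :=
  Real.smoothTransition.contDiff.comp (contDiff_const.mul (contDiff_id.sub contDiff_const))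

theorem b4_contDiff : ContDiff ℝ ∞ b4 :=
  Real.smoothTransition.contDiff.comp (contDiff_const.mul (contDiff_id.sub contDiff_const))

theorem b3_mem (r : ℝ) : b3 r ∈ Icc (0 : ℝ) 1 :=
  ⟨Real.smoothTransition.nonneg _, Real.smoothTransition.le_one _⟩

theorem b4_mem (r : ℝ) : b4 r ∈ Icc (0 : ℝ) 1 :=
  ⟨Real.smoothTransition.nonneg _, Real.smoothTransition.le_one _⟩

theorem b3_zero {r : ℝ} (h : r ≤ 1 / 3) : b3 r = 0 :=
  Real.smoothTransition.zero_of_nonpos (by linarith)

theorem b3_one {r : ℝ} (h : 2 / 5 ≤ r) : b3 r = 1 :=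
  Real.smoothTransition.one_of_one_le (by linarith)

theorem b4_zero {r : ℝ} (h : r ≤ 2 / 5) : b4 r = 0 :=
  Real.smoothTransition.zero_of_nonpos (by linarith)

theorem b4_one {r : ℝ} (h : 7 / 15 ≤ r) : b4 r = 1 :=
  Real.smoothTransition.one_of_one_le (by linarith)

/-- the path of the apex -/
def apP (Z : (B × ℝ) × ℝ → M) (γ : B × ℝ → M) (S ε : ℝ) (p : B × ℝ) : M :=
  if p.2 < 12 / 25 then Z ((p.1, S * (1 - b4 p.2)), ε * b3 p.2) else γ p

variable {Z : (B × ℝ) × ℝ → M} {P : B × ℝ → M} {S ε : ℝ} {H : B → ℝ → M}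

theorem apP_map (hZ : ((DB.prod (Dif.lin ℝ)).prod (Dif.lin ℝ)).Map DM Z)
    (hP : (DB.prod (Dif.lin ℝ)).Map DM P) (hH : (DB.prod (Dif.lin ℝ)).Map DM fun p => H p.1 p.2)
    (h0 : ∀ b u, u ≤ 0 → H b u = P (b, ε)) (hz : ∀ b, Z ((b, 0), ε) = P (b, ε)) :
    (DB.prod (Dif.lin ℝ)).Map DM (apP Z (gg P ε H) S ε) := by
  intro E _ _ _ u x hu
  have hu2 : ContinuousAt (fun y => (u y).2) x := Sm.continuousAt hu.2
  have hs2 : Sm (fun y => (u y).2) x := hu.2
  by_cases hx : (u x).2 < 12 / 25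
  · have h1 : DM.At (fun y => Z (((u y).1, S * (1 - b4 (u y).2)), ε * b3 (u y).2)) x := by
      refine hZ (u := fun y => (((u y).1, S * (1 - b4 (u y).2)), ε * b3 (u y).2))
        ⟨⟨hu.1, ?_⟩, ?_⟩
      · exact Sm.comp (f := fun s : ℝ => S * (1 - b4 s)) (g := fun y => (u y).2)
          (Sm.of_contDiff (contDiff_const.mul (contDiff_const.sub b4_contDiff)) _) hs2
      · exact Sm.comp (f := fun s : ℝ => ε * b3 s) (g := fun y => (u y).2)
          (Sm.of_contDiff (contDiff_const.mul b3_contDiff) _) hs2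
    refine DM.congr h1 ?_
    filter_upwards [hu2.eventually_lt_const hx] with y hy
    exact (if_pos hy).symm
  · have h1 : DM.At (fun y => gg P ε H (u y)) x := gg_map hP hH h0 hu
    refine DM.congr h1 ?_
    have hx' : 7 / 15 < (u x).2 := by linarith [not_lt.1 hx]
    filter_upwards [hu2.eventually_const_lt hx'] with y hy
    change gg P ε H (u y) = apP Z (gg P ε H) S ε (u y)
    unfold apP
    split_ifs with h
    · rw [b4_one hy.le, b3_one (by linarith), sub_self, mul_zero, mul_one, hz]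
      have h3 := gg_gt (ε := ε) (P := P) (H := H) h0 (b := (u y).1) (s := (u y).2) (by linarith)
      rw [h0 _ _ (by linarith)] at h3
      exact h3
    · rfl

theorem apP_zero (b : B) : apP Z (gg P ε H) S ε (b, 0) = Z ((b, S), 0) := by
  unfold apP
  rw [if_pos (by norm_num), b4_zero (by norm_num), b3_zero (by norm_num)]
  simp

/-- the path of the apex stays at distance less than `δ` -/
theorem apP_dist {δ : ℝ} {Λ : B × ℝ → B} (hΛ : IsFlow DB T Λ) (hT : 0 < T) (hε : 0 < ε)
    (hS : 0 ≤ S)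
    (h0 : ∀ b u, u ≤ 0 → H b u = P (b, ε))
    (hlen : ∀ b u, eVariationOn (fun t => H (Λ (b, t)) u) (Icc 0 T) < 2 * ENNReal.ofReal δ)
    (hA : ∀ b, ∀ s ∈ Icc 0 S, ∀ t, dist (Z ((b, s), ε)) (P (Λ (b, t), ε)) < δ)
    (hB : ∀ ε₁ ∈ Icc 0 ε, ∀ ε₂ ∈ Icc 0 ε, ∀ b t, dist (Z ((b, S), ε₁)) (P (Λ (b, t), ε₂)) < δ)
    (b : B) (t r : ℝ) : dist (apP Z (gg P ε H) S ε (b, r)) (gg P ε H (Λ (b, t), r)) < δ := by
  have hmul : ∀ c ∈ Icc (0 : ℝ) 1, ε * c ∈ Icc 0 ε := fun c hc =>
    ⟨mul_nonneg hε.le hc.1, by simpa using mul_le_mul_of_nonneg_left hc.2 hε.le⟩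
  unfold apP
  split_ifs with h
  · rw [gg_lt (by simp only at h; linarith)]
    rcases le_total r (2 / 5) with h1 | h1
    · simp only
      rw [b4_zero h1, sub_zero, mul_one]
      exact hB _ (hmul _ (b3_mem r)) _ (hmul _ (stp_mem _)) b t
    · simp only
      rw [b3_one h1, mul_one, stp_of_ge (by linarith), mul_one]
      have h2 := b4_mem r
      refine hA b _ ⟨mul_nonneg hS (by linarith [h2.2]), ?_⟩ t
      have : S * (1 - b4 r) ≤ S * 1 := mul_le_mul_of_nonneg_left (by linarith [h2.1]) hS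
      linarith
  · have h1 : (1 : ℝ) / 3 < r := by simp only at h; linarith [not_lt.1 h]
    rw [gg_gt h0 h1, gg_gt h0 h1]
    have hp : Function.Periodic (fun t => Λ (b, t)) T := fun t => by
      change Λ (b, t + T) = Λ (b, t)
      rw [← hΛ.add, hΛ.per]
    obtain ⟨t', ht', h2⟩ := hp.exists_mem_Ico₀ hT t
    change Λ (b, t) = Λ (b, t') at h2
    rw [h2]
    have h3 := dist_lt_of_var (c := fun t => H (Λ (b, t)) (2 * r - 1)) (D := δ) (T := T)
      (by simp only [hΛ.per, hΛ.zero]) (hlen b _) ⟨ht'.1, ht'.2.le⟩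
    simp only [hΛ.zero] at h3
    exact h3

end Abs

end

end Vale.Agent.P231.H766
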