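import Vale.Agent.P231.H766.D4a

/-!
# P231, stages 2 and 3: the half sphere of a pair, seen from the middle of the second geodesic
-/

set_option maxSynthPendingDepth 3
set_option linter.unusedSectionVars false
set_option linter.unusedVariables false

open Bundle Manifold Set Filter Module MeasureTheory
open scoped ContDiff Manifold Topology ENNReal

namespace Vale.Agent.P231.H766

noncomputable section

open Vale.Agent.P234 Vale.Agent.P231 Vale.Agent.P231.Fm Vale.Agent.P231.W Vale.Agent.P231.WR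
  Vale.Agent.P231.WF Vale.Agent.P231.H584

variable {E : Type*} [NormedAddCommGroup E] [NormedSpace ℝ E]
  {M : Type*} [MetricSpace M] [ChartedSpace E M]
  [RiemannianBundle (fun x : M => TangentSpace 𝓘(ℝ, E) x)]
  {e : ∀ x : M, TangentSpace 𝓘(ℝ, E) x → M}
  [FiniteDimensional ℝ E] [IsManifold 𝓘(ℝ, E) ∞ M]
  [IsContMDiffRiemannianBundle 𝓘(ℝ, E) ∞ E (fun x : M => TangentSpace 𝓘(ℝ, E) x)]
  [CompactSpace M] [ConnectedSpace M] [IsRiemannianManifold 𝓘(ℝ, E) M]

variable {D : ℝ}

/-- the points of the half sphere are close to its middle -/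
theorem dist_half (F : Facts e) (hD : 0 < D) (hB : InjGE e D) (hdiam : ∀ p q : M, dist p q ≤ D)
    (b : Pr e D) {θ : ℝ} (hθ : θ ∈ Icc 0 Real.pi) {t : ℝ} (ht : t ∈ Icc 0 D) :
    dist (gm e (b.w, D / 2)) (gm e (rv b θ, t)) < D := by
  have huL : (tt (foot b.v) (vec' (rv b θ))) ∈ Lk e D (foot (phi F (b.v, D))) (foot b.v) :=
    ⟨nm_vec' (rv b θ), bar_rv F hD hB hdiam b θ⟩
  have hwL : (tt (foot b.v) (vec' b.w)) ∈ Lk e D (foot (phi F (b.v, D))) (foot b.v) :=
    ⟨nm_w b, (e_foot_w b D).trans b.isL.bar_eq⟩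
  have hip : ip (foot b.v) (vec' (rv b θ)) (vec' b.w) = Real.sin θ := by
    rw [vec'_rv, ip_comm', ip_add_right', ip_smul_right', ip_smul_right', ip_w_w,
      ip_comm' _ (vec' b.w), b.isL.orth]
    ring
  have h0 : e (foot b.v) ((D / 2) • vec' b.w : E) = gm e (b.w, D / 2) := e_foot_w b _
  rw [← h0]
  by_cases h1 : tt (foot b.v) (vec' b.w) = tt (foot b.v) (vec' (rv b θ))
  · have h2 : gm e (rv b θ, t) = e (foot b.v) (t • vec' b.w : E) := by
      have h3 : (t • vec' (rv b θ) : E) = t • vec' b.w := congrArg (t • ·) h1.symm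
      exact congrArg (e (foot b.v)) h3
    rw [h2]
    have h3 := dist_exp_le F.isExp (foot b.v) (tt (foot b.v) (vec' b.w)) (D / 2) t
    have h4 : ‖tt (foot b.v) (vec' b.w)‖ = 1 := nm_w b
    rw [h4, mul_one] at h3
    refine h3.trans_lt ?_
    rw [abs_lt]
    constructor <;> linarith [ht.1, ht.2]
  · refine WD1.lemD F hD hB hdiam huL hwL h1 ?_ (by linarith) (by linarith) t
    intro h2
    have h3 : (vec' (rv b θ) : E) = (-1 : ℝ) • vec' b.w := by
      have h4 : (vec' b.w : E) = -vec' (rv b θ) := h2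
      rw [h4, neg_one_smul, neg_neg]
    rw [h3, ip_smul_left', ip_w_w] at hip
    have := Real.sin_nonneg_of_mem_Icc hθ
    linarith

/-- the half sphere of a pair -/
def dsc (e : ∀ x : M, TangentSpace 𝓘(ℝ, E) x → M) (D : ℝ) (q : (Pr e D × ℝ) × ℝ) : M :=
  gm e (rv q.1.1 (Real.pi * stp q.1.2), D * stp q.2)

theorem dsc_dist (F : Facts e) (hD : 0 < D) (hB : InjGE e D) (hdiam : ∀ p q : M, dist p q ≤ D)
    (b : Pr e D) (θ τ : ℝ) : dist (gm e (b.w, D / 2)) (dsc e D ((b, θ), τ)) < D := by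
  have h1 := stp_mem θ
  have h2 := stp_mem τ
  refine dist_half F hD hB hdiam b ⟨mul_nonneg Real.pi_pos.le h1.1, ?_⟩
    ⟨mul_nonneg hD.le h2.1, ?_⟩
  · simpa using mul_le_mul_of_nonneg_left h1.2 Real.pi_pos.le
  · simpa using mul_le_mul_of_nonneg_left h2.2 hD.le

theorem stp_zero : stp 0 = 0 := stp_of_le (by norm_num)

theorem stp_one : stp 1 = 1 := stp_of_ge (by norm_num)

theorem cβ (c : ℝ) : ContDiff ℝ ∞ fun s : ℝ => c * stp s := contDiff_const.mul stp_contDiff

/-- the circle, reparametrised -/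
theorem map_cvs (F : Facts e) (hD : 0 < D) (hB : InjGE e D) (hdiam : ∀ p q : M, dist p q ≤ D) :
    ((dPr e D).prod (Dif.lin ℝ)).Map (dUT E M) (fun p => rv p.1 (Real.pi * stp p.2)) :=
  fun h => map_cv F hD hB hdiam (map_rep (cβ Real.pi) h)

theorem map_gms (F : Facts e) :
    ((dUT E M).prod (Dif.lin ℝ)).Map (dM E M) (fun p => gm e (p.1, D * stp p.2)) :=
  fun h => map_gm F (map_rep (cβ D) h)

theorem map_dsc (F : Facts e) (hD : 0 < D) (hB : InjGE e D) (hdiam : ∀ p q : M, dist p q ≤ D) :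
    (((dPr e D).prod (Dif.lin ℝ)).prod (Dif.lin ℝ)).Map (dM E M) (dsc e D) :=
  fun h => map_gms F (map_cyl (map_cvs F hD hB hdiam) h)

theorem dsc_zero (b : Pr e D) (τ : ℝ) : dsc e D ((b, 0), τ) = gm e (b.v, D * stp τ) := by
  unfold dsc
  rw [stp_zero, mul_zero, rv_zero]

theorem dsc_one (F : Facts e) (hD : 0 < D) (hB : InjGE e D) (hdiam : ∀ p q : M, dist p q ≤ D)
    (b : Pr e D) (τ : ℝ) : dsc e D ((b, 1), τ) = gm e (b.v, 2 * D - D * stp τ) := by
  unfold dsc
  have h1 : rv b (Real.pi * stp 1) = ng b.v := by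
    rw [stp_one, mul_one]
    refine mk_congr rfl ?_
    rw [Real.cos_pi, Real.sin_pi]
    module
  rw [h1, gm_ng]
  have h2 : gm e (b.v, 2 * D - D * stp τ) = gm e (phi F (b.v, 2 * D), -(D * stp τ)) := by
    rw [gm_phi]
    congr 2
  rw [h2, W.phi_per F hD hB hdiam]

/-- **the integral over the half spheres** -/
theorem KK_dsc (F : Facts e) (hD : 0 < D) (hB : InjGE e D) (hdiam : ∀ p q : M, dist p q ≤ D)
    (G : Form (dM E M)) :
    Form.K (Form.K (Form.pull (dsc e D) (map_dsc F hD hB hdiam) G)) =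
      KT Real.pi (Form.pull (cv e D) (map_cv F hD hB hdiam) (WR.B0 F D G)) := by
  have h1 : Form.K (Form.pull (dsc e D) (map_dsc F hD hB hdiam) G) =
      Form.pull (fun p : Pr e D × ℝ => rv p.1 (Real.pi * stp p.2)) (map_cvs F hD hB hdiam)
        (WR.B0 F D G) := by
    have h2 : WR.B0 F D G = Form.K (Form.pull (fun p : UT E M × ℝ => gm e (p.1, D * stp p.2))
        (map_gms F) G) := by
      rw [WR.B0, ← K_rep_KT (cβ D) (by rw [stp_zero, mul_zero]) (c := D)
        (by rw [stp_one, mul_one])]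
      congr 1
      exact H584.pull_pull (map_rep (cβ D)) (map_gm F) (map_gms F) (fun p => rfl) G
    rw [h2, ← K_nat (map_cvs F hD hB hdiam)]
    congr 1
    exact (H584.pull_pull (map_cyl (map_cvs F hD hB hdiam)) (map_gms F) (map_dsc F hD hB hdiam)
      (fun p => rfl) G).symm
  rw [h1, ← K_rep_KT (cβ Real.pi) (by rw [stp_zero, mul_zero]) (c := Real.pi)
    (by rw [stp_one, mul_one])]
  congr 1
  exact (H584.pull_pull (map_rep (cβ Real.pi)) (map_cv F hD hB hdiam) (map_cvs F hD hB hdiam)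
    (fun p => rfl) _).symm

/-- **the cone over the geodesic loops, seen from the middle of the second geodesic** -/
theorem cone_geo (F : Facts e) (hD : 0 < D) (hB : InjGE e D) (hdiam : ∀ p q : M, dist p q ≤ D)
    {G : Form (dM E M)} (hG : G.d = 0)
    (hc : (((dPr e D).prod (Dif.lin ℝ)).prod (Dif.lin ℝ)).Map (dM E M)
      (fun p => WD3.gG e (gm e (p.1.1.w, D / 2)) (gm e (p.1.1.v, p.1.2)) p.2)) :
    ∃ l : Form (dPr e D), KT (2 * D) (Form.K (Form.pull
      (fun p => WD3.gG e (gm e (p.1.1.w, D / 2)) (gm e (p.1.1.v, p.1.2)) p.2) hc G)) =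
      KT Real.pi (Form.pull (cv e D) (map_cv F hD hB hdiam) (WR.B0 F D G)) + l.d := by
  have hγ : ((dPr e D).prod (Dif.lin ℝ)).Map (dM E M) (fun p => gm e (p.1.v, p.2)) :=
    fun h => map_gm F (map_cyl map_v h)
  have hz : (dPr e D).Map (dM E M) (fun b => gm e (b.w, D / 2)) := fun h =>
    map_at (map_gm F) (D / 2) (map_w h)
  have hβ' : ContDiff ℝ ∞ fun s : ℝ => 2 * D - D * stp s := contDiff_const.sub (cβ D)
  have hx : (dPr e D).Map (dM E M) (fun b => foot b.v) := fun h => map_foot (map_v h)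
  have hy : (dPr e D).Map (dM E M) (fun b => bar e D b.v) := fun h => (map_bar F D) (map_v h)
  obtain ⟨l, hl⟩ := cone_disc_form (WD3.geoM F hB) hG hγ hz
    (fun b t => by
      rw [← e_foot_w]
      exact lt_of_pos F hD hB hdiam b (by linarith) le_rfl t)
    (map_dsc F hD hB hdiam) (dsc_dist F hD hB hdiam) (cβ D) hβ' (T := 2 * D)
    (by rw [stp_zero, mul_zero]) (by rw [stp_zero, mul_zero, sub_zero])
    (by rw [stp_one]; ring) dsc_zero (dsc_one F hD hB hdiam) hx hy
    (fun b θ => by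
      unfold dsc
      rw [stp_zero, mul_zero, gm_zero F]
      rfl)
    (fun b θ => by
      unfold dsc
      rw [stp_one, mul_one]
      exact bar_rv F hD hB hdiam b _) hc
  exact ⟨l, by rw [← KK_dsc F hD hB hdiam G]; exact hl⟩

end

end Vale.Agent.P231.H766
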