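import Vale.Agent.P231.WF.Top

/-!
# P231, stages 2 and 3: diffeological spaces covered by finitely many compact pieces
-/

open Set Filter Topology
open scoped ContDiff

namespace Vale.Agent.P231.H766

noncomputable section

open Vale.Agent.P231.Fm

variable {X : Type*}

/-- a set contained in the image of a compact set under a plot -/
def Piece (D : Dif X) (P : Set X) : Prop :=
  ∃ (E : Type) (_ : NormedAddCommGroup E) (_ : NormedSpace ℝ E) (_ : FiniteDimensional ℝ E)
    (c : E → X) (K : Set E), IsCompact K ∧ (∀ z ∈ K, D.At c z) ∧ P ⊆ c '' K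

/-- the space is covered by finitely many such sets -/
def PC (D : Dif X) : Prop :=
  ∃ T : Set (Set X), T.Finite ∧ (∀ P ∈ T, Piece D P) ∧ ⋃₀ T = univ

/-- **uniformity** over a space covered by finitely many pieces and a compact parameter space -/
theorem PC.eventually {D : Dif X} (h : PC D) {Y Z : Type*} [TopologicalSpace Y]
    [TopologicalSpace Z] {y₀ : Y} {L : Set Z} (hL : IsCompact L) {P : Y → X → Z → Prop}
    (hP : ∀ (E : Type) [NormedAddCommGroup E] [NormedSpace ℝ E] [FiniteDimensional ℝ E]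
      (c : E → X) (z : E), D.At c z → ∀ y ∈ L,
        ∀ᶠ p : Y × (E × Z) in 𝓝 (y₀, (z, y)), P p.1 (c p.2.1) p.2.2) :
    ∀ᶠ y in 𝓝 y₀, ∀ x : X, ∀ z ∈ L, P y x z := by
  obtain ⟨T, hT, hp, hu⟩ := h
  have h1 : ∀ S ∈ T, ∀ᶠ y in 𝓝 y₀, ∀ x ∈ S, ∀ z ∈ L, P y x z := by
    intro S hS
    obtain ⟨E, _, _, _, c, K, hK, hc, hSK⟩ := hp S hS
    have h2 : ∀ᶠ y in 𝓝 y₀, ∀ q ∈ K ×ˢ L, (fun (y : Y) (q : E × Z) => P y (c q.1) q.2) y q := by
      refine (hK.prod hL).eventually_forall_of_forall_eventually fun q hq => ?_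
      exact hP E c q.1 (hc _ hq.1) q.2 hq.2
    filter_upwards [h2] with y hy x hx z hz
    obtain ⟨k, hk, rfl⟩ := hSK hx
    exact hy (k, z) ⟨hk, hz⟩
  have h3 := (eventually_all_finite hT).2 h1
  filter_upwards [h3] with y hy x z hz
  have hx : x ∈ ⋃₀ T := by rw [hu]; exact mem_univ x
  obtain ⟨S, hS, hxS⟩ := hx
  exact hy S hS x hxS z hz

/-- the coarsest topology for which the smooth functions are continuous -/
@[reducible] def topF (D : Dif X) : TopologicalSpace X :=
  ⨅ F : {F : X → ℂ // D.Map (Dif.lin ℂ) F}, TopologicalSpace.induced F.1 inferInstance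

theorem continuous_topF {D : Dif X} {F : X → ℂ} (hF : D.Map (Dif.lin ℂ) F) :
    @Continuous _ _ (topF D) _ F := by
  let := topF D
  exact continuous_iInf_dom (i := (⟨F, hF⟩ : {F : X → ℂ // D.Map (Dif.lin ℂ) F}))
    continuous_induced_dom

theorem PC.compactSpace {D : Dif X} (h : PC D) : @CompactSpace X (topF D) := by
  let := topF D
  obtain ⟨T, hT, hp, hu⟩ := h
  have h1 : ∀ S : T, ∃ K : Set X, IsCompact K ∧ S.1 ⊆ K := by
    rintro ⟨S, hS⟩
    obtain ⟨E, _, _, _, c, K, hK, hc, hSK⟩ := hp S hS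
    refine ⟨c '' K, hK.image_of_continuousOn fun z hz => ?_, hSK⟩
    refine ContinuousAt.continuousWithinAt ?_
    have h2 : 𝓝 (c z) = ⨅ F : {F : X → ℂ // D.Map (Dif.lin ℂ) F}, comap F.1 (𝓝 (F.1 (c z))) := by
      rw [nhds_iInf]
      simp only [nhds_induced]
    change Tendsto c (𝓝 z) (𝓝 (c z))
    rw [h2, tendsto_iInf]
    intro F
    rw [tendsto_comap_iff]
    exact Sm.continuousAt (F.2 (hc z hz))
  choose K hK hSK using h1
  have : Finite T := hT
  refine ⟨?_⟩
  have h2 : (univ : Set X) = ⋃ S : T, K S := by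
    refine (eq_univ_of_forall fun x => ?_).symm
    have hx : x ∈ ⋃₀ T := by rw [hu]; exact mem_univ x
    obtain ⟨S, hS, hxS⟩ := hx
    exact mem_iUnion.2 ⟨⟨S, hS⟩, hSK _ hxS⟩
  rw [h2]
  exact isCompact_iUnion hK

end

end Vale.Agent.P231.H766
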