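import Vale.Agent.P231.H766.PC
import Vale.Agent.P231.WR.Proj

/-!
# P231, stages 2 and 3: the space of pairs is covered by finitely many compact pieces
-/

set_option maxSynthPendingDepth 3
set_option linter.unusedSectionVars false
set_option linter.unusedVariables false

open Bundle Manifold Set Filter Module
open scoped ContDiff Manifold Topology

namespace Vale.Agent.P231.H766

noncomputable section

open Vale.Agent.P234 Vale.Agent.P231 Vale.Agent.P231.Fm Vale.Agent.P231.W Vale.Agent.P231.WR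
  Vale.Agent.P231.WF

variable {E : Type*} [NormedAddCommGroup E] [NormedSpace ℝ E]
  {M : Type*} [MetricSpace M] [ChartedSpace E M]
  [RiemannianBundle (fun x : M => TangentSpace 𝓘(ℝ, E) x)]
  {e : ∀ x : M, TangentSpace 𝓘(ℝ, E) x → M}
  [FiniteDimensional ℝ E] [IsManifold 𝓘(ℝ, E) ∞ M]
  [IsContMDiffRiemannianBundle 𝓘(ℝ, E) ∞ E (fun x : M => TangentSpace 𝓘(ℝ, E) x)]
  [CompactSpace M] [ConnectedSpace M] [IsRiemannianManifold 𝓘(ℝ, E) M]

/-- the vectors with coordinates `a` in a frame -/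
def sumW {l : ℕ} (fr : Fin l → UT E M) (a : Fin l → ℝ) : E := ∑ i, a i • vec' (fr i)

theorem ip_sumW {D : ℝ} {l : ℕ} {v : UT E M} {fr : Fin l → UT E M} (h : IsLF e D v fr)
    (a : Fin l → ℝ) (j : Fin l) : ip (foot v) (vec' (fr j)) (sumW fr a) = a j := by
  unfold sumW
  rw [ip_sum_right]
  rw [Finset.sum_eq_single j]
  · rw [ip_smul_right', (h.isL j).ip_self, mul_one]
  · intro i _ hij
    rw [ip_smul_right', h.orth j i (Ne.symm hij), mul_zero]
  · intro hj
    exact absurd (Finset.mem_univ j) hj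

theorem ip_sumW_self {D : ℝ} {l : ℕ} {v : UT E M} {fr : Fin l → UT E M} (h : IsLF e D v fr)
    (a : Fin l → ℝ) : ip (foot v) (sumW fr a) (sumW fr a) = ∑ i, a i ^ 2 := by
  have h1 : ip (foot v) (sumW fr a) (sumW fr a) =
      ∑ i, ip (foot v) (a i • vec' (fr i)) (sumW fr a) := by
    conv_lhs => arg 2; unfold sumW
    rw [ip_sum_left]
  rw [h1]
  refine Finset.sum_congr rfl fun i _ => ?_
  rw [ip_smul_left', ip_sumW h, sq]

theorem sumW_mem {D : ℝ} {l : ℕ} {v : UT E M} {fr : Fin l → UT E M} (h : IsLF e D v fr)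
    (a : Fin l → ℝ) : (sumW (E := E) fr a : TangentSpace 𝓘(ℝ, E) (foot v)) ∈ Lf e D v := by
  have h1 : (sumW (E := E) fr a : TangentSpace 𝓘(ℝ, E) (foot v)) =
      ∑ i, a i • (vec' (E := E) (fr i) : TangentSpace 𝓘(ℝ, E) (foot v)) := rfl
  rw [h1]
  exact Submodule.sum_mem _ fun i _ => Submodule.smul_mem _ _ (h.isL i).mem_Lf

theorem isL_sumW (F : Facts e) {D : ℝ} (hD : 0 < D) (hB : InjGE e D)
    (hdiam : ∀ p q : M, dist p q ≤ D) {l : ℕ} {v : UT E M} {fr : Fin l → UT E M}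
    (h : IsLF e D v fr) {a : Fin l → ℝ} (ha : ∑ i, a i ^ 2 = 1) :
    ∃ w : UT E M, IsL e D v w ∧ vec' w = sumW fr a := by
  have hn : nm (foot v) (sumW fr a) = 1 := nm_eq_one (by rw [ip_sumW_self h, ha])
  exact ⟨W.mk (foot v) (sumW fr a) hn, (isL_iff F hD hB hdiam hn).1 (sumW_mem h a), rfl⟩

/-- a vector of `L_v` in a frame -/
theorem sumW_ip (F : Facts e) {D : ℝ} (hD : 0 < D) (hB : InjGE e D)
    (hdiam : ∀ p q : M, dist p q ≤ D) {l : ℕ}
    (hP : ∀ x y : M, dist x y = D → finrank ℝ (H775.Pl e D x y) = l + 1) {v w : UT E M}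
    {fr : Fin l → UT E M} (h : IsLF e D v fr) (hw : IsL e D v w) :
    sumW fr (fun i => ip (foot v) (vec' (fr i)) (vec' w)) = vec' w := by
  have h1 := h.prL_eq F hD hB hdiam hP (vec' w)
  rw [prL_of_mem hw.mem_Lf] at h1
  exact h1.symm

/-- the pieces of the space of pairs over a point of the unit tangent bundle -/
theorem piece_Pr (F : Facts e) {D : ℝ} (hD : 0 < D) (hB : InjGE e D)
    (hdiam : ∀ p q : M, dist p q ≤ D) {l : ℕ}
    (hP : ∀ x y : M, dist x y = D → finrank ℝ (H775.Pl e D x y) = l + 1) (b₀ : Pr e D)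
    {E' : Type} [NormedAddCommGroup E'] [NormedSpace ℝ E'] [FiniteDimensional ℝ E']
    {c : E' → UT E M} {z₀ : E'} (hc : (dUT E M).At c z₀) :
    ∃ r > 0, Piece (dPr e D) {b | ∃ z ∈ Metric.closedBall z₀ r, c z = b.v} := by
  classical
  obtain ⟨fr₀, hfr₀⟩ := exists_isLF F hD hB hdiam hP (c z₀)
  obtain ⟨fr, h1, h2, h3⟩ := WR.exists_frame F hD hB hdiam hP hc hfr₀
  have h4 : ∀ᶠ z in 𝓝 z₀, (dUT E M).At c z ∧ (∀ i, (dUT E M).At (fr i) z) ∧
      IsLF e D (c z) (fun i => fr i z) := by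
    filter_upwards [(dUT E M).open' hc, eventually_all.2 fun i => (dUT E M).open' (h2 i), h3]
      with z a1 a2 a3
    exact ⟨a1, a2, a3⟩
  obtain ⟨r₀, hr₀, h5⟩ := Metric.eventually_nhds_iff.1 h4
  refine ⟨r₀ / 2, by positivity, ?_⟩
  have h6 : ∀ z ∈ Metric.closedBall z₀ (r₀ / 2), dist z z₀ < r₀ := fun z hz =>
    (Metric.mem_closedBall.1 hz).trans_lt (by linarith)
  have hfd : ProperSpace E' := FiniteDimensional.proper ℝ E'
  -- the plot
  let S : (Fin l → ℝ) → ℝ := fun a => ∑ i, a i ^ 2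
  let nrm : (Fin l → ℝ) → Fin l → ℝ := fun a i => a i / Real.sqrt (S a)
  have hnrm : ∀ a, S a ≠ 0 → ∑ i, nrm a i ^ 2 = 1 := by
    intro a ha
    have h7 : 0 ≤ S a := Finset.sum_nonneg fun i _ => sq_nonneg _
    have h8 : ∀ i, nrm a i ^ 2 = a i ^ 2 / S a := fun i => by
      simp only [nrm]
      rw [div_pow, Real.sq_sqrt h7]
    simp only [h8]
    rw [← Finset.sum_div]
    exact div_self ha
  let C : E' × (Fin l → ℝ) → Pr e D := fun p =>
    if h : IsLF e D (c p.1) (fun i => fr i p.1) ∧ S p.2 ≠ 0 then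
      ⟨(c p.1, (isL_sumW F hD hB hdiam h.1 (hnrm p.2 h.2)).choose),
        (isL_sumW F hD hB hdiam h.1 (hnrm p.2 h.2)).choose_spec.1⟩
    else b₀
  have hCv : ∀ p : E' × (Fin l → ℝ), IsLF e D (c p.1) (fun i => fr i p.1) → S p.2 ≠ 0 →
      (C p).v = c p.1 ∧ vec' (C p).w = sumW (fun i => fr i p.1) (nrm p.2) := by
    intro p g1 g2
    have g3 : C p = ⟨(c p.1, (isL_sumW F hD hB hdiam g1 (hnrm p.2 g2)).choose),
        (isL_sumW F hD hB hdiam g1 (hnrm p.2 g2)).choose_spec.1⟩ := dif_pos ⟨g1, g2⟩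
    rw [g3]
    exact ⟨rfl, (isL_sumW F hD hB hdiam g1 (hnrm p.2 g2)).choose_spec.2⟩
  have hSc : ContDiff ℝ ∞ S := by
    simp only [S]
    exact ContDiff.sum fun i _ => (contDiff_apply ℝ ℝ i).pow 2
  refine ⟨E' × (Fin l → ℝ), inferInstance, inferInstance, inferInstance, C,
    Metric.closedBall z₀ (r₀ / 2) ×ˢ {a | S a = 1}, ?_, ?_, ?_⟩
  · refine (isCompact_closedBall z₀ (r₀ / 2)).prod ?_
    refine Metric.isCompact_of_isClosed_isBounded (isClosed_eq hSc.continuous continuous_const) ?_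
    refine (Metric.isBounded_closedBall (x := (0 : Fin l → ℝ)) (r := 1)).subset fun a ha => ?_
    rw [mem_closedBall_zero_iff, pi_norm_le_iff_of_nonneg zero_le_one]
    intro i
    have g1 : a i ^ 2 ≤ S a := Finset.single_le_sum (f := fun i => a i ^ 2)
      (fun i _ => sq_nonneg _) (Finset.mem_univ i)
    have g2 : S a = 1 := ha
    rw [Real.norm_eq_abs]
    exact abs_le_one_iff_mul_self_le_one.2 (by nlinarith)
  · rintro ⟨z, a⟩ ⟨hz, ha⟩
    have ha1 : S a = 1 := ha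
    obtain ⟨g1, g2, g3⟩ := h5 (h6 z hz)
    have hev : ∀ᶠ p : E' × (Fin l → ℝ) in 𝓝 (z, a),
        IsLF e D (c p.1) (fun i => fr i p.1) ∧ S p.2 ≠ 0 := by
      have k1 : ∀ᶠ y in 𝓝 z, IsLF e D (c y) (fun i => fr i y) := by
        have : ∀ᶠ y in 𝓝 z, dist y z₀ < r₀ :=
          (continuous_id.dist continuous_const).continuousAt.eventually_lt_const (h6 z hz)
        filter_upwards [this] with y hy using (h5 hy).2.2
      have k2 : ∀ᶠ b in 𝓝 a, S b ≠ 0 :=
        hSc.continuous.continuousAt.eventually_ne (by rw [ha1]; exact one_ne_zero)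
      have k3 : Tendsto (Prod.fst : E' × (Fin l → ℝ) → E') (𝓝 (z, a)) (𝓝 z) := continuousAt_fst
      have k4 : Tendsto (Prod.snd : E' × (Fin l → ℝ) → (Fin l → ℝ)) (𝓝 (z, a)) (𝓝 a) :=
        continuousAt_snd
      exact (k3.eventually k1).and (k4.eventually k2)
    have hz1 : (dUT E M).At (fun p : E' × (Fin l → ℝ) => c p.1) (z, a) :=
      (dUT E M).comp (u := c) (g := Prod.fst) (x := (z, a)) g1 (Sm.of_contDiff contDiff_fst _)
    have hz2 : ∀ i, (dUT E M).At (fun p : E' × (Fin l → ℝ) => fr i p.1) (z, a) := fun i =>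
      (dUT E M).comp (u := fr i) (g := Prod.fst) (x := (z, a)) (g2 i)
        (Sm.of_contDiff contDiff_fst _)
    have hCe : ∀ᶠ p in 𝓝 (z, a), (C p).v = c p.1 ∧
        vec' (C p).w = sumW (fun i => fr i p.1) (nrm p.2) := by
      filter_upwards [hev] with p hp using hCv p hp.1 hp.2
    refine ⟨?_, ?_⟩
    · refine (dUT E M).congr hz1 ?_
      filter_upwards [hCe] with p hp using hp.1.symm
    · have hco : ∀ i, Sm (fun p : E' × (Fin l → ℝ) => nrm p.2 i) (z, a) := by
        intro i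
        have k1 : ∀ᶠ p : E' × (Fin l → ℝ) in 𝓝 (z, a), 0 < S p.2 := by
          have : ContinuousAt (fun p : E' × (Fin l → ℝ) => S p.2) (z, a) :=
            (hSc.continuous.comp continuous_snd).continuousAt
          exact this.eventually_const_lt (by
            change 0 < S a
            rw [ha1]
            exact one_pos)
        filter_upwards [k1] with p hp
        have k2 : ContDiffAt ℝ ∞ (fun p : E' × (Fin l → ℝ) => S p.2) p :=
          (hSc.comp contDiff_snd).contDiffAt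
        have k3 : ContDiffAt ℝ ∞ (fun p : E' × (Fin l → ℝ) => p.2 i) p :=
          ((contDiff_apply ℝ ℝ i).comp contDiff_snd).contDiffAt
        exact k3.div (k2.sqrt hp.ne') (Real.sqrt_pos.2 hp).ne'
      refine at_sum (u := fun p : E' × (Fin l → ℝ) => c p.1)
        (W := fun i p => fr i p.1) hz1 hz2 (fun i => ?_) (c := fun i p => nrm p.2 i) hco ?_
      · filter_upwards [hev] with p hp using (hp.1.isL i).foot_eq
      · filter_upwards [hCe] with p hp
        refine ⟨?_, hp.2⟩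
        rw [← hp.1]
        exact (C p).isL.foot_eq
  · rintro b ⟨z, hz, hzb⟩
    obtain ⟨g1, g2, g3⟩ := h5 (h6 z hz)
    rw [hzb] at g3
    let a : Fin l → ℝ := fun i => ip (foot b.v) (vec' (fr i z)) (vec' b.w)
    have ha : sumW (fun i => fr i z) a = vec' b.w := sumW_ip F hD hB hdiam hP g3 b.isL
    have hS : S a = 1 := by
      have k1 := ip_sumW_self g3 a
      rw [ha, b.isL.ip_self] at k1
      exact k1.symm
    refine ⟨(z, a), ⟨hz, hS⟩, ?_⟩
    have k2 := hCv (z, a) (by rw [hzb]; exact g3) (by rw [hS]; exact one_ne_zero)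
    have k3 : nrm a = a := by
      funext i
      simp only [nrm, hS, Real.sqrt_one, div_one]
    simp only [k3] at k2
    refine Pr.ext' (k2.1.trans hzb) ?_
    rw [ha] at k2
    rw [← mk_eta (C (z, a)).w, ← mk_eta b.w]
    refine mk_congr ?_ k2.2
    rw [(C (z, a)).isL.foot_eq, b.isL.foot_eq, k2.1, hzb]

/-- **the space of pairs is covered by finitely many compact pieces** -/
theorem pc_Pr (F : Facts e) {D : ℝ} (hD : 0 < D) (hB : InjGE e D)
    (hdiam : ∀ p q : M, dist p q ≤ D) {l : ℕ}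
    (hP : ∀ x y : M, dist x y = D → finrank ℝ (H775.Pl e D x y) = l + 1) : PC (dPr e D) := by
  classical
  rcases isEmpty_or_nonempty (Pr e D) with hne | ⟨⟨b₀⟩⟩
  · refine ⟨∅, finite_empty, fun P hP => absurd hP (by simp), ?_⟩
    exact (eq_univ_of_forall fun b => (hne.false b).elim)
  let t := topUT E M
  have hcomp : CompactSpace (UT E M) := compactSpace_UT
  have h1 : ∀ v₀ : UT E M, ∃ N ∈ 𝓝 v₀, Piece (dPr e D) {b | b.v ∈ N} := by
    intro v₀
    obtain ⟨F', _, _, _, c, s, h2, h3, h4⟩ := locSec_dUT (E := E) (M := M) v₀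
    obtain ⟨r, hr, h5⟩ := piece_Pr F hD hB hdiam hP b₀ h2
    refine ⟨{v | s v ∈ Metric.closedBall (s v₀) r ∧ c (s v) = v}, ?_, ?_⟩
    · exact Filter.inter_mem (h3 (Metric.closedBall_mem_nhds _ hr)) h4
    · obtain ⟨V, _, _, _, C, K, k1, k2, k3⟩ := h5
      refine ⟨V, inferInstance, inferInstance, inferInstance, C, K, k1, k2, fun b hb => k3 ?_⟩
      exact ⟨s b.v, hb.1, hb.2⟩
  choose N hN hp using h1
  obtain ⟨T, hT⟩ := CompactSpace.elim_nhds_subcover N hN
  refine ⟨(fun v₀ => {b : Pr e D | b.v ∈ N v₀}) '' (T : Set (UT E M)),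
    (T.finite_toSet).image _, ?_, ?_⟩
  · rintro P ⟨v₀, -, rfl⟩
    exact hp v₀
  · refine eq_univ_of_forall fun b => ?_
    have h6 : b.v ∈ ⋃ x ∈ T, N x := by rw [hT]; exact mem_univ _
    obtain ⟨v₀, h7, h8⟩ := mem_iUnion₂.1 h6
    exact ⟨_, ⟨v₀, h7, rfl⟩, h8⟩

end

end Vale.Agent.P231.H766
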