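import Vale.Agent.P231.H766.SL1
import Vale.Agent.P231.H766.PushL
import Vale.Agent.P231.WF.UecUT

/-!
# P231, stages 2 and 3: the equivariant contraction on the space of pairs
-/

set_option maxSynthPendingDepth 3
set_option linter.unusedSectionVars false
set_option linter.unusedVariables false

open Bundle Manifold Set Filter Module MeasureTheory
open scoped ContDiff Manifold Topology ENNReal

namespace Vale.Agent.P231.H766

noncomputable section

open Vale.Agent.P234 Vale.Agent.P231 Vale.Agent.P231.Fm Vale.Agent.P231.W Vale.Agent.P231.WR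
  Vale.Agent.P231.WF

variable {E : Type*} [NormedAddCommGroup E] [NormedSpace ℝ E]
  {M : Type*} [MetricSpace M] [ChartedSpace E M]
  [RiemannianBundle (fun x : M => TangentSpace 𝓘(ℝ, E) x)]
  {e : ∀ x : M, TangentSpace 𝓘(ℝ, E) x → M}
  [FiniteDimensional ℝ E] [IsManifold 𝓘(ℝ, E) ∞ M]
  [IsContMDiffRiemannianBundle 𝓘(ℝ, E) ∞ E (fun x : M => TangentSpace 𝓘(ℝ, E) x)]
  [CompactSpace M] [ConnectedSpace M] [IsRiemannianManifold 𝓘(ℝ, E) M]

/-- the circle action of a lift of the geodesic flow, rescaled to period one -/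
def actPr {D : ℝ} {Lam : Pr e D × ℝ → Pr e D} (h : IsFlow (dPr e D) (2 * D) Lam) :
    CAct (dPr e D) where
  φ b t := Lam (b, 2 * D * t)
  smooth := fun {E'} _ _ _ {u x} hu => h.map (map_scale (D := dPr e D) (2 * D) hu)
  zero b := by rw [mul_zero, h.zero]
  add b s t := by rw [h.add, mul_add]
  per b := by rw [mul_one, h.per]

/-- separation by Fourier coefficients -/
theorem fou_ne_Pr (F : Facts e) {D : ℝ} (hD : 0 < D) (hB : InjGE e D)
    (hdiam : ∀ p q : M, dist p q ≤ D) {Lam : Pr e D × ℝ → Pr e D}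
    (h : IsFlow (dPr e D) (2 * D) Lam) (hv : ∀ b t, (Lam (b, t)).v = phi F (b.v, t))
    (b : Pr e D) : ∃ f : Pr e D → ℝ, (dPr e D).Map (Dif.lin ℝ) f ∧ fou (actPr h) f b ≠ 0 := by
  obtain ⟨f, h1, h2⟩ := fou_ne F hD hB hdiam b.v
  refine ⟨fun b => f b.v, fun {E'} _ _ _ {u x} hu => h1 (map_v hu), ?_⟩
  have h3 : fou (actPr h) (fun b => f b.v) b = fou (actUT F hD hB hdiam) f b.v := by
    unfold fou
    refine intervalIntegral.integral_congr fun t _ => ?_
    change (f (Lam (b, 2 * D * t)).v : ℂ) * _ = (f (phi F (b.v, 2 * D * t)) : ℂ) * _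
    rw [hv]
  rw [h3]
  exact h2

/-- **Equivariant contraction over the space of pairs.** -/
theorem uec_Pr (F : Facts e) {D : ℝ} (hD : 0 < D) (hB : InjGE e D)
    (hdiam : ∀ p q : M, dist p q ≤ D) {l : ℕ}
    (hP : ∀ x y : M, dist x y = D → finrank ℝ (H775.Pl e D x y) = l + 1)
    {Lam : Pr e D × ℝ → Pr e D} (h : IsFlow (dPr e D) (2 * D) Lam)
    (hv : ∀ b t, (Lam (b, t)).v = phi F (b.v, t)) {C : Pr e D → M}
    (hC : (dPr e D).Map (dM E M) C)
    (hlen : ∀ b, eVariationOn (fun t => C (Lam (b, t))) (Icc 0 (2 * D)) <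
      ENNReal.ofReal (2 * D)) :
    ∃ H : Pr e D × ℝ → M, ((dPr e D).prod (Dif.lin ℝ)).Map (dM E M) H ∧
      (∀ b u, u ≤ 0 → H (b, u) = C b) ∧ (∀ b u, 1 ≤ u → H (b, u) = H (b, 1)) ∧
      (∀ b t, H (Lam (b, t), 1) = H (b, 1)) ∧
      (∀ b u, eVariationOn (fun t => H (Lam (b, t), u)) (Icc 0 (2 * D)) <
        ENNReal.ofReal (2 * D)) := by
  let t := topF (dPr e D)
  have hcomp : CompactSpace (Pr e D) := (pc_Pr F hD hB hdiam hP).compactSpace
  have h2D : 0 < 2 * D := by positivity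
  have hA : ∀ (b : Pr e D) (t : ℝ), (actPr h).φ b t = Lam (b, 2 * D * t) := fun b t => rfl
  have hvar : ∀ (K : Pr e D → M) (b : Pr e D),
      eVariationOn (fun t => K ((actPr h).φ b t)) (Icc 0 1) =
        eVariationOn (fun t => K (Lam (b, t))) (Icc 0 (2 * D)) := fun K b =>
    var_scale (fun t => K (Lam (b, t))) h2D
  obtain ⟨H, h1, h2, h3, h4, h5, h6⟩ := uec (A := actPr h)
    (fun G hG => continuous_topF hG)
    (fun b => fou_ne_Pr F hD hB hdiam h hv b) (WD3.geoM F hB) hC (by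
      intro b
      rw [hvar]
      refine (hlen b).trans_le (le_of_eq ?_)
      rw [ENNReal.ofReal_mul zero_le_two, ENNReal.ofReal_ofNat])
  have hscale : ∀ t : ℝ, 2 * D * (t / (2 * D)) = t := fun t => by
    field_simp
  refine ⟨fun p => H p.1 p.2, h1, h2, h3, fun b t => ?_, fun b u => ?_⟩
  · have h7 := h4 b (t / (2 * D))
    rw [hA, hscale] at h7
    exact h7
  · have h7 := h5 b u
    rw [hvar C, hvar fun w => H w u] at h7
    exact h7.trans_lt (hlen b)

end

end Vale.Agent.P231.H766
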