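import Vale.Agent.P231.Fm.Dif2

/-!
# P231, equivariant contraction of short loops (A): variation of periodic loops, flat steps
-/

open Set Filter Topology
open scoped ContDiff ENNReal

namespace Vale.Agent.P231.H766

/-! ### the flat step -/

/-- a smooth step, constant near `(-∞, 0]` and near `[1, ∞)` -/
noncomputable def stp (x : ℝ) : ℝ := Real.smoothTransition (3 * x - 1)

theorem stp_contDiff : ContDiff ℝ ∞ stp :=
  Real.smoothTransition.contDiff.comp ((contDiff_const.mul contDiff_id).sub contDiff_const)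

theorem stp_of_le {x : ℝ} (h : x ≤ 1 / 3) : stp x = 0 :=
  Real.smoothTransition.zero_of_nonpos (by linarith)

theorem stp_of_ge {x : ℝ} (h : 2 / 3 ≤ x) : stp x = 1 :=
  Real.smoothTransition.one_of_one_le (by linarith)

theorem stp_nonneg (x : ℝ) : 0 ≤ stp x := Real.smoothTransition.nonneg _

theorem stp_le_one (x : ℝ) : stp x ≤ 1 := Real.smoothTransition.le_one _

theorem stp_mono : Monotone stp := fun x y h =>
  Real.smoothTransition.monotone (by linarith)

/-! ### variation of periodic maps -/

variable {M : Type*} [PseudoEMetricSpace M]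

/-- the variation over one period does not depend on the starting point -/
theorem var_period {c : ℝ → M} (hc : ∀ t, c (t + 1) = c t) (a : ℝ) :
    eVariationOn c (Icc a (a + 1)) = eVariationOn c (Icc 0 1) := by
  have hper : Function.Periodic c 1 := hc
  have key : ∀ (p q : ℝ) (n : ℤ), eVariationOn c (Icc (p + n) (q + n)) =
      eVariationOn c (Icc p q) := by
    intro p q n
    have h1 : c ∘ (fun x : ℝ => x + n) = c := by
      funext x
      have := hper.int_mul n x
      simpa using this
    have h2 : (fun x : ℝ => x + n) '' Icc p q = Icc (p + n) (q + n) := by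
      simp
    rw [← h2, ← eVariationOn.comp_eq_of_monotoneOn c (t := Icc p q) (fun x : ℝ => x + n)
      (fun x _ y _ h => by simpa using h), h1]
  obtain ⟨n, r, hr0, hr1, ha⟩ : ∃ (n : ℤ) (r : ℝ), 0 ≤ r ∧ r ≤ 1 ∧ a = r + n :=
    ⟨⌊a⌋, Int.fract a, Int.fract_nonneg a, (Int.fract_lt_one a).le, (Int.fract_add_floor a).symm⟩
  have h1 : Icc a (a + 1) = Icc (r + n) ((r + 1) + n) := by
    rw [ha]
    ring_nf
  rw [h1, key]
  have h2 : eVariationOn c (Icc r (r + 1)) =
      eVariationOn c (Icc r 1) + eVariationOn c (Icc 1 (r + 1)) := by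
    have := eVariationOn.Icc_add_Icc c (s := univ) (a := r) (b := 1) (c := r + 1) hr1
      (by linarith) (mem_univ _)
    simpa using this.symm
  have h3 : eVariationOn c (Icc (0 : ℝ) 1) =
      eVariationOn c (Icc 0 r) + eVariationOn c (Icc r 1) := by
    have := eVariationOn.Icc_add_Icc c (s := univ) (a := 0) (b := r) (c := 1) hr0
      hr1 (mem_univ _)
    simpa using this.symm
  have h4 : eVariationOn c (Icc (1 : ℝ) (r + 1)) = eVariationOn c (Icc 0 r) := by
    have := key 0 r 1
    simpa using this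
  rw [h2, h3, h4, add_comm]

/-- reparametrisation of a periodic map by a monotone map of degree one -/
theorem var_reparam {c : ℝ → M} (hc : ∀ t, c (t + 1) = c t) {m : ℝ → ℝ} {a : ℝ}
    (hm : MonotoneOn m (Icc a (a + 1))) (hm1 : m (a + 1) = m a + 1) :
    eVariationOn (fun t => c (m t)) (Icc a (a + 1)) ≤ eVariationOn c (Icc 0 1) := by
  rw [← var_period hc (m a)]
  refine eVariationOn.comp_le_of_monotoneOn c m hm fun t ht => ?_
  have h1 : a ≤ a + 1 := by linarith
  refine ⟨hm (left_mem_Icc.2 h1) ht ht.1, ?_⟩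
  rw [← hm1]
  exact hm ht (right_mem_Icc.2 h1) ht.2

/-- splitting the interval `[0, 1]` -/
theorem var_split (c : ℝ → M) {s : ℝ} (h0 : 0 ≤ s) (h1 : s ≤ 1) :
    eVariationOn c (Icc 0 1) = eVariationOn c (Icc 0 s) + eVariationOn c (Icc s 1) := by
  have := eVariationOn.Icc_add_Icc c (s := univ) (a := 0) (b := s) (c := 1) h0 h1 (mem_univ _)
  simpa using this.symm

/-- in a loop of variation less than `2 D` all distances from the base point are less than `D` -/
theorem edist_lt_of_var {c : ℝ → M} (hc : c 1 = c 0) {D : ℝ≥0∞}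
    (h : eVariationOn c (Icc 0 1) < 2 * D) {s : ℝ} (h0 : 0 ≤ s) (h1 : s ≤ 1) :
    edist (c 0) (c s) < D := by
  have e1 : edist (c 0) (c s) ≤ eVariationOn c (Icc 0 s) :=
    eVariationOn.edist_le c ⟨le_rfl, h0⟩ ⟨h0, le_rfl⟩
  have e2 : edist (c 0) (c s) ≤ eVariationOn c (Icc s 1) := by
    have := eVariationOn.edist_le c (s := Icc s 1) (x := 1) (y := s) ⟨h1, le_rfl⟩ ⟨le_rfl, h1⟩
    rwa [hc] at this
  rw [var_split c h0 h1] at h
  by_contra h2
  push Not at h2
  have : 2 * D ≤ eVariationOn c (Icc 0 s) + eVariationOn c (Icc s 1) := by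
    rw [two_mul]
    exact add_le_add (h2.trans e1) (h2.trans e2)
  exact absurd h (not_lt.2 this)

end Vale.Agent.P231.H766
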