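import Vale.Agent.P231.H766.Uec2

/-!
# P231, equivariant contraction of short loops (C): equivariant functions, the two substages
-/

open Set Filter Topology
open scoped ContDiff ENNReal

namespace Vale.Agent.P231.H766

open Vale.Agent.P231.Fm

variable {B : Type*} {DB : Dif B} (A : CAct DB)

/-! ### the monotone staircase -/

/-- the flat staircase of degree one -/
noncomputable def bet (t : ℝ) : ℝ := ⌊t⌋ + stp (2 * Int.fract t - 1)

theorem bet_add_int (t : ℝ) (n : ℤ) : bet (t + n) = bet t + n := by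
  rw [bet, bet, Int.floor_add_intCast, Int.fract_add_intCast]
  push_cast
  ring

theorem bet_mono : Monotone bet := by
  intro s t h
  rcases (Int.floor_mono h).lt_or_eq with h1 | h1
  · have h2 : (⌊s⌋ : ℝ) + 1 ≤ ⌊t⌋ := by exact_mod_cast h1
    have h3 := stp_le_one (2 * Int.fract s - 1)
    have h4 := stp_nonneg (2 * Int.fract t - 1)
    rw [bet, bet]
    linarith
  · have h2 : Int.fract s ≤ Int.fract t := by
      rw [Int.fract, Int.fract, h1]
      linarith
    have h3 := stp_mono (show 2 * Int.fract s - 1 ≤ 2 * Int.fract t - 1 by linarith)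
    rw [bet, bet, h1]
    linarith

/-- the periodic displacement -/
noncomputable def dsp (t : ℝ) : ℝ := bet t - t

theorem dsp_add_int (t : ℝ) (n : ℤ) : dsp (t + n) = dsp t := by
  rw [dsp, dsp, bet_add_int]
  ring

theorem dsp_contDiff : ContDiff ℝ ∞ dsp := by
  rw [contDiff_iff_contDiffAt]
  intro x
  obtain ⟨n, hn⟩ : ∃ n : ℤ, n = ⌊x⌋ := ⟨_, rfl⟩
  have h0 : 0 ≤ x - n := by
    rw [hn]; exact sub_nonneg.2 (Int.floor_le _)
  have h1 : x - n < 1 := by
    rw [hn, sub_lt_iff_lt_add']; exact Int.lt_floor_add_one _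
  have hfl {y : ℝ} (h : 0 ≤ y - n) (h' : y - n < 1) : ⌊y⌋ = n := by
    rw [Int.floor_eq_iff]
    constructor <;> linarith
  have hc : ContinuousAt (fun y : ℝ => y - (n : ℝ)) x := (continuous_sub_right _).continuousAt
  rcases eq_or_lt_of_le h0 with h2 | h2
  · have e1 : ∀ᶠ y : ℝ in 𝓝 x, y - n < 1 / 12 :=
      hc.eventually_lt_const (show x - n < 1 / 12 by rw [← h2]; norm_num)
    have e2 : ∀ᶠ y : ℝ in 𝓝 x, -(1 / 12) < y - n :=
      hc.eventually_const_lt (show -(1 / 12) < x - n by rw [← h2]; norm_num)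
    have e : dsp =ᶠ[𝓝 x] fun y => n - y := by
      filter_upwards [e1, e2] with y h3 h4
      rcases le_or_gt 0 (y - n) with h5 | h5
      · rw [dsp, bet, Int.fract, hfl h5 (by linarith), stp_of_le (by linarith), add_zero]
      · have h6 : ⌊y⌋ = n - 1 := by
          rw [Int.floor_eq_iff]
          push_cast
          constructor <;> linarith
        have h7 : stp (2 * (y - ((n - 1 : ℤ) : ℝ)) - 1) = 1 :=
          stp_of_ge (by push_cast; linarith)
        rw [dsp, bet, Int.fract, h6, h7]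
        push_cast
        ring
    exact (contDiffAt_const.sub contDiffAt_id).congr_of_eventuallyEq e
  · have e1 : ∀ᶠ y : ℝ in 𝓝 x, y - n < 1 := hc.eventually_lt_const h1
    have e2 : ∀ᶠ y : ℝ in 𝓝 x, 0 < y - n := hc.eventually_const_lt h2
    have e : dsp =ᶠ[𝓝 x] fun y => n + stp (2 * (y - n) - 1) - y := by
      filter_upwards [e1, e2] with y h3 h4
      rw [dsp, bet, Int.fract, hfl h4.le h3]
    refine ContDiffAt.congr_of_eventuallyEq ?_ e
    refine (contDiffAt_const.add ?_).sub contDiffAt_id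
    refine stp_contDiff.contDiffAt.comp x ?_
    exact (contDiffAt_const.mul (contDiffAt_id.sub contDiffAt_const)).sub contDiffAt_const

/-! ### equivariant functions -/

/-- `F` rotates with the action -/
def Equi (F : B → ℂ) : Prop :=
  ∀ b (t : ℝ), F (A.φ b t) = Complex.exp ((2 * Real.pi * t : ℝ) * Complex.I) * F b

/-- `τ` is an angle of `z` -/
def Ang (z : ℂ) (τ : ℝ) : Prop :=
  z = ‖z‖ * Complex.exp ((2 * Real.pi * τ : ℝ) * Complex.I)

/-- the standard angle -/
noncomputable def ang (z : ℂ) : ℝ := Complex.arg z / (2 * Real.pi)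

theorem two_pi_ne : (2 * Real.pi : ℝ) ≠ 0 := by positivity

theorem Ang_ang (z : ℂ) : Ang z (ang z) := by
  rw [Ang, ang, mul_div_cancel₀ _ two_pi_ne]
  exact (Complex.norm_mul_exp_arg_mul_I z).symm

theorem Ang.unique {z : ℂ} (hz : z ≠ 0) {τ τ' : ℝ} (h : Ang z τ) (h' : Ang z τ') :
    ∃ n : ℤ, τ = τ' + n := by
  rw [Ang] at h h'
  have h1 : (‖z‖ : ℂ) ≠ 0 := by simpa using hz
  have h2 := mul_left_cancel₀ h1 (h.symm.trans h')
  obtain ⟨n, hn⟩ := Complex.exp_eq_exp_iff_exists_int.1 h2
  refine ⟨n, ?_⟩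
  have h3 : ((2 * Real.pi * τ : ℝ) : ℂ) * Complex.I =
      ((2 * Real.pi * (τ' + n) : ℝ) : ℂ) * Complex.I := by
    rw [hn]
    push_cast
    ring
  have h4 := mul_right_cancel₀ Complex.I_ne_zero h3
  have h5 : 2 * Real.pi * τ = 2 * Real.pi * (τ' + n) := by exact_mod_cast h4
  exact mul_left_cancel₀ two_pi_ne h5

variable {A}

theorem Equi.norm {F : B → ℂ} (hF : Equi A F) (b : B) (t : ℝ) : ‖F (A.φ b t)‖ = ‖F b‖ := by
  rw [hF b t, norm_mul, Complex.norm_exp_ofReal_mul_I, one_mul]

theorem Equi.ang {F : B → ℂ} (hF : Equi A F) {b : B} {τ : ℝ} (h : Ang (F b) τ) (t : ℝ) :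
    Ang (F (A.φ b t)) (τ + t) := by
  rw [Ang, hF.norm, hF b t]
  conv_lhs => rw [h]
  rw [mul_add, Complex.ofReal_add, add_mul, Complex.exp_add]
  ring

/-- smooth branches of the angle -/
theorem exists_branch {E : Type} [NormedAddCommGroup E] [NormedSpace ℝ E] {f : E → ℂ} {x : E}
    (hf : Sm f x) (hx : f x ≠ 0) : ∃ τ : E → ℝ, Sm τ x ∧ ∀ᶠ y in 𝓝 x, Ang (f y) (τ y) := by
  set w : ℂ := (f x)⁻¹ with hw
  have hw0 : w ≠ 0 := inv_ne_zero hx
  have h1 : Sm (fun y => f y * w) x := by
    filter_upwards [hf] with y hy using hy.mul contDiffAt_const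
  have h2 : ∀ᶠ y in 𝓝 x, f y * w ∈ Complex.slitPlane := by
    refine h1.continuousAt.eventually (Complex.isOpen_slitPlane.mem_nhds ?_)
    change f x * w ∈ _
    rw [hw, mul_inv_cancel₀ hx]
    exact Complex.one_mem_slitPlane
  have h3 : Sm (fun y => Complex.arg (f y * w)) x := by
    filter_upwards [h1, h2] with y hy hy2
    have e1 : ContDiffAt ℝ ∞ Complex.log (f y * w) :=
      (Complex.contDiffAt_log hy2).restrict_scalars ℝ
    have e2 : ContDiffAt ℝ ∞ (fun z => Complex.log (f z * w)) y :=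
      ContDiffAt.comp (g := Complex.log) (f := fun z => f z * w) y e1 hy
    have e3 : ContDiffAt ℝ ∞ (fun z => Complex.imCLM (Complex.log (f z * w))) y :=
      ContDiffAt.comp (g := Complex.imCLM) (f := fun z => Complex.log (f z * w)) y
        Complex.imCLM.contDiff.contDiffAt e2
    refine e3.congr_of_eventuallyEq (Eventually.of_forall fun z => ?_)
    change Complex.arg (f z * w) = (Complex.log (f z * w)).im
    rw [Complex.log_im]
  refine ⟨fun y => Complex.arg (f y * w) / (2 * Real.pi) + ang (f x), ?_, ?_⟩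
  · filter_upwards [h3] with y hy
    exact (hy.div_const _).add contDiffAt_const
  · filter_upwards with y
    have e1 := Complex.norm_mul_exp_arg_mul_I (f y * w)
    have e2 := Complex.norm_mul_exp_arg_mul_I (f x)
    have e3 : ((2 * Real.pi * (Complex.arg (f y * w) / (2 * Real.pi) + ang (f x)) : ℝ) : ℂ) *
        Complex.I = (Complex.arg (f y * w) : ℂ) * Complex.I + (Complex.arg (f x) : ℂ) * Complex.I := by
      rw [ang, mul_add, mul_div_cancel₀ _ two_pi_ne, mul_div_cancel₀ _ two_pi_ne]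
      push_cast
      ring
    rw [Ang, e3, Complex.exp_add]
    have hn : (‖f x‖ : ℂ) ≠ 0 := by simpa using hx
    rw [norm_mul] at e1
    have e4 : ‖w‖ = ‖f x‖⁻¹ := by rw [hw, norm_inv]
    rw [e4] at e1
    have e5 : f y = (f y * w) * f x := by
      rw [hw, mul_assoc, inv_mul_cancel₀ hx, mul_one]
    calc f y = (f y * w) * f x := e5
      _ = ((‖f y‖ * ‖f x‖⁻¹ : ℝ) * Complex.exp (Complex.arg (f y * w) * Complex.I)) *
          (‖f x‖ * Complex.exp (Complex.arg (f x) * Complex.I)) := by rw [e1, e2]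
      _ = _ := by
        push_cast
        field_simp

end Vale.Agent.P231.H766
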