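import Vale.Agent.P231.H766.Uec3

/-!
# P231, equivariant contraction of short loops (D): homotopies and one stage
-/

set_option linter.unusedSectionVars false
set_option linter.unusedVariables false

open Set Filter Topology
open scoped ContDiff ENNReal

namespace Vale.Agent.P231.H766

open Vale.Agent.P231.Fm

variable {B : Type*} {DB : Dif B} {A : CAct DB} {M : Type*} [MetricSpace M] {DM : Dif M}

/-- a homotopy from `C` to `C'` through maps whose loops have variation at most `V`,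
constant on `K` -/
def Hty (DM : Dif M) (A : CAct DB) (V : B → ℝ≥0∞) (K : B → Prop) (C C' : B → M) : Prop :=
  ∃ H : B → ℝ → M, (DB.prod (Dif.lin ℝ)).Map DM (fun p => H p.1 p.2) ∧
    (∀ b u, u ≤ 0 → H b u = C b) ∧ (∀ b u, 1 ≤ u → H b u = C' b) ∧
    (∀ b u, eVariationOn (fun t => H (A.φ b t) u) (Icc 0 1) ≤ V b) ∧
    (∀ b, K b → ∀ u, H b u = C b)

theorem Hty.mono {V V' : B → ℝ≥0∞} {K K' : B → Prop} {C C' : B → M}
    (h : Hty DM A V K C C') (hV : ∀ b, V b ≤ V' b) (hK : ∀ b, K' b → K b) :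
    Hty DM A V' K' C C' := by
  obtain ⟨H, h1, h2, h3, h4, h5⟩ := h
  exact ⟨H, h1, h2, h3, fun b u => (h4 b u).trans (hV b), fun b hb => h5 b (hK b hb)⟩

theorem Hty.refl {V : B → ℝ≥0∞} {K : B → Prop} {C : B → M} (hC : DB.Map DM C)
    (hV : ∀ b, eVariationOn (fun t => C (A.φ b t)) (Icc 0 1) ≤ V b) : Hty DM A V K C C :=
  ⟨fun b _ => C b, fun {E} _ _ _ {u x} h => hC h.1, fun _ _ _ => rfl, fun _ _ _ => rfl,
    fun b _ => hV b, fun _ _ _ => rfl⟩

theorem Hty.smooth_right {V : B → ℝ≥0∞} {K : B → Prop} {C C' : B → M}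
    (h : Hty DM A V K C C') : DB.Map DM C' := by
  obtain ⟨H, h1, h2, h3, h4, h5⟩ := h
  intro E _ _ _ u x hu
  have := h1 (u := fun y => (u y, (1 : ℝ))) (x := x)
    ⟨hu, Sm.of_contDiff contDiff_const x⟩
  refine DM.congr this (Eventually.of_forall fun y => ?_)
  exact h3 (u y) 1 le_rfl

theorem Hty.var_right {V : B → ℝ≥0∞} {K : B → Prop} {C C' : B → M}
    (h : Hty DM A V K C C') (b : B) : eVariationOn (fun t => C' (A.φ b t)) (Icc 0 1) ≤ V b := by
  obtain ⟨H, h1, h2, h3, h4, h5⟩ := h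
  have := h4 b 1
  simp only [h3 _ 1 le_rfl] at this
  exact this

theorem Hty.const_right {V : B → ℝ≥0∞} {K : B → Prop} {C C' : B → M}
    (h : Hty DM A V K C C') {b : B} (hb : K b) : C' b = C b := by
  obtain ⟨H, h1, h2, h3, h4, h5⟩ := h
  rw [← h3 b 1 le_rfl, h5 b hb]

theorem Hty.trans {V : B → ℝ≥0∞} {K : B → Prop} {C C₁ C₂ : B → M}
    (h : Hty DM A V K C C₁) (h' : Hty DM A V K C₁ C₂) : Hty DM A V K C C₂ := by
  have hc := fun b hb => h.const_right (b := b) hb
  obtain ⟨H, h1, h2, h3, h4, h5⟩ := h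
  obtain ⟨H', k1, k2, k3, k4, k5⟩ := h'
  have aff {E : Type} [NormedAddCommGroup E] [NormedSpace ℝ E] [FiniteDimensional ℝ E]
      {f : E → ℝ} {x : E} (hf : Sm f x) (p q : ℝ) : Sm (fun y => p * f y + q) x := by
    filter_upwards [hf] with y h1
    exact (contDiffAt_const.mul h1).add contDiffAt_const
  refine ⟨fun b u => if u < 1 / 2 then H b (3 * u) else H' b (3 * u + -2), ?_, ?_, ?_, ?_, ?_⟩
  · intro E _ _ _ w x hw
    have hv : Sm (fun y => (w y).2) x := hw.2
    rcases lt_or_ge (w x).2 (2 / 3) with h6 | h6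
    · have e : ∀ᶠ y in 𝓝 x, (w y).2 < 2 / 3 := hv.continuousAt.eventually_lt_const h6
      have h7 := h1 (u := fun y => ((w y).1, 3 * (w y).2 + 0)) (x := x) ⟨hw.1, aff hv 3 0⟩
      refine DM.congr h7 ?_
      filter_upwards [e] with y hy
      change H (w y).1 (3 * (w y).2 + 0) = ite _ _ _
      rw [add_zero]
      split_ifs with h8
      · rfl
      · rw [k2 _ _ (by linarith), h3 _ _ (by linarith)]
    · have e : ∀ᶠ y in 𝓝 x, 1 / 3 < (w y).2 :=
        hv.continuousAt.eventually_const_lt (by linarith : (1 : ℝ) / 3 < (w x).2)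
      have h7 := k1 (u := fun y => ((w y).1, 3 * (w y).2 + -2)) (x := x) ⟨hw.1, aff hv 3 (-2)⟩
      refine DM.congr h7 ?_
      filter_upwards [e] with y hy
      change H' (w y).1 (3 * (w y).2 + -2) = ite _ _ _
      split_ifs with h8
      · rw [k2 _ _ (by linarith), h3 _ _ (by linarith)]
      · rfl
  · intro b u hu
    simp only
    rw [if_pos (by linarith), h2 _ _ (by linarith)]
  · intro b u hu
    simp only
    rw [if_neg (by linarith), k3 _ _ (by linarith)]
  · intro b u
    simp only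
    split_ifs with h6
    · exact h4 b _
    · exact k4 b _
  · intro b hb u
    simp only
    split_ifs with h6
    · exact h5 b hb _
    · rw [k5 b hb _, hc b hb]

/-! ### one stage -/

section Stage

variable {D : ℝ} (g : Geo DM D) {F : B → ℂ} (hFs : DB.Map (Dif.lin ℂ) F) (hFe : Equi A F)
  {δ : ℝ} (hδ : 0 < δ) {C : B → M} (hC : DB.Map DM C)
  (hlen : ∀ b, eVariationOn (fun t => C (A.φ b t)) (Icc 0 1) < 2 * ENNReal.ofReal D)

/-- the size of `F` -/
noncomputable def siz (F : B → ℂ) (δ : ℝ) (b : B) : ℝ := ‖F b‖ ^ 2 / δ ^ 2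

noncomputable def chA (F : B → ℂ) (δ : ℝ) (b : B) : ℝ := stp (4 * siz F δ b)

noncomputable def chB (F : B → ℂ) (δ : ℝ) (b : B) : ℝ := stp (siz F δ b)

noncomputable def shf (F : B → ℂ) (δ : ℝ) (b : B) : ℝ := chA F δ b * dsp (ang (F b))

include hFe in
theorem siz_phi (b : B) (t : ℝ) : siz F δ (A.φ b t) = siz F δ b := by
  rw [siz, siz, hFe.norm]

include hFs in
theorem siz_smooth {E : Type} [NormedAddCommGroup E] [NormedSpace ℝ E] [FiniteDimensional ℝ E]
    {u : E → B} {x : E} (hu : DB.At u x) : Sm (fun y => siz F δ (u y)) x := by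
  have h1 : Sm (fun y => F (u y)) x := hFs hu
  filter_upwards [h1] with y hy
  have h2 : ContDiffAt ℝ ∞ (fun z : ℂ => ‖z‖ ^ 2) (F (u y)) := (contDiff_norm_sq ℝ).contDiffAt
  exact (ContDiffAt.comp (g := fun z : ℂ => ‖z‖ ^ 2) y h2 hy).div_const _

theorem Sm_stp {E : Type} [NormedAddCommGroup E] [NormedSpace ℝ E] {f : E → ℝ} {x : E}
    (hf : Sm f x) (p q : ℝ) : Sm (fun y => stp (p * f y + q)) x := by
  filter_upwards [hf] with y h1
  exact stp_contDiff.contDiffAt.comp y ((contDiffAt_const.mul h1).add contDiffAt_const)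

theorem F_ne_of_siz {b : B} (h : 0 < siz F δ b) : F b ≠ 0 := by
  intro h0
  rw [siz, h0, norm_zero] at h
  simp at h

theorem dsp_ang {b : B} (h : F b ≠ 0) {τ : ℝ} (hτ : Ang (F b) τ) : dsp (ang (F b)) = dsp τ := by
  obtain ⟨n, hn⟩ := Ang.unique h (Ang_ang (F b)) hτ
  rw [hn, dsp_add_int]

include hFs hδ in
theorem shf_smooth {E : Type} [NormedAddCommGroup E] [NormedSpace ℝ E] [FiniteDimensional ℝ E]
    {u : E → B} {x : E} (hu : DB.At u x) : Sm (fun y => shf F δ (u y)) x := by
  have hX := siz_smooth (δ := δ) hFs hu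
  by_cases h0 : F (u x) = 0
  · have h1 : siz F δ (u x) = 0 := by rw [siz, h0]; simp
    have e : ∀ᶠ y in 𝓝 x, siz F δ (u y) < 1 / 12 :=
      hX.continuousAt.eventually_lt_const (show siz F δ (u x) < 1 / 12 by rw [h1]; norm_num)
    refine (Sm.of_contDiff (contDiff_const (c := (0 : ℝ))) x).congr ?_
    filter_upwards [e] with y hy
    rw [shf, chA, stp_of_le (by linarith), zero_mul]
  · have h1 : Sm (fun y => F (u y)) x := hFs hu
    obtain ⟨τ, hτ, hτ2⟩ := exists_branch h1 h0
    have e : ∀ᶠ y in 𝓝 x, F (u y) ≠ 0 := h1.continuousAt.eventually_ne h0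
    have h2 : Sm (fun y => stp (4 * siz F δ (u y) + 0) * dsp (τ y)) x := by
      filter_upwards [Sm_stp hX 4 0, hτ] with y h3 h4
      exact h3.mul (dsp_contDiff.contDiffAt.comp y h4)
    refine h2.congr ?_
    filter_upwards [e, hτ2] with y h3 h4
    rw [shf, chA, dsp_ang h3 h4, add_zero]

/-- the first homotopy: reparametrisation -/
noncomputable def HA (A : CAct DB) (F : B → ℂ) (δ : ℝ) (C : B → M) (b : B) (u : ℝ) : M :=
  C (A.φ b (stp u * shf F δ b))

include hFs hδ hC in
theorem HA_smooth : (DB.prod (Dif.lin ℝ)).Map DM (fun p => HA A F δ C p.1 p.2) := by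
  intro E _ _ _ w x hw
  refine hC (A.at_phi hw.1 ?_)
  have h1 : Sm (fun y => (w y).2) x := hw.2
  have h2 : Sm (fun y => shf F δ (w y).1) x := shf_smooth hFs hδ hw.1
  filter_upwards [h1, h2] with y h3 h4
  exact (stp_contDiff.contDiffAt.comp y h3).mul h4

include hFe in
theorem shf_phi (b : B) (t : ℝ) :
    shf F δ (A.φ b t) = chA F δ b * dsp (ang (F b) + t) := by
  have h1 : chA F δ (A.φ b t) = chA F δ b := by rw [chA, chA, siz_phi hFe]
  rw [shf, h1]
  by_cases h0 : F b = 0
  · have h2 : chA F δ b = 0 := by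
      rw [chA, siz, h0]
      exact stp_of_le (by simp)
    rw [h2, zero_mul, zero_mul]
  · have h2 : F (A.φ b t) ≠ 0 := by
      rw [← norm_ne_zero_iff, hFe.norm, norm_ne_zero_iff]
      exact h0
    rw [dsp_ang h2 (hFe.ang (Ang_ang (F b)) t)]

omit [MetricSpace M] in
theorem phi_per (C : B → M) (b : B) (t : ℝ) : C (A.φ b (t + 1)) = C (A.φ b t) := by
  have : t + 1 = t + ((1 : ℤ) : ℝ) := by simp
  rw [this, A.add_int]

include hFe in
theorem var_HA (b : B) (u : ℝ) :
    eVariationOn (fun t => HA A F δ C (A.φ b t) u) (Icc 0 1) ≤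
      eVariationOn (fun t => C (A.φ b t)) (Icc 0 1) := by
  set κ : ℝ := stp u * chA F δ b with hκ
  have hκ0 : 0 ≤ κ := mul_nonneg (stp_nonneg _) (stp_nonneg _)
  have hκ1 : κ ≤ 1 := mul_le_one₀ (stp_le_one _) (stp_nonneg _) (stp_le_one _)
  set τ : ℝ := ang (F b) with hτ
  have h1 : (fun t => HA A F δ C (A.φ b t) u) =
      fun t => C (A.φ b (t + κ * dsp (τ + t))) := by
    funext t
    rw [HA, shf_phi hFe, A.add, hκ, hτ, mul_assoc]
  rw [h1]
  have h2 : ∀ t, C (A.φ b (t + 1)) = C (A.φ b t) := phi_per C b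
  have h3 := var_reparam (c := fun t => C (A.φ b t)) h2 (m := fun t => t + κ * dsp (τ + t))
    (a := 0) ?_ ?_
  · simpa using h3
  · intro s _ t _ h
    have h4 := mul_le_mul_of_nonneg_left (bet_mono (show τ + s ≤ τ + t by linarith)) hκ0
    have h5 := mul_le_mul_of_nonneg_left h (show 0 ≤ 1 - κ by linarith)
    simp only [dsp]
    nlinarith
  · have h4 : τ + (0 + 1) = (τ + 0) + ((1 : ℤ) : ℝ) := by push_cast; ring
    simp only [h4, dsp_add_int]
    ring

/-- the second homotopy: contraction -/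
noncomputable def HB (A : CAct DB) (F : B → ℂ) (δ : ℝ) (C : B → M) (b : B) (u : ℝ) : M :=
  if siz F δ b ≤ 1 / 4 then HA A F δ C b 1 else St g A C b (ang (F b)) (chB F δ b * stp u)

theorem St_ang (C : B → M) {b : B} (h : F b ≠ 0) {τ : ℝ} (hτ : Ang (F b) τ) (s : ℝ) :
    St g A C b (ang (F b)) s = St g A C b τ s := by
  obtain ⟨n, hn⟩ := Ang.unique h (Ang_ang (F b)) hτ
  rw [hn, St_add_int]

theorem overlap (hD : 0 < D) (C : B → M) {b : B} (h1 : 1 / 4 < siz F δ b)
    (h2 : siz F δ b < 1 / 3) (u : ℝ) :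
    St g A C b (ang (F b)) (chB F δ b * stp u) = HA A F δ C b 1 := by
  have e1 : chB F δ b = 0 := stp_of_le h2.le
  have e2 : chA F δ b = 1 := stp_of_ge (by linarith)
  have e4 : stp 1 = 1 := stp_of_ge (by norm_num)
  rw [e1, zero_mul, St, Nl_zero g hD, HA, shf, e2, one_mul, e4, one_mul]
  have e3 : dsp (ang (F b)) = stp (2 * Int.fract (ang (F b)) - 1) - ang (F b) +
      ((⌊ang (F b)⌋ : ℤ) : ℝ) := by
    rw [dsp, bet]
    ring
  rw [e3, A.add_int]

/-- the loop with a moved base point -/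
theorem var_shift (C : B → M) (b : B) (τ : ℝ) :
    eVariationOn (fun x => C (A.φ b (x - τ))) (Icc 0 1) ≤
      eVariationOn (fun t => C (A.φ b t)) (Icc 0 1) := by
  have h3 := var_reparam (c := fun t => C (A.φ b t)) (phi_per C b) (m := fun t => t - τ)
    (a := 0) (fun s _ t _ h => by simpa using h) (by ring)
  simpa using h3

include hlen in
theorem dist_lt (b : B) (τ : ℝ) {s : ℝ} (hs : s ∈ Icc (0 : ℝ) 1) :
    dist (C (A.φ b (0 - τ))) (C (A.φ b (s - τ))) < D := by
  have h1 : (fun x => C (A.φ b (x - τ))) 1 = (fun x => C (A.φ b (x - τ))) 0 := by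
    have := loop_per A C b τ 0
    rw [zero_add] at this
    exact this
  have h2 := edist_lt_of_var h1 ((var_shift C b τ).trans_lt (hlen b)) hs.1 hs.2
  rw [edist_dist] at h2
  exact (ENNReal.ofReal_lt_ofReal_iff_of_nonneg dist_nonneg).1 h2

include hlen in
theorem D_pos (b : B) : 0 < D := by
  have h := dist_lt (A := A) hlen b 0 (s := 0) ⟨le_rfl, zero_le_one⟩
  rwa [dist_self] at h

include hFs hδ hC hlen in
theorem HB_smooth : (DB.prod (Dif.lin ℝ)).Map DM (fun p => HB g A F δ C p.1 p.2) := by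
  intro E _ _ _ w x hw
  have hv : Sm (fun y => (w y).2) x := hw.2
  have hu : DB.At (fun y => (w y).1) x := hw.1
  have hX := siz_smooth (δ := δ) hFs hu
  have hD : 0 < D := D_pos (A := A) hlen (w x).1
  rcases lt_or_ge (siz F δ (w x).1) (1 / 3) with h1 | h1
  · have e : ∀ᶠ y in 𝓝 x, siz F δ (w y).1 < 1 / 3 := hX.continuousAt.eventually_lt_const h1
    have h2 := HA_smooth (A := A) hFs hδ hC (u := fun y => ((w y).1, (1 : ℝ))) (x := x)
      ⟨hu, Sm.of_contDiff contDiff_const x⟩
    refine DM.congr h2 ?_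
    filter_upwards [e] with y hy
    change HA A F δ C (w y).1 1 = HB g A F δ C (w y).1 (w y).2
    rw [HB]
    split_ifs with h3
    · rfl
    · rw [overlap g hD C (not_le.1 h3) hy]
  · have e : ∀ᶠ y in 𝓝 x, 1 / 4 < siz F δ (w y).1 :=
      hX.continuousAt.eventually_const_lt (show 1 / 4 < siz F δ (w x).1 by linarith)
    have h0 : F (w x).1 ≠ 0 := F_ne_of_siz (δ := δ) (by linarith)
    have h2 : Sm (fun y => F (w y).1) x := hFs hu
    obtain ⟨τ, hτ, hτ2⟩ := exists_branch h2 h0
    have hs : Sm (fun y => stp (1 * siz F δ (w y).1 + 0) * stp (w y).2) x := by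
      filter_upwards [Sm_stp hX 1 0, hv] with y h3 h4
      exact h3.mul (stp_contDiff.contDiffAt.comp y h4)
    have h3 := St_smooth g A hC hu hτ hs ?_
    · refine DM.congr h3 ?_
      filter_upwards [e, hτ2] with y h4 h5
      change _ = HB g A F δ C (w y).1 (w y).2
      rw [HB, if_neg (not_le.2 h4), St_ang g C (F_ne_of_siz (δ := δ) (by linarith)) h5, one_mul,
        add_zero, chB]
    · exact dist_lt hlen _ _ ⟨mul_nonneg (stp_nonneg _) (stp_nonneg _),
        mul_le_one₀ (stp_le_one _) (stp_nonneg _) (stp_le_one _)⟩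

include hFe in
/-- the contracted loop, as a stage of the original one -/
theorem HB_phi {b : B} (h : 1 / 4 < siz F δ b) (u t : ℝ) :
    HB g A F δ C (A.φ b t) u = Nl g (fun x => C (A.φ b (x - ang (F b)))) (chB F δ b * stp u)
      (ang (F b) + t) := by
  have h1 : siz F δ (A.φ b t) = siz F δ b := siz_phi hFe b t
  have h2 : F (A.φ b t) ≠ 0 := F_ne_of_siz (δ := δ) (by rw [h1]; linarith)
  have h3 : chB F δ (A.φ b t) = chB F δ b := by rw [chB, chB, h1]
  rw [HB, if_neg (by rw [h1]; exact not_le.2 h), St_ang g C h2 (hFe.ang (Ang_ang (F b)) t),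
    St_phi, h3]

include hFe hlen in
theorem var_HB (b : B) (u : ℝ) :
    eVariationOn (fun t => HB g A F δ C (A.φ b t) u) (Icc 0 1) ≤
      eVariationOn (fun t => C (A.φ b t)) (Icc 0 1) := by
  rcases le_or_gt (siz F δ b) (1 / 4) with h1 | h1
  · have h2 : (fun t => HB g A F δ C (A.φ b t) u) = fun t => HA A F δ C (A.φ b t) 1 := by
      funext t
      rw [HB, if_pos (by rw [siz_phi hFe]; exact h1)]
    rw [h2]
    exact var_HA hFe b 1
  · have h2 : (fun t => HB g A F δ C (A.φ b t) u) = fun t =>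
        Nl g (fun x => C (A.φ b (x - ang (F b)))) (chB F δ b * stp u) (ang (F b) + t) := by
      funext t
      exact HB_phi g hFe h1 u t
    rw [h2]
    have hs : chB F δ b * stp u ∈ Icc (0 : ℝ) 1 := ⟨mul_nonneg (stp_nonneg _) (stp_nonneg _),
        mul_le_one₀ (stp_le_one _) (stp_nonneg _) (stp_le_one _)⟩
    have h3 := var_reparam (Nl_per g (fun x => C (A.φ b (x - ang (F b)))) (chB F δ b * stp u))
      (m := fun t => ang (F b) + t) (a := 0) (fun s _ t _ h => by simpa using h) (by ring)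
    have h4 := var_Nl g (c := fun x => C (A.φ b (x - ang (F b))))
      (fun t => loop_per A C b (ang (F b)) t) hs.1 hs.2 (dist_lt hlen b _ hs)
    have h5 : Icc (0 : ℝ) (0 + 1) = Icc 0 1 := by rw [zero_add]
    rw [h5] at h3
    exact (h3.trans h4).trans (var_shift C b _)

include g hFs hFe hδ hC hlen in
/-- one stage of the contraction -/
theorem stage : ∃ C' : B → M,
    Hty DM A (fun b => eVariationOn (fun t => C (A.φ b t)) (Icc 0 1))
      (fun b => ∀ t, C (A.φ b t) = C b) C C' ∧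
    ∀ b, δ ≤ ‖F b‖ → ∀ t, C' (A.φ b t) = C' b := by
  refine ⟨fun b => HB g A F δ C b 1, Hty.trans (C₁ := fun b => HA A F δ C b 1) ?_ ?_, ?_⟩
  · refine ⟨HA A F δ C, HA_smooth hFs hδ hC, fun b u hu => ?_, fun b u hu => ?_,
      fun b u => var_HA hFe b u, fun b hb u => ?_⟩
    · rw [HA, stp_of_le (by linarith), zero_mul, A.zero]
    · change HA A F δ C b u = HA A F δ C b 1
      rw [HA, HA, stp_of_ge (by linarith), stp_of_ge (by norm_num)]
    · rw [HA, hb]
  · refine ⟨HB g A F δ C, HB_smooth g hFs hδ hC hlen, fun b u hu => ?_, fun b u hu => ?_,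
      fun b u => var_HB g hFe hlen b u, fun b hb u => ?_⟩
    · have hD : 0 < D := D_pos (A := A) hlen b
      change HB g A F δ C b u = HA A F δ C b 1
      rw [HB]
      split_ifs with h1
      · rfl
      · have h1 := not_le.1 h1
        rw [stp_of_le (by linarith), mul_zero, St, Nl_zero g hD, HA, shf]
        have e2 : chA F δ b = 1 := stp_of_ge (by linarith)
        have e4 : stp 1 = 1 := stp_of_ge (by norm_num)
        rw [e2, one_mul, e4, one_mul]
        have e3 : dsp (ang (F b)) = stp (2 * Int.fract (ang (F b)) - 1) - ang (F b) +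
            ((⌊ang (F b)⌋ : ℤ) : ℝ) := by
          rw [dsp, bet]
          ring
        rw [e3, A.add_int]
    · change HB g A F δ C b u = HB g A F δ C b 1
      rw [HB, HB, stp_of_ge (by linarith), stp_of_ge (by norm_num)]
    · have hD : 0 < D := D_pos (A := A) hlen b
      change HB g A F δ C b u = HA A F δ C b 1
      rw [HB]
      split_ifs with h1
      · rfl
      · have h2 : (fun x => C (A.φ b (x - ang (F b)))) = fun _ => C b := by
          funext x
          exact hb _
        rw [St, h2, Nl_const g hD, HA, hb]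
  · intro b hb t
    have hD : 0 < D := D_pos (A := A) hlen b
    have h1 : 1 ≤ siz F δ b := by
      rw [siz, le_div_iff₀ (by positivity), one_mul]
      exact pow_le_pow_left₀ hδ.le hb 2
    have h2 : chB F δ b = 1 := stp_of_ge (by linarith)
    have key : ∀ t, HB g A F δ C (A.φ b t) 1 = C (A.φ b (0 - ang (F b))) := by
      intro t
      rw [HB_phi g hFe (by linarith), h2, stp_of_ge (by norm_num), one_mul]
      exact Nl_one g hD (c := fun x => C (A.φ b (x - ang (F b))))
        (fun t => loop_per A C b (ang (F b)) t) _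
    have h3 := key 0
    rw [A.zero] at h3
    change HB g A F δ C (A.φ b t) 1 = HB g A F δ C b 1
    rw [key t, h3]

end Stage

end Vale.Agent.P231.H766
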