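import Vale.Agent.P231.H766.Var
import Vale.Agent.P231.H766.Kap2
import Vale.Agent.P231.WC.Defs
import Vale.Agent.P231.WF.Top

/-!
# P231, block C: loops of small push-offs are uniformly shorter (C4)
-/

set_option maxSynthPendingDepth 3
set_option linter.unusedSectionVars false
set_option linter.unusedVariables false

open Bundle Manifold Set Filter Module MeasureTheory
open scoped ContDiff Manifold Topology ENNReal

namespace Vale.Agent.P231.H766

noncomputable section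

open Vale.Agent.P234 Vale.Agent.P231 Vale.Agent.P231.Fm Vale.Agent.P231.W Vale.Agent.P231.WC
open Vale.Agent.P231.WF

/-! ### functions on cylinders -/

section Abs

variable {X : Type*} {DX : Dif X}

/-- the time derivative of a smooth function on a cylinder is smooth -/
theorem map_deriv {f : X × ℝ → ℝ} (hf : (DX.prod (Dif.lin ℝ)).Map (Dif.lin ℝ) f) :
    (DX.prod (Dif.lin ℝ)).Map (Dif.lin ℝ) (fun p => deriv (fun r => f (p.1, r)) p.2) := by
  intro E _ _ _ u x hu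
  have hs : Sm (fun y => (u y).2) x := hu.2
  have h0 : Sm (fun p : E × ℝ => f ((u p.1).1, p.2)) (x, (u x).2) :=
    hf (u := fun p : E × ℝ => ((u p.1).1, p.2))
      ⟨DX.comp (u := fun y => (u y).1) (g := Prod.fst) (x := ((x, (u x).2) : E × ℝ)) hu.1
        (Sm.of_contDiff contDiff_fst _), Sm.of_contDiff contDiff_snd _⟩
  have h1 : Sm (fun p : E × ℝ => fderiv ℝ (fun p : E × ℝ => f ((u p.1).1, p.2)) p
      ((0 : E), (1 : ℝ))) (x, (u x).2) :=
    Sm.comp (f := fun L : E × ℝ →L[ℝ] ℝ => L ((0 : E), (1 : ℝ)))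
      (Sm.of_contDiff (ContinuousLinearMap.apply ℝ ℝ ((0 : E), (1 : ℝ))).contDiff _) h0.fderiv
  have h2 : Sm (fun y : E => fderiv ℝ (fun p : E × ℝ => f ((u p.1).1, p.2)) (y, (u y).2)
      ((0 : E), (1 : ℝ))) x :=
    Sm.comp (f := fun p : E × ℝ => fderiv ℝ (fun p : E × ℝ => f ((u p.1).1, p.2)) p
      ((0 : E), (1 : ℝ))) (g := fun y : E => (y, (u y).2)) h1
      (Sm.prodMk (Sm.of_contDiff contDiff_id _) hs)
  have h3 : Tendsto (fun y : E => (y, (u y).2)) (𝓝 x) (𝓝 (x, (u x).2)) :=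
    (continuousAt_id.prodMk hs.continuousAt).tendsto
  refine h2.congr ?_
  filter_upwards [h3.eventually h0.eventually] with y hy
  have h4 : HasFDerivAt (fun r : ℝ => ((y, r) : E × ℝ)) (ContinuousLinearMap.inr ℝ E ℝ) (u y).2 :=
    hasFDerivAt_prodMk_right y (u y).2
  have h5 := HasFDerivAt.comp (u y).2 (g := fun p : E × ℝ => f ((u p.1).1, p.2))
    hy.differentiableAt.hasFDerivAt h4
  have h6 := h5.hasDerivAt.deriv
  exact Eq.symm (by simpa [Function.comp_def] using h6)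

/-- the integral over time of a smooth function on a cylinder is smooth -/
theorem map_integral {f : X × ℝ → ℝ} (hf : (DX.prod (Dif.lin ℝ)).Map (Dif.lin ℝ) f) (c : ℝ) :
    DX.Map (Dif.lin ℝ) (fun x => ∫ t in (0 : ℝ)..c, f (x, t)) := by
  intro E _ _ _ u x hu
  obtain ⟨U, hU, hUo, hxU⟩ := mem_nhds_iff.1 (DX.open' hu)
  have hg : ContDiffOn ℝ (⊤ : ℕ∞) (fun p : E × ℝ => f (u p.1, c * p.2)) (U ×ˢ univ) := by
    rintro ⟨y, t⟩ ⟨hy, -⟩
    have h1 : Sm (fun p : E × ℝ => f (u p.1, c * p.2)) (y, t) :=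
      hf (u := fun p : E × ℝ => (u p.1, c * p.2))
        ⟨DX.comp (u := u) (g := Prod.fst) (x := ((y, t) : E × ℝ)) (hU hy)
          (Sm.of_contDiff contDiff_fst _),
          Sm.of_contDiff (contDiff_const.mul contDiff_snd) _⟩
    exact h1.contDiffAt.contDiffWithinAt
  have h2 := contDiffOn_time hUo hg
  have h3 : Sm (fun y => c * ∫ t in (0 : ℝ)..1, f (u y, c * t)) x :=
    Sm.of_contDiffOn (contDiffOn_const.mul h2) hUo hxU
  refine h3.congr (Eventually.of_forall fun y => ?_)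
  have h4 := intervalIntegral.smul_integral_comp_mul_left (a := 0) (b := 1)
    (fun t => f (u y, t)) c
  simp only [mul_zero, mul_one, smul_eq_mul] at h4
  exact h4

/-- the slices of a smooth function on a cylinder are smooth -/
theorem contDiff_slice {f : X × ℝ → ℝ} (hf : (DX.prod (Dif.lin ℝ)).Map (Dif.lin ℝ) f) {x : X}
    (hx : DX.At (fun _ : ℝ => x) 0) : ContDiff ℝ ∞ (fun r => f (x, r)) := by
  refine contDiff_iff_contDiffAt.2 fun r => ?_
  have h : Sm (fun r : ℝ => f (x, r)) r :=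
    hf (u := fun r : ℝ => (x, r)) ⟨Dif.At_const hx r, Sm.of_contDiff contDiff_id _⟩
  exact h.contDiffAt

end Abs

/-- a critical point of a strictly concave function is a strict maximum -/
theorem lt_of_concave {f : ℝ → ℝ} (hf : ContDiff ℝ ∞ f) (h0 : deriv f 0 = 0) {δ : ℝ}
    (h2 : ∀ r, |r| < δ → deriv (deriv f) r < 0) {ε : ℝ} (hε : ε ≠ 0) (hε' : |ε| < δ) :
    f ε < f 0 := by
  have hd : Continuous (deriv f) := hf.continuous_deriv (by simp)
  have h3 : ∀ r, 0 < r → r < δ → deriv f r < 0 := by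
    intro r hr hrδ
    have h4 : StrictAntiOn (deriv f) (Icc 0 r) := by
      refine strictAntiOn_of_deriv_neg (convex_Icc 0 r) hd.continuousOn fun s hs => ?_
      rw [interior_Icc] at hs
      exact h2 s (by rw [abs_of_pos hs.1]; linarith [hs.2])
    have := h4 ⟨le_rfl, hr.le⟩ ⟨hr.le, le_rfl⟩ hr
    rwa [h0] at this
  have h3' : ∀ r, r < 0 → -δ < r → 0 < deriv f r := by
    intro r hr hrδ
    have h4 : StrictAntiOn (deriv f) (Icc r 0) := by
      refine strictAntiOn_of_deriv_neg (convex_Icc r 0) hd.continuousOn fun s hs => ?_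
      rw [interior_Icc] at hs
      exact h2 s (by rw [abs_of_neg hs.2]; linarith [hs.1])
    have := h4 ⟨le_rfl, hr.le⟩ ⟨hr.le, le_rfl⟩ hr
    rwa [h0] at this
  rcases lt_or_gt_of_ne hε with h | h
  · have h5 : StrictMonoOn f (Icc ε 0) := by
      refine strictMonoOn_of_deriv_pos (convex_Icc ε 0) hf.continuous.continuousOn fun s hs => ?_
      rw [interior_Icc] at hs
      rw [abs_of_neg h] at hε'
      exact h3' s hs.2 (by linarith [hs.1])
    exact h5 ⟨le_rfl, h.le⟩ ⟨h.le, le_rfl⟩ h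
  · have h5 : StrictAntiOn f (Icc 0 ε) := by
      refine strictAntiOn_of_deriv_neg (convex_Icc 0 ε) hf.continuous.continuousOn fun s hs => ?_
      rw [interior_Icc] at hs
      rw [abs_of_pos h] at hε'
      exact h3 s hs.1 (by linarith [hs.2])
    exact h5 ⟨le_rfl, h.le⟩ ⟨h.le, le_rfl⟩ h

attribute [local instance] topUT

variable {E : Type*} [NormedAddCommGroup E] [NormedSpace ℝ E]
  {M : Type*} [MetricSpace M] [ChartedSpace E M]
  [RiemannianBundle (fun x : M => TangentSpace 𝓘(ℝ, E) x)]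
  {e : ∀ x : M, TangentSpace 𝓘(ℝ, E) x → M}
  [FiniteDimensional ℝ E] [IsManifold 𝓘(ℝ, E) ∞ M]
  [IsContMDiffRiemannianBundle 𝓘(ℝ, E) ∞ E (fun x : M => TangentSpace 𝓘(ℝ, E) x)]
  [CompactSpace M] [ConnectedSpace M] [IsRiemannianManifold 𝓘(ℝ, E) M]

/-- a smooth function on the cylinder over the unit tangent bundle which is critical and strictly
concave at `0` is uniformly smaller near `0` -/
theorem unif_lt_abs {f : UT E M × ℝ → ℝ} (hf : ((dUT E M).prod (Dif.lin ℝ)).Map (Dif.lin ℝ) f)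
    (h1 : ∀ v, deriv (fun ε => f (v, ε)) 0 = 0)
    (h2 : ∀ v, deriv (deriv (fun ε => f (v, ε))) 0 < 0) :
    ∃ ε₀ : ℝ, 0 < ε₀ ∧ ∀ ε, ε ≠ 0 → |ε| ≤ ε₀ → ∀ v, f (v, ε) < f (v, 0) := by
  have : CompactSpace (UT E M) := compactSpace_UT
  have hg1 : ((dUT E M).prod (Dif.lin ℝ)).Map (Dif.lin ℝ)
      (fun p => deriv (fun r => f (p.1, r)) p.2) := map_deriv hf
  have hg : ((dUT E M).prod (Dif.lin ℝ)).Map (Dif.lin ℝ)
      (fun p => deriv (fun r => deriv (fun r' => f (p.1, r')) r) p.2) := map_deriv hg1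
  have hc : Continuous fun p : UT E M × ℝ =>
      deriv (fun r => deriv (fun r' => f (p.1, r')) r) p.2 :=
    continuous_of_map_dUT_prod (D' := Dif.lin ℝ) (plotsCont_lin ℝ) hg
  have key : ∀ᶠ ε in 𝓝 (0 : ℝ), ∀ v ∈ (univ : Set (UT E M)),
      deriv (fun r => deriv (fun r' => f (v, r')) r) ε < 0 := by
    refine isCompact_univ.eventually_forall_of_forall_eventually fun v _ => ?_
    have h3 : Tendsto (fun z : ℝ × UT E M => deriv (fun r => deriv (fun r' => f (z.2, r')) r) z.1)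
        (𝓝 (0, v)) (𝓝 (deriv (fun r => deriv (fun r' => f (v, r')) r) 0)) :=
      (hc.comp continuous_swap).tendsto (0, v)
    exact h3.eventually_lt_const (h2 v)
  obtain ⟨δ, hδ, hδ'⟩ := Metric.eventually_nhds_iff.1 key
  refine ⟨δ / 2, by positivity, fun ε hε hε' v => ?_⟩
  refine lt_of_concave (f := fun ε => f (v, ε)) (δ := δ) (contDiff_slice hf (by
    have h : ∀ᶠ y in 𝓝 (0 : ℝ), ContMDiffAt 𝓘(ℝ, ℝ) 𝓘(ℝ, E).tangent ∞ (fun _ : ℝ => v.1) y :=
      Eventually.of_forall fun _ => contMDiffAt_const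
    exact h)) (h1 v) (fun r hr => ?_) hε (lt_of_le_of_lt hε' (by linarith))
  exact hδ' (by rw [Real.dist_eq, sub_zero]; exact hr) v (mem_univ v)

/-! ### the energy of the pushed-off loops -/

/-- translation of the parameter of a curve -/
theorem mfderiv_shift {c : ℝ → M} (t : ℝ) (hc : MDifferentiableAt 𝓘(ℝ, ℝ) 𝓘(ℝ, E) c t) :
    (mfderiv 𝓘(ℝ, ℝ) 𝓘(ℝ, E) (fun s : ℝ => c (t + s)) 0 (1 : ℝ) : E) =
      mfderiv 𝓘(ℝ, ℝ) 𝓘(ℝ, E) c t (1 : ℝ) := by
  have h0 : MDifferentiableAt 𝓘(ℝ, ℝ) 𝓘(ℝ, E) c (t + 0) := by rwa [add_zero]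
  have h1 : HasFDerivAt (fun s : ℝ => t + s) (ContinuousLinearMap.id ℝ ℝ) 0 :=
    (hasFDerivAt_id (0 : ℝ)).const_add t
  have h2 := HasMFDerivAt.comp (0 : ℝ) (g := c) (f := fun s : ℝ => t + s) h0.hasMFDerivAt
    h1.hasMFDerivAt
  have h3 := h2.mfderiv
  have h4 : ∀ (r : ℝ) (_ : r = t), (mfderiv 𝓘(ℝ, ℝ) 𝓘(ℝ, E) c r (1 : ℝ) : E) =
      mfderiv 𝓘(ℝ, ℝ) 𝓘(ℝ, E) c t (1 : ℝ) := by
    rintro r rfl
    rfl
  refine Eq.trans ?_ (h4 (t + 0) (add_zero t))
  have h5 := congrArg (fun L : ℝ →L[ℝ] E => L (1 : ℝ)) h3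
  exact h5

/-- the velocity of a curve, as a raw vector -/
def vl (c : ℝ → M) (t : ℝ) : E := mfderiv 𝓘(ℝ, ℝ) 𝓘(ℝ, E) c t (1 : ℝ)

theorem vl_shift {c c' : ℝ → M} (t : ℝ) (hc : MDifferentiableAt 𝓘(ℝ, ℝ) 𝓘(ℝ, E) c t)
    (h : ∀ s, c' s = c (t + s)) : vl (E := E) c' 0 = vl c t := by
  have h1 : c' = fun s => c (t + s) := funext h
  subst h1
  exact mfderiv_shift t hc

/-- the loops are smooth -/
theorem contMDiff_loop (F : Facts e) {C : UT E M → M} (hC : (dUT E M).Map (dM E M) C)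
    (v : UT E M) : ContMDiff 𝓘(ℝ, ℝ) 𝓘(ℝ, E) ∞ (fun r : ℝ => C (phi F (v, r))) := by
  intro t
  have hv : (dUT E M).At (fun _ : ℝ => v) t := by
    have h : ∀ᶠ y in 𝓝 t, ContMDiffAt 𝓘(ℝ, ℝ) 𝓘(ℝ, E).tangent ∞ (fun _ : ℝ => v.1) y :=
      Eventually.of_forall fun _ => contMDiffAt_const
    exact h
  have h2 : (dM E M).At (fun r : ℝ => C (phi F (v, r))) t :=
    hC (map_phi F (u := fun r : ℝ => (v, r)) ⟨hv, Sm.of_contDiff contDiff_id t⟩)
  exact Filter.Eventually.self_of_nhds h2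

theorem vlc_eq (F : Facts e) (C : UT E M → M) (v : UT E M) :
    vlc F C v = vl (fun s : ℝ => C (phi F (v, s))) 0 := rfl

/-- the velocity of the loop of `v` at time `t` -/
theorem vlc_phi (F : Facts e) {C : UT E M → M} (hC : (dUT E M).Map (dM E M) C) (v : UT E M)
    (t : ℝ) : vlc F C (phi F (v, t)) = vl (fun s : ℝ => C (phi F (v, s))) t := by
  rw [vlc_eq]
  refine vl_shift t ((contMDiff_loop F hC v).contMDiffAt.mdifferentiableAt (by simp)) fun s => ?_
  rw [phi_add]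

theorem map_Cm (F : Facts e) {Y : UT E M → E} (hY : IsFld Y) (ε : ℝ) :
    (dUT E M).Map (dM E M) (Cm e Y ε) := fun {E'} _ _ _ {u x} hu =>
  map_po F hY (u := fun y => (u y, ε)) ⟨hu, Sm.of_contDiff contDiff_const x⟩

/-- the energy as an integral over the loop -/
theorem en_eq (F : Facts e) (D : ℝ) {Y : UT E M → E} (hY : IsFld Y) (ε : ℝ) (v : UT E M) :
    en F D Y ε v = ∫ t in (0 : ℝ)..(2 * D), ‖(mfderiv 𝓘(ℝ, ℝ) 𝓘(ℝ, E)
      (fun t : ℝ => Cm e Y ε (phi F (v, t))) t (1 : ℝ) :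
      TangentSpace 𝓘(ℝ, E) (Cm e Y ε (phi F (v, t))))‖ ^ 2 := by
  unfold en
  refine intervalIntegral.integral_congr fun t _ => ?_
  change nm _ (vlc F (Cm e Y ε) (phi F (v, t))) ^ 2 = _
  rw [vlc_phi F (map_Cm F hY ε)]
  rfl

theorem en_zero (F : Facts e) (D : ℝ) {Y : UT E M → E} (hY : IsFld Y) (v : UT E M) :
    en F D Y 0 v = 2 * D := by
  have h1 : ∀ u : UT E M, Cm e Y 0 u = foot u := fun u => po_zero F Y u
  have h2 : ∀ t : ℝ, sp F Y 0 (phi F (v, t)) = 1 := by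
    intro t
    have h3 : (fun s : ℝ => Cm e Y 0 (phi F (v, s))) = gam e (foot v) (vec' v) := by
      funext s
      rw [h1]
      rfl
    have h4 : vlc F (Cm e Y 0) (phi F (v, t)) = vel e (foot v) (vec' v) t := by
      rw [vlc_phi F (map_Cm F hY 0), h3]
      exact mfderiv_gam F.isExp (foot v) (vec' v) t
    have h5 : nm (gam e (foot v) (vec' v) t) (vel e (foot v) (vec' v) t) = 1 :=
      (nm_vel F _ _ _).trans (nm_vec' v)
    unfold sp
    rw [h4, h1]
    change nm (gam e (foot v) (vec' v) t) _ ^ 2 = 1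
    rw [h5, one_pow]
  unfold en
  simp only [h2, intervalIntegral.integral_const, sub_zero, smul_eq_mul, mul_one]

/-- the speed is smooth, if the velocity is -/
theorem map_sp (F : Facts e) {Y : UT E M → E}
    (hvel : ((dUT E M).prod (Dif.lin ℝ)).Map (dTM E M)
      (fun p => tb (Cm e Y p.2 p.1) (vlc F (Cm e Y p.2) p.1))) :
    ((dUT E M).prod (Dif.lin ℝ)).Map (Dif.lin ℝ) (fun p => sp F Y p.2 p.1) := by
  intro E' _ _ _ u x hu
  have h1 : ∀ᶠ s in 𝓝 x, H775.SmV (fun s => Cm e Y (u s).2 (u s).1)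
      (fun s => tt (Cm e Y (u s).2 (u s).1) (vlc F (Cm e Y (u s).2) (u s).1)) s := hvel hu
  have h2 : ∀ᶠ s in 𝓝 x, ContDiffAt ℝ ∞ (fun s => sp F Y (u s).2 (u s).1) s := by
    filter_upwards [h1] with s hs using hs.norm_sq
  exact h2

theorem map_en (F : Facts e) (D : ℝ) {Y : UT E M → E}
    (hvel : ((dUT E M).prod (Dif.lin ℝ)).Map (dTM E M)
      (fun p => tb (Cm e Y p.2 p.1) (vlc F (Cm e Y p.2) p.1))) :
    ((dUT E M).prod (Dif.lin ℝ)).Map (Dif.lin ℝ) (fun p => en F D Y p.2 p.1) := by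
  have h1 : (((dUT E M).prod (Dif.lin ℝ)).prod (Dif.lin ℝ)).Map (Dif.lin ℝ)
      (fun q : (UT E M × ℝ) × ℝ => sp F Y q.1.2 (phi F (q.1.1, q.2))) :=
    fun {E'} _ _ _ {u x} hu =>
      map_sp F hvel (u := fun y => (phi F ((u y).1.1, (u y).2), (u y).1.2))
        ⟨map_phi F (u := fun y => ((u y).1.1, (u y).2)) ⟨hu.1.1, hu.2⟩, hu.1.2⟩
  have h2 : ((dUT E M).prod (Dif.lin ℝ)).Map (Dif.lin ℝ) (fun p : UT E M × ℝ =>
      ∫ t in (0 : ℝ)..(2 * D), (fun q : (UT E M × ℝ) × ℝ =>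
        sp F Y q.1.2 (phi F (q.1.1, q.2))) (p, t)) :=
    map_integral h1 (2 * D)
  intro E' _ _ _ u x hu
  have h3 : Sm ((fun p : UT E M × ℝ => ∫ t in (0 : ℝ)..(2 * D),
    (fun q : (UT E M × ℝ) × ℝ => sp F Y q.1.2 (phi F (q.1.1, q.2))) (p, t)) ∘ u) x := h2 hu
  exact h3

/-- **C4.** Small push-offs along a field for which the energy is critical and strictly concave
are uniformly shorter than the closed geodesics. -/
theorem unif_lt (F : Facts e) {D : ℝ} (hD : 0 < D) {Y : UT E M → E}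
    (hY : (dUT E M).Map (dTM E M) (fun v => tb (foot v) (Y v)))
    (hvel : ((dUT E M).prod (Dif.lin ℝ)).Map (dTM E M)
      (fun p => tb (Cm e Y p.2 p.1) (vlc F (Cm e Y p.2) p.1)))
    (h1 : ∀ v, deriv (fun ε => en F D Y ε v) 0 = 0)
    (h2 : ∀ v, deriv (deriv (fun ε => en F D Y ε v)) 0 < 0) :
    ∃ ε₀ : ℝ, 0 < ε₀ ∧ ∀ ε, ε ≠ 0 → |ε| ≤ ε₀ → ∀ v,
      eVariationOn (fun t => Cm e Y ε (phi F (v, t))) (Icc 0 (2 * D)) <
        ENNReal.ofReal (2 * D) := by
  obtain ⟨ε₀, hε₀, h⟩ := unif_lt_abs (f := fun p : UT E M × ℝ => en F D Y p.2 p.1)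
    (map_en F D hvel) h1 h2
  refine ⟨ε₀, hε₀, fun ε hε hε' v => ?_⟩
  have h3 : en F D Y ε v < 2 * D := by
    have := h ε hε hε' v
    simp only at this
    rwa [en_zero F D hY] at this
  rw [en_eq F D hY] at h3
  exact variation_lt (contMDiff_loop F (map_Cm F hY ε) v) hD h3

end

end Vale.Agent.P231.H766
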