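import Vale.Agent.P231.H775.SmV

/-!
# P231, block C: variation of a smooth curve, and its energy
-/

set_option maxSynthPendingDepth 3
set_option linter.unusedSectionVars false
set_option linter.unusedVariables false

open Bundle Manifold Set Filter Module MeasureTheory
open scoped ContDiff Manifold Topology ENNReal

namespace Vale.Agent.P231.H766

noncomputable section

open Vale.Agent.P234 Vale.Agent.P231

variable {E : Type*} [NormedAddCommGroup E] [NormedSpace ℝ E]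
  {M : Type*} [MetricSpace M] [ChartedSpace E M]
  [RiemannianBundle (fun x : M => TangentSpace 𝓘(ℝ, E) x)]
  [FiniteDimensional ℝ E] [IsManifold 𝓘(ℝ, E) ∞ M]
  [IsContMDiffRiemannianBundle 𝓘(ℝ, E) ∞ E (fun x : M => TangentSpace 𝓘(ℝ, E) x)]
  [CompactSpace M] [ConnectedSpace M] [IsRiemannianManifold 𝓘(ℝ, E) M]

/-- the variation of a curve is at most its length -/
theorem eVariationOn_le_pathELength {c : ℝ → M} (hc : ContMDiff 𝓘(ℝ, ℝ) 𝓘(ℝ, E) 1 c)
    {a b : ℝ} (hab : a ≤ b) :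
    eVariationOn c (Icc a b) ≤ Manifold.pathELength 𝓘(ℝ, E) c a b := by
  have h0 : ∀ s t : ℝ, s ≤ t → edist (c s) (c t) ≤ Manifold.pathELength 𝓘(ℝ, E) c s t := by
    intro s t hst
    rw [IsRiemannianManifold.out (I := 𝓘(ℝ, E)) (c s) (c t)]
    exact Manifold.riemannianEDist_le_pathELength hc.contMDiffOn rfl rfl hst
  unfold eVariationOn
  refine iSup_le fun p => ?_
  obtain ⟨n, u, hu, hmem⟩ := p
  have h1 : ∀ k : ℕ, ∑ i ∈ Finset.range k, edist (c (u (i + 1))) (c (u i)) ≤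
      Manifold.pathELength 𝓘(ℝ, E) c (u 0) (u k) := by
    intro k
    induction k with
    | zero => simp
    | succ k ih =>
      rw [Finset.sum_range_succ, ← Manifold.pathELength_add (hu (Nat.zero_le k)) (hu k.le_succ)]
      refine add_le_add ih ?_
      rw [edist_comm]
      exact h0 _ _ (hu k.le_succ)
  exact (h1 n).trans (Manifold.pathELength_mono (hmem 0).1 (hmem n).2)

/-- the velocity of a smooth curve is smooth -/
theorem continuous_speed_sq {c : ℝ → M} (hc : ContMDiff 𝓘(ℝ, ℝ) 𝓘(ℝ, E) ∞ c) :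
    Continuous fun t : ℝ => ‖(mfderiv 𝓘(ℝ, ℝ) 𝓘(ℝ, E) c t (1 : ℝ) :
      TangentSpace 𝓘(ℝ, E) (c t))‖ ^ 2 := by
  have h1 : ContMDiff 𝓘(ℝ, ℝ).tangent 𝓘(ℝ, E).tangent ∞ (tangentMap 𝓘(ℝ, ℝ) 𝓘(ℝ, E) c) :=
    hc.contMDiff_tangentMap (by simp)
  have h2 : ContMDiff 𝓘(ℝ, ℝ) 𝓘(ℝ, ℝ).tangent ∞
      (fun t : ℝ => (⟨t, (1 : ℝ)⟩ : TangentBundle 𝓘(ℝ, ℝ) ℝ)) := by
    intro t
    rw [Bundle.contMDiffAt_totalSpace]
    refine ⟨contMDiffAt_id, ?_⟩
    refine (contMDiffAt_const (c := (1 : ℝ))).congr_of_eventuallyEq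
      (Filter.Eventually.of_forall fun w => ?_)
    simp
  have h3 : ∀ t, H775.SmV (M := M) (E := E) c
      (fun t => (mfderiv 𝓘(ℝ, ℝ) 𝓘(ℝ, E) c t (1 : ℝ) : TangentSpace 𝓘(ℝ, E) (c t))) t :=
    fun t => (h1.comp h2).contMDiffAt
  exact continuous_iff_continuousAt.2 fun t => (h3 t).norm_sq.continuousAt

/-- a closed curve of energy less than that of the closed geodesics is shorter -/
theorem variation_lt {c : ℝ → M} (hc : ContMDiff 𝓘(ℝ, ℝ) 𝓘(ℝ, E) ∞ c) {D : ℝ} (hD : 0 < D)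
    (hE : ∫ t in (0 : ℝ)..(2 * D), ‖(mfderiv 𝓘(ℝ, ℝ) 𝓘(ℝ, E) c t (1 : ℝ) :
      TangentSpace 𝓘(ℝ, E) (c t))‖ ^ 2 < 2 * D) :
    eVariationOn c (Icc 0 (2 * D)) < ENNReal.ofReal (2 * D) := by
  have h2D : (0 : ℝ) ≤ 2 * D := by linarith
  have hcont := continuous_speed_sq hc
  set f : ℝ → ℝ := fun t => ‖(mfderiv 𝓘(ℝ, ℝ) 𝓘(ℝ, E) c t (1 : ℝ) :
      TangentSpace 𝓘(ℝ, E) (c t))‖ ^ 2 with hf
  refine (eVariationOn_le_pathELength (hc.of_le (by simp)) h2D).trans_lt ?_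
  rw [Manifold.pathELength_eq_lintegral_mfderiv_Icc]
  have h1 : ∫⁻ t in Icc 0 (2 * D), ‖(mfderiv 𝓘(ℝ, ℝ) 𝓘(ℝ, E) c t (1 : ℝ) :
      TangentSpace 𝓘(ℝ, E) (c t))‖ₑ ≤ ∫⁻ t in Icc 0 (2 * D), ENNReal.ofReal ((f t + 1) / 2) := by
    refine lintegral_mono fun t => ?_
    rw [← ofReal_norm]
    refine ENNReal.ofReal_le_ofReal ?_
    rw [hf]
    nlinarith [sq_nonneg (‖(mfderiv 𝓘(ℝ, ℝ) 𝓘(ℝ, E) c t (1 : ℝ) :
      TangentSpace 𝓘(ℝ, E) (c t))‖ - 1)]
  refine h1.trans_lt ?_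
  have hi : Integrable (fun t => (f t + 1) / 2) (volume.restrict (Icc 0 (2 * D))) :=
    ((hcont.add continuous_const).div_const 2).continuousOn.integrableOn_Icc
  rw [← ofReal_integral_eq_lintegral_ofReal hi (Eventually.of_forall fun t => by
    have : 0 ≤ f t := sq_nonneg _
    positivity)]
  refine (ENNReal.ofReal_lt_ofReal_iff (by linarith)).2 ?_
  rw [integral_Icc_eq_integral_Ioc, ← intervalIntegral.integral_of_le h2D,
    intervalIntegral.integral_div, intervalIntegral.integral_add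
      (hcont.intervalIntegrable _ _) (continuous_const.intervalIntegrable _ _)]
  simp only [intervalIntegral.integral_const, sub_zero, smul_eq_mul, mul_one]
  linarith

end

end Vale.Agent.P231.H766
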